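import Vale.Agent.P269.H597.GenusZero

/-!
# The Virasoro constraints, in the form of the definitions
-/

set_option linter.unusedSectionVars false

namespace Vale.Agent.P269.H597

open Finset.HasAntidiagonal (antidiagonal)
open Vale.Agent.P269
open CI
open Coh (low qform)

variable {X : CompleteIntersection} {F : ℕ → ℕ → List (Ins X) → ℂ}

lemma linTerm_eq (k : ℕ) (x : Ins X) (G : Ins X → ℂ) : linTerm X (k + 1) x G =
    ev ℂ (Ins X) ℂ ((coh X).Aop k (Finsupp.single x 1)) G := by
  have h := (coh X).ev_Aop k x G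
  rw [h]
  unfold linTerm
  refine Finset.sum_congr rfl fun i _ => ?_
  refine Finset.sum_congr rfl fun b _ => ?_
  by_cases hi : i ≤ x.2 + k
  · rw [if_pos hi, if_pos (show i + 1 ≤ x.2 + (k + 1) by omega)]
    have h1 : x.2 + (k + 1) - 1 - i = x.2 + k - i := rfl
    rw [h1]
    rfl
  · rw [if_neg hi, if_neg (show ¬ (i + 1 ≤ x.2 + (k + 1)) by omega)]

lemma quad2_eq (k : ℕ) (A B : List (Ins X) → ℂ) (L : List (Ins X)) :
    (coh X).quad2 k A B L = ∑ m ∈ Finset.range k, ∑ i ∈ Finset.range (k - m), ∑ a, ∑ b, ∑ c,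
    ((-1) ^ (m + 1) * esym (k + 1) i (mu X a - m - 1 / 2) * pairingInv X a b * c1pow X i a c) *
      shuffle X L (fun M => A ((b, m) :: M)) (fun M => B ((c, k - 1 - m - i) :: M)) := by
  unfold Coh.quad2
  refine Finset.sum_congr rfl fun m _ => ?_
  refine Finset.sum_congr rfl fun i _ => ?_
  refine Finset.sum_congr rfl fun a _ => ?_
  refine Finset.sum_congr rfl fun b _ => ?_
  refine Finset.sum_congr rfl fun c _ => ?_
  rw [← shuffle_eq]
  congr 1
  unfold Coh.cf
  have h1 : (coh X).mu a - (m : ℂ) - 1 + (coh X).half = mu X a - m - 1 / 2 := by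
    have e1 : (coh X).mu a = mu X a := rfl
    have e2 : (coh X).half = 1 / 2 := rfl
    rw [e1, e2]; ring
  rw [h1]
  rfl

lemma loop_eq (k : ℕ) (A : List (Ins X) → ℂ) (L : List (Ins X)) :
    (coh X).loop A k L = ∑ m ∈ Finset.range k, ∑ i ∈ Finset.range (k - m), ∑ a, ∑ b, ∑ c,
    ((-1) ^ (m + 1) * esym (k + 1) i (mu X a - m - 1 / 2) * pairingInv X a b * c1pow X i a c) *
      A ((c, k - 1 - m - i) :: (b, m) :: L) := by
  unfold Coh.loop
  refine Finset.sum_congr rfl fun m _ => ?_
  refine Finset.sum_congr rfl fun i _ => ?_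
  refine Finset.sum_congr rfl fun a _ => ?_
  refine Finset.sum_congr rfl fun b _ => ?_
  refine Finset.sum_congr rfl fun c _ => ?_
  congr 1
  unfold Coh.cf
  have h1 : (coh X).mu a - (m : ℂ) - 1 + (coh X).half = mu X a - m - 1 / 2 := by
    have e1 : (coh X).mu a = mu X a := rfl
    have e2 : (coh X).half = 1 / 2 := rfl
    rw [e1, e2]; ring
  rw [h1]
  rfl

lemma kap_eq : (coh X).kap = str X (fun _ => 1) / 16 - str X (fun a => mu X a ^ 2) / 4 := by
  unfold Coh.kap str
  rw [Finset.sum_div, Finset.sum_div, ← Finset.sum_sub_distrib, Finset.mul_sum]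
  refine Finset.sum_congr rfl fun a _ => ?_
  have e1 : (coh X).sn a = CI.sgn (par X a) (par X a) := rfl
  have e2 : (coh X).half = 1 / 2 := rfl
  have e3 : (coh X).mu a = mu X a := rfl
  rw [e1, e2, e3]
  ring

theorem virasoro_succ (k g d : ℕ) (L : List (Ins X)) :
    virasoro X F (k + 1) g d L = (coh X).vir F k g d L := by
  unfold virasoro Coh.vir Coh.lin
  congr 1
  · congr 1
    · congr 1
      · rw [rep_eq_sum, linTerm_eq]
        congr 1
        refine Finset.sum_congr rfl fun j _ => ?_
        rw [linTerm_eq]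
      · have e2 : (coh X).half = 1 / 2 := rfl
        rw [e2]
        congr 1
        have hq : ∀ (u v : ℕ × ℕ), (coh X).quad2 k (F u.1 v.1) (F u.2 v.2) L = _ :=
          fun u v => quad2_eq k (F u.1 v.1) (F u.2 v.2) L
        simp only [hq]
        have hl : (if g = 0 then 0 else (coh X).loop (F (g - 1) d) k L) =
            ∑ m ∈ Finset.range k, ∑ i ∈ Finset.range (k - m), ∑ a, ∑ b, ∑ c,
            ((-1) ^ (m + 1) * esym (k + 1) i (mu X a - m - 1 / 2) * pairingInv X a b *
              c1pow X i a c) *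
            (if g = 0 then 0 else F (g - 1) d ((c, k - 1 - m - i) :: (b, m) :: L)) := by
          split
          · simp
          · exact loop_eq k (F (g - 1) d) L
        rw [hl]
        have hs : ∀ f : ℕ × ℕ → ℕ × ℕ → ℕ → ℕ → Ix X → Ix X → Ix X → ℂ,
            ∑ u ∈ antidiagonal g, ∑ v ∈ antidiagonal d, ∑ m ∈ Finset.range k,
              ∑ i ∈ Finset.range (k - m), ∑ a, ∑ b, ∑ c, f u v m i a b c =
            ∑ m ∈ Finset.range k, ∑ i ∈ Finset.range (k - m), ∑ a, ∑ b, ∑ c,
              ∑ u ∈ antidiagonal g, ∑ v ∈ antidiagonal d, f u v m i a b c := by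
          intro f
          simp only [← Finset.sum_product' (antidiagonal g) (antidiagonal d)]
          rw [Finset.sum_comm]
          refine Finset.sum_congr rfl fun m _ => ?_
          rw [Finset.sum_comm]
          refine Finset.sum_congr rfl fun i _ => ?_
          rw [Finset.sum_comm]
          refine Finset.sum_congr rfl fun a _ => ?_
          rw [Finset.sum_comm]
          refine Finset.sum_congr rfl fun b _ => ?_
          rw [Finset.sum_comm]
        rw [hs, ← Finset.sum_add_distrib, Nat.add_sub_cancel]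
        refine Finset.sum_congr rfl fun m _ => ?_
        rw [← Finset.sum_add_distrib]
        refine Finset.sum_congr rfl fun i _ => ?_
        rw [← Finset.sum_add_distrib]
        refine Finset.sum_congr rfl fun a _ => ?_
        rw [← Finset.sum_add_distrib]
        refine Finset.sum_congr rfl fun b _ => ?_
        rw [← Finset.sum_add_distrib]
        refine Finset.sum_congr rfl fun c _ => ?_
        have h1 : k + 1 - 2 - m - i = k - 1 - m - i := rfl
        rw [h1, mul_add, Finset.mul_sum]
        congr 1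
        refine Finset.sum_congr rfl fun u _ => ?_
        rw [Finset.mul_sum]
    · rw [pairTerm_eq]
      rfl
  · by_cases h : k = 0 ∧ g = 1 ∧ d = 0
    · rw [if_pos h, if_pos (by omega), emptyTerm_eq, kap_eq]
    · rw [if_neg h, if_neg (by omega)]

lemma esym_zero (x : ℂ) : esym 0 0 x = 1 := by simp [esym]

lemma c1pow_zero (a b : Ix X) : c1pow X 0 a b = if a = b then 1 else 0 := by
  simp [c1pow, Matrix.one_apply]

lemma linTerm_zero (x : Ins X) (G : Ins X → ℂ) : linTerm X 0 x G =
    if x.2 = 0 then 0 else G (x.1, x.2 - 1) := by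
  unfold linTerm
  rw [Finset.sum_range_one]
  simp only [esym_zero, c1pow_zero]
  by_cases h : x.2 = 0
  · rw [if_pos h, Finset.sum_eq_zero]
    intro b _
    rw [if_neg (by omega)]
  · rw [if_neg h, Finset.sum_eq_single x.1]
    · rw [if_pos (by omega), if_pos rfl, one_mul, one_mul]
      rfl
    · intro b _ hb
      rw [if_pos (by omega), if_neg (Ne.symm hb)]
      ring
    · simp

theorem virasoro_zero (hF : IsGW X F) (g d : ℕ) (L : List (Ins X)) :
    virasoro X F 0 g d L = 0 := by
  unfold virasoro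
  have h1 := hF.string g d L
  unfold lowerSum at h1
  have h2 : ∑ j : Fin L.length, linTerm X 0 (L.get j) (fun x => F g d (L.set j x)) =
      ∑ j : Fin L.length, if (L.get j).2 = 0 then 0 else
      ∑ b, (if (L.get j).1 = b then 1 else 0) * F g d (L.set j (b, (L.get j).2 - 1)) := by
    refine Finset.sum_congr rfl fun j _ => ?_
    rw [linTerm_zero]
    split
    · rfl
    · rw [Finset.sum_eq_single (L.get j).1]
      · rw [if_pos rfl, one_mul]
      · intro b _ hb
        rw [if_neg (Ne.symm hb), zero_mul]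
      · simp
  have h3 : (fun a b => ∑ c, c1pow X 0 a c * pairing X c b) = pairing X := by
    funext a b
    rw [Finset.sum_eq_single a]
    · rw [c1pow_zero, if_pos rfl, one_mul]
    · intro c _ hc
      rw [c1pow_zero, if_neg (Ne.symm hc), zero_mul]
    · simp
  rw [h2, h3, linTerm_zero, if_neg (by simp)]
  have h4 : ∑ m ∈ Finset.range (0 - 1), ∑ i ∈ Finset.range (0 - 1 - m), ∑ a, ∑ b, ∑ c,
    (-1) ^ (m + 1) * esym 0 i (mu X a - m - 1 / 2) * pairingInv X a b * c1pow X i a c *
      ((∑ u ∈ antidiagonal g, ∑ v ∈ antidiagonal d, shuffle X L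
        (fun M => F u.1 v.1 ((b, m) :: M)) (fun M => F u.2 v.2 ((c, 0 - 2 - m - i) :: M))) +
      (if g = 0 then 0 else F (g - 1) d ((c, 0 - 2 - m - i) :: (b, m) :: L))) = 0 := by
    simp
  rw [h4, if_neg (show ¬ (0 = 1 ∧ g = 1 ∧ d = 0) by omega)]
  have h5 : F g d ((one X, 1 - 1) :: L) = F g d ((one X, 0) :: L) := rfl
  rw [h5]
  linear_combination -h1

theorem virasoro_all (hF : IsGW X F)
    (hk : str X (fun _ => 1) / 16 - str X (fun a => mu X a ^ 2) / 4 =
      (3 - (X.dim : ℂ)) / 48 * (deg X * chernCoeff X X.dim) -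
      (index X : ℂ) / 24 * (deg X * chernCoeff X (X.dim - 1)))
    (K g d : ℕ) (hgd : g = 0 ∨ (1 - (g : ℤ)) * (X.dim - 3) + index X * d ≤ 0)
    (L : List (Ins X)) : virasoro X F K g d L = 0 := by
  cases K with
  | zero => exact virasoro_zero hF g d L
  | succ k =>
    rw [virasoro_succ]
    exact vir_all hF (by rw [kap_eq, hk]) k g d hgd L

end Vale.Agent.P269.H597
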