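import Mathlib

/-!
# The Virasoro constraints for complete intersections: definitions

Everything the main theorem talks about.  `CompleteIntersection` records the cohomology ring,
the Hodge structure and the Chern classes of a smooth complete intersection of dimension at
least three, `IsGW` the standard axioms for its descendant Gromov-Witten invariants, and
`virasoro X F K g d L` is the coefficient of `ħ^{g-1} Q^d` and of the monomial of `L` in
`Z⁻¹ L_{K-1} Z`.
-/

namespace Vale.Agent.P269.CI

open Finset.HasAntidiagonal (antidiagonal)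

/-- Hirzebruch's generating function of the `χ_y`-genera of complete intersections of
multidegree `degs`: the coefficient of `z^N` of the series `chi` is the `χ_y`-genus of the
complete intersection in `ℙ^N`.  Here `y` is the variable of `ℤ[X]` and `z` that of the power
series. -/
def Hirzebruch (degs : List ℕ) (chi : PowerSeries (Polynomial ℤ)) : Prop :=
  let y : PowerSeries (Polynomial ℤ) := PowerSeries.C Polynomial.X
  let z : PowerSeries (Polynomial ℤ) := PowerSeries.X
  chi * ((1 + z * y) * (1 - z) *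
      (degs.map fun d => (1 + z * y) ^ d + y * (1 - z) ^ d).prod) =
    (degs.map fun d => (1 + z * y) ^ d - (1 - z) ^ d).prod

/-- The cohomology of a smooth complete intersection of dimension `dim ≥ 3` and multidegree
`degs` in `ℙ^N`, `N = dim + number of equations`: a finite homogeneous basis `Prim` of the
primitive cohomology, its Hodge types `(hodgeP a, dim - hodgeP a)` and its intersection form.
The numbers of basis elements are the Hodge numbers given by Hirzebruch's formula. -/
structure CompleteIntersection where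
  dim : ℕ
  two_le_dim : 2 ≤ dim
  degs : List ℕ
  degs_pos : ∀ d ∈ degs, 1 ≤ d
  Prim : Type
  [fintypePrim : Fintype Prim]
  [decEqPrim : DecidableEq Prim]
  hodgeP : Prim → ℕ
  hodgeP_le : ∀ a, hodgeP a ≤ dim
  form : Prim → Prim → ℂ
  form_symm : ∀ a b, form a b = (-1) ^ dim * form b a
  form_hodge : ∀ a b, form a b ≠ 0 → hodgeP a + hodgeP b = dim
  form_nondeg : (Matrix.of form).det ≠ 0
  chiY : PowerSeries (Polynomial ℤ)
  hirzebruch : Hirzebruch degs chiY
  hodge_numbers : ∀ p ≤ dim, (PowerSeries.coeff (dim + degs.length) chiY).coeff p =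
    (-1) ^ p + (-1) ^ (dim - p) * ((Finset.univ.filter fun a => hodgeP a = p).card : ℤ)

attribute [instance] CompleteIntersection.fintypePrim CompleteIntersection.decEqPrim

variable (X : CompleteIntersection)

/-- The basis of the cohomology: `1, h, …, h^dim` and the primitive classes. -/
abbrev Ix := Fin (X.dim + 1) ⊕ X.Prim

/-- Parity of a cohomology class (`true` = odd degree). -/
def par : Ix X → Bool
  | Sum.inl _ => false
  | Sum.inr _ => X.dim % 2 == 1

/-- The first Hodge index `p` of a class in `H^{p,q}`. -/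
def hp : Ix X → ℕ
  | Sum.inl j => j
  | Sum.inr a => X.hodgeP a

/-- The second Hodge index `q` of a class in `H^{p,q}`. -/
def hq : Ix X → ℕ
  | Sum.inl j => j
  | Sum.inr a => X.dim - X.hodgeP a

/-- The degree `∫ h^dim`. -/
noncomputable def deg : ℂ := (X.degs.prod : ℂ)

/-- The Poincaré pairing `∫ φ_a φ_b`. -/
noncomputable def pairing : Ix X → Ix X → ℂ
  | Sum.inl i, Sum.inl j => if (i : ℕ) + j = X.dim then deg X else 0
  | Sum.inr a, Sum.inr b => X.form a b
  | _, _ => 0

/-- The inverse of the matrix of the Poincaré pairing. -/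
noncomputable def pairingInv : Ix X → Ix X → ℂ
  | Sum.inl i, Sum.inl j => if (i : ℕ) + j = X.dim then (deg X)⁻¹ else 0
  | Sum.inr a, Sum.inr b => (Matrix.of X.form)⁻¹ a b
  | _, _ => 0

/-- The unit class. -/
def one : Ix X := Sum.inl 0

/-- The hyperplane class. -/
def hcls : Ix X := Sum.inl ⟨1, by have := X.two_le_dim; omega⟩

/-- The matrix of `h ∪`: `h ∪ φ_a = ∑ b, hmul a b • φ_b`. -/
noncomputable def hmul : Ix X → Ix X → ℂ
  | Sum.inl i, Sum.inl j => if (j : ℕ) = i + 1 then 1 else 0
  | _, _ => 0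

/-- The index `ν`, `c_1(X) = ν h`. -/
def index : ℤ := (X.dim : ℤ) + X.degs.length + 1 - X.degs.sum

/-- The matrix of `R = c_1(X) ∪`. -/
noncomputable def c1 (a b : Ix X) : ℂ := index X * hmul X a b

/-- The total Chern class `(1 + h)^{N+1} / ∏ (1 + d_i h)` as a power series in `h`. -/
noncomputable def chern : PowerSeries ℂ :=
  (1 + PowerSeries.X) ^ (X.dim + X.degs.length + 1) *
    ((X.degs.map fun d : ℕ => (1 + (d : PowerSeries ℂ) * PowerSeries.X)).prod)⁻¹

/-- The `j`-th Chern class is `chernCoeff j • h^j`. -/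
noncomputable def chernCoeff (j : ℕ) : ℂ := PowerSeries.coeff j (chern X)

/-- The eigenvalue `p - dim/2` of `μ` on a basis class. -/
noncomputable def mu (a : Ix X) : ℂ := (hp X a : ℂ) - (X.dim : ℂ) / 2

/-- The sign `(-1)^{ab}`. -/
def sgn (a b : Bool) : ℂ := if a && b then -1 else 1

/-- The supertrace of a diagonal operator. -/
noncomputable def str (f : Ix X → ℂ) : ℂ := ∑ a, sgn (par X a) (par X a) * f a

/-- The integral over `X` of a product of basis classes, in the given order. -/
noncomputable def integral (L : List (Ix X)) : ℂ :=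
  match L.filter (fun a => a ≠ one X) with
  | [Sum.inr a, Sum.inr b] => X.form a b
  | M => if (∀ a ∈ M, ∃ j, a = Sum.inl j) ∧ (M.map (hp X)).sum = X.dim then deg X else 0

/-- An insertion `τ_m(φ_a)`. -/
abbrev Ins := Ix X × ℕ

/-- The sign for moving an element of parity `a` past the list `L` of insertions. -/
def sgnL (a : Bool) (L : List (Ins X)) : ℂ := (L.map fun x => sgn a (par X x.1)).prod

/-- The coefficient at `L` of the product of two series given by their coefficients: the sum
over all ways to distribute `L` over two sublists (keeping the order) of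
(Koszul sign) * `A (first sublist)` * `B (second sublist)`. -/
noncomputable def shuffle : List (Ins X) → (List (Ins X) → ℂ) → (List (Ins X) → ℂ) → ℂ
  | [], A, B => A [] * B []
  | x :: L, A, B => shuffle L (fun M => A (x :: M)) B +
      shuffle L (fun M => sgnL X (par X x.1) M * A M) (fun M => B (x :: M))

/-- `∑_{a ∈ L}` of the replacements `τ_m(a) ↦ τ_{m-1}(T a)`, for an operator with matrix `T`. -/
noncomputable def lowerSum (T : Ix X → Ix X → ℂ) (F : List (Ins X) → ℂ) (L : List (Ins X)) : ℂ :=
  ∑ j : Fin L.length, if (L.get j).2 = 0 then 0 else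
    ∑ b, T (L.get j).1 b * F (L.set j (b, (L.get j).2 - 1))

/-- The bilinear form with matrix `T` at a pair of insertions without descendants. -/
noncomputable def pairTerm (T : Ix X → Ix X → ℂ) : List (Ins X) → ℂ
  | [(a, 0), (b, 0)] => T a b
  | _ => 0

/-- The contribution of the empty list. -/
noncomputable def emptyTerm (x : ℂ) : List (Ins X) → ℂ
  | [] => x
  | _ => 0

/-- The degree-zero invariants of genus `g ≥ 2` without insertions:
`(-1)^g/2 ∫(c_3 - c_1 c_2) ∫λ_{g-1}^3` for threefolds, zero in higher dimension. -/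
noncomputable def constMap (g : ℕ) : ℂ :=
  if X.dim = 3 then
    (-1) ^ g / 2 * (deg X * (chernCoeff X 3 - chernCoeff X 1 * chernCoeff X 2)) *
      (|(bernoulli (2 * g) : ℝ)| / (2 * g) * (|(bernoulli (2 * g - 2) : ℝ)| / (2 * g - 2)) /
        (Nat.factorial (2 * g - 2)) : ℝ)
  else 0

/-- The standard axioms for the descendant Gromov-Witten invariants
`F g d [(a₁, m₁), …] = ⟨τ_{m₁}(φ_{a₁}) …⟩_{g,d}` of `X` (all genera, all degrees, all classes). -/
structure IsGW (F : ℕ → ℕ → List (Ins X) → ℂ) : Prop where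
  /-- (super)symmetry -/
  symm : ∀ g d L M x y, F g d (L ++ x :: y :: M) =
    sgn (par X x.1) (par X y.1) * F g d (L ++ y :: x :: M)
  /-- dimension and Hodge type: `∑ (m + p - 1) = (1-g)(dim-3) + ν d` -/
  grading_p : ∀ g d L, F g d L ≠ 0 →
    (L.map fun x => (x.2 : ℤ) + hp X x.1 - 1).sum =
      (1 - (g : ℤ)) * (X.dim - 3) + index X * d
  /-- dimension and Hodge type: `∑ (m + q - 1) = (1-g)(dim-3) + ν d` -/
  grading_q : ∀ g d L, F g d L ≠ 0 →
    (L.map fun x => (x.2 : ℤ) + hq X x.1 - 1).sum =
      (1 - (g : ℤ)) * (X.dim - 3) + index X * d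
  /-- unstable correlators are zero -/
  unstable0 : ∀ L, L.length < 3 → F 0 0 L = 0
  unstable1 : F 1 0 [] = 0
  /-- string equation -/
  string : ∀ g d L, F g d ((one X, 0) :: L) =
    lowerSum X (fun a b => if a = b then 1 else 0) (F g d) L +
      (if g = 0 ∧ d = 0 then pairTerm X (pairing X) L else 0)
  /-- dilaton equation -/
  dilaton : ∀ g d L, F g d ((one X, 1) :: L) = (2 * g - 2 + L.length) * F g d L +
    (if g = 1 ∧ d = 0 then emptyTerm X (deg X * chernCoeff X X.dim / 24) L else 0)
  /-- divisor equation for the hyperplane class -/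
  divisor : ∀ g d L, F g d ((hcls X, 0) :: L) = d * F g d L +
    lowerSum X (hmul X) (F g d) L +
    (if g = 0 ∧ d = 0 then pairTerm X (fun a b => ∑ c, hmul X a c * pairing X c b) L else 0) +
    (if g = 1 ∧ d = 0 then
      emptyTerm X (- (deg X * chernCoeff X (X.dim - 1)) / 24) L else 0)
  /-- topological recursion in genus zero -/
  trr : ∀ d a m x y L, F 0 d ((a, m + 1) :: x :: y :: L) = ∑ α, ∑ β, pairingInv X α β *
    ∑ e ∈ antidiagonal d, shuffle X L (fun M => F 0 e.1 ((β, 0) :: x :: y :: M))
      (fun M => F 0 e.2 ((a, m) :: (α, 0) :: M))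
  /-- degree zero, genus zero: mapping to a point -/
  degreeZero : ∀ L : List (Ix X), F 0 0 (L.map fun a => (a, 0)) =
    if L.length = 3 then integral X L else 0
  /-- degree zero, genus at least two, no insertions -/
  constantMaps : ∀ g, 2 ≤ g → F g 0 [] = constMap X g

/-- `[x]^{K-1}_i`: the coefficient of `R^i` in `∏_{j=0}^{K-1} (R + x + j)`. -/
noncomputable def esym (K i : ℕ) (x : ℂ) : ℂ :=
  (∏ j ∈ Finset.range K, (Polynomial.X + Polynomial.C (x + (j : ℂ)))).coeff i

/-- The matrix of `R^i`. -/
noncomputable def c1pow (i : ℕ) (a b : Ix X) : ℂ := ((Matrix.of (c1 X)) ^ i) a b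

/-- The linear part of `L_{K-1}` on the variable of the insertion `x = τ_m(φ_a)`:
`∑_i [m + 1/2 + μ_a]^{K-1}_i (R^i)_a^b G(τ_{m+K-1-i}(φ_b))`. -/
noncomputable def linTerm (K : ℕ) (x : Ins X) (G : Ins X → ℂ) : ℂ :=
  ∑ i ∈ Finset.range (K + 1), ∑ b, if i + 1 ≤ x.2 + K then
    esym K i ((x.2 : ℂ) + 1 / 2 + mu X x.1) * c1pow X i x.1 b * G (b, x.2 + K - 1 - i) else 0

/-- The coefficient of `ħ^{g-1} Q^d` and of the monomial of `L` in `Z⁻¹ L_{K-1} Z`, where
`L_{K-1}` is the Virasoro operator (`K ≥ 0`) and `Z = exp ∑ ħ^{g-1} Q^d F_{g,d}`: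
the linear vector field with its dilaton shift, the second order part
`(ħ/2) ∑ (-1)^{m+1} [μ_a - m - 1/2]^{K-1}_i η^{ab} (R^i)_a^c ∂_{b,m} ∂_{c,n}` over
`m + n + i = K - 2`, the quadratic form `(1/2ħ) (R^K)_{ab} t_0^a t_0^b` and the scalar
`χ/16 - str(μ²)/4` of `L_0`. -/
noncomputable def virasoro (F : ℕ → ℕ → List (Ins X) → ℂ) (K g d : ℕ) (L : List (Ins X)) : ℂ :=
  (∑ j : Fin L.length, linTerm X K (L.get j) (fun x => F g d (L.set j x))) -
    linTerm X K (one X, 1) (fun x => F g d (x :: L)) +
  1 / 2 * (∑ m ∈ Finset.range (K - 1), ∑ i ∈ Finset.range (K - 1 - m), ∑ a, ∑ b, ∑ c,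
    (-1) ^ (m + 1) * esym K i (mu X a - m - 1 / 2) * pairingInv X a b * c1pow X i a c *
      ((∑ u ∈ antidiagonal g, ∑ v ∈ antidiagonal d, shuffle X L
        (fun M => F u.1 v.1 ((b, m) :: M)) (fun M => F u.2 v.2 ((c, K - 2 - m - i) :: M))) +
      (if g = 0 then 0 else F (g - 1) d ((c, K - 2 - m - i) :: (b, m) :: L)))) +
  (if g = 0 ∧ d = 0 then pairTerm X (fun a b => ∑ c, c1pow X K a c * pairing X c b) L else 0) +
  (if K = 1 ∧ g = 1 ∧ d = 0 then
    emptyTerm X (str X (fun _ => 1) / 16 - str X (fun a => mu X a ^ 2) / 4) L else 0)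

end Vale.Agent.P269.CI
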