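import Vale.Agent.P269.H597.Uniqueness
import Vale.Agent.P269.H861.LibgoberWood

/-!
# The Virasoro constraints for complete intersections: assembled statements
-/

set_option linter.unusedSectionVars false

namespace Vale.Agent.P269.H597

open Vale.Agent.P269
open CI

variable {X : CompleteIntersection} {F : ℕ → ℕ → List (Ins X) → ℂ}

lemma scalar_identity : str X (fun _ => 1) / 16 - str X (fun a => mu X a ^ 2) / 4 =
      (3 - (X.dim : ℂ)) / 48 * (deg X * chernCoeff X X.dim) -
      (index X : ℂ) / 24 * (deg X * chernCoeff X (X.dim - 1)) := by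
  rw [H861.euler, H861.libgober_wood]
  ring

theorem main_range (hF : IsGW X F) (K g d : ℕ)
    (hgd : g = 0 ∨ (1 - (g : ℤ)) * (X.dim - 3) + index X * d ≤ 0) (L : List (Ins X)) :
    virasoro X F K g d L = 0 :=
  virasoro_all hF scalar_identity K g d hgd L

theorem main_nef (hr : 3 ≤ X.dim) (hX : index X ≤ 0) (hF : IsGW X F) (K g d : ℕ)
    (L : List (Ins X)) : virasoro X F K g d L = 0 := by
  refine main_range hF K g d ?_ L
  rcases Nat.eq_zero_or_pos g with hg | hg
  · exact Or.inl hg
  · right
    have hg1 : (1 : ℤ) ≤ g := by exact_mod_cast hg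
    have hd3 : (3 : ℤ) ≤ X.dim := by exact_mod_cast hr
    have h1 : 0 ≤ ((g : ℤ) - 1) * ((X.dim : ℤ) - 3) := mul_nonneg (by linarith) (by linarith)
    have h2 : index X * (d : ℤ) ≤ 0 :=
      mul_nonpos_of_nonpos_of_nonneg hX (by exact_mod_cast Nat.zero_le d)
    linarith

/-- At every `(g, d)` all constraints follow from the `L_k` with `k` at most the virtual
dimension. -/
theorem main_reduce (hF : IsGW X F) (g d : ℕ)
    (h : ∀ (K : ℕ) (L : List (Ins X)),
      (K : ℤ) ≤ 1 + (1 - (g : ℤ)) * (X.dim - 3) + index X * d → virasoro X F K g d L = 0)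
    (K : ℕ) : ∀ L : List (Ins X), virasoro X F K g d L = 0 := by
  have hk : (coh X).kap = (3 - (X.dim : ℂ)) / 48 * (deg X * chernCoeff X X.dim) -
      (index X : ℂ) / 24 * (deg X * chernCoeff X (X.dim - 1)) := by
    rw [kap_eq, scalar_identity]
  induction K with
  | zero => exact virasoro_zero hF g d
  | succ k ih =>
    intro L
    cases k with
    | zero =>
      rw [virasoro_succ]
      exact vir_zero hF hk g d L
    | succ k =>
      by_cases hK : ((k + 1 + 1 : ℕ) : ℤ) ≤
          1 + (1 - (g : ℤ)) * (X.dim - 3) + index X * d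
      · exact h _ L hK
      · rw [virasoro_succ]
        refine Coh.string_vanish (degData X) _ (Coh.SymF_vir (stringG hF).symm (k + 1) g d)
          (Coh.vd X.dim (index X) g d - 2 * ((k + 1 : ℕ) : ℤ)) ?_
          (Coh.HW_vir (degData X) (weights hF) (k + 1) g d) ?_ L
        · unfold Coh.vd
          push_cast at hK ⊢
          linarith
        · intro M
          have h1 := ih M
          rw [virasoro_succ] at h1
          rw [Coh.vir_string (stringG hF), h1, mul_zero, add_zero]

end Vale.Agent.P269.H597
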