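import Vale.Agent.P269.H597.Closed

/-!
# The Virasoro constraints in all genera and their commutator with the string equation
-/

set_option linter.unusedSectionVars false

namespace Vale.Agent.P269.H597

variable {K : Type*} [CommRing K] {ι : Type*} [Fintype ι] [DecidableEq ι]

lemma br_diff (k i : ℕ) (y : K) : br (k + 1) i y - br (k + 1) i (y - 1) =
    ((k : K) + 2) * br k i y := by
  unfold br
  have h1 : ∏ j ∈ Finset.range (k + 1 + 1), (Polynomial.X + Polynomial.C (y + (j : K))) =
      (∏ j ∈ Finset.range (k + 1), (Polynomial.X + Polynomial.C (y + (j : K)))) *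
      (Polynomial.X + Polynomial.C (y + ((k + 1 : ℕ) : K))) := Finset.prod_range_succ _ _
  have h2 : ∏ j ∈ Finset.range (k + 1 + 1), (Polynomial.X + Polynomial.C (y - 1 + (j : K))) =
      (∏ j ∈ Finset.range (k + 1), (Polynomial.X + Polynomial.C (y + (j : K)))) *
      (Polynomial.X + Polynomial.C (y - 1)) := by
    rw [Finset.prod_range_succ']
    congr 1
    · refine Finset.prod_congr rfl fun j _ => ?_
      congr 2
      push_cast; ring
    · simp
  rw [← Polynomial.coeff_sub, h1, h2]
  have h3 : ∀ P : Polynomial K, P * (Polynomial.X + Polynomial.C (y + ((k + 1 : ℕ) : K))) -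
      P * (Polynomial.X + Polynomial.C (y - 1)) = Polynomial.C ((k : K) + 2) * P := by
    intro P
    have h4 : Polynomial.C (y + ((k + 1 : ℕ) : K)) = Polynomial.C (y - 1) +
        Polynomial.C ((k : K) + 2) := by
      rw [← Polynomial.C_add]
      congr 1
      push_cast; ring
    rw [h4]
    ring
  rw [h3, Polynomial.coeff_C_mul]

lemma br_second (half : K) (h2 : 2 * half = 1) (k : ℕ) (x : K) :
    br k k x = ((k : K) + 1) * x + half * k * (k + 1) := by
  induction k generalizing x with
  | zero => simp [br_zero_zero]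
  | succ k ih =>
    rw [br_succ, br_top, if_neg (Nat.succ_ne_zero k), Nat.add_sub_cancel, ih]
    push_cast
    linear_combination (-(k : K) - 1) * h2

namespace Coh

variable (D : Coh K ι) (F : List (ι × ℕ) → K)

/-- The coefficient `(-1)^{m+1} [μ_a-m-1/2]^k_i η^{ab} (R^i)_a^c`. -/
noncomputable def cf (k m i : ℕ) (a b c : ι) : K :=
  (-1) ^ (m + 1) * br k i (D.mu a - m - 1 + D.half) * D.etai a b * D.Rp i a c

/-- The loop term `∂∂F`. -/
noncomputable def loop (k : ℕ) (L : List (ι × ℕ)) : K :=
  ∑ m ∈ Finset.range k, ∑ i ∈ Finset.range (k - m), ∑ a, ∑ b, ∑ c,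
    D.cf k m i a b c * F ((c, k - 1 - m - i) :: (b, m) :: L)

lemma quad_eq (k : ℕ) (L : List (ι × ℕ)) : quad D F k L =
    ∑ m ∈ Finset.range k, ∑ i ∈ Finset.range (k - m), ∑ a, ∑ b, ∑ c,
    D.cf k m i a b c * sh D.ip (LinearMap.mul K K) L (fun M => F ((b, m) :: M))
        (fun M => F ((c, k - 1 - m - i) :: M)) := rfl

/-- The scalar `χ/16 - str(μ²)/4`. -/
noncomputable def kap : K := D.half ^ 2 * ∑ a, D.sn a * (D.half ^ 2 - D.mu a ^ 2)

/-- The coefficients of `hb * Z^{-1} L_k Z`, `Z = exp(F/hb)`. -/
noncomputable def virk (hb : K) (k : ℕ) (L : List (ι × ℕ)) : K :=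
  act D.ip (fun M => D.Aop k (tau (D.one, 1) M)) F L +
    D.half * (quad D F k L + hb * D.loop F k L) +
    qform (fun a b => ∑ c, D.Rp (k + 1) a c * D.eta c b) L +
    (if k = 0 then hb * D.kap * cst 1 L else 0)

/-- Symmetry, parity and string equation. -/
structure StringSys : Prop where
  symm : SymF (K := K) D.ip F
  even : ∀ (a : Bool) (L : List (ι × ℕ)), lsg K D.ip a L * F L = F L
  string : ∀ L, F ((D.one, 0) :: L) = rep (fun i => low (Finsupp.single i (1 : K))) F L +
    qform D.eta L

/-- The string vector field. -/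
noncomputable def del (C : List (ι × ℕ) → K) (L : List (ι × ℕ)) : K :=
  act D.ip (fun M => low (tau (K := K) (D.one, 1) M)) C L

/-- The row of a quadratic form in `t_0`. -/
noncomputable def Y (N : ι → ι → K) (M : List (ι × ℕ)) (i : ι × ℕ) : K :=
  if i.2 = 0 then ∑ d, N i.1 d * (tau (D.one, 1) M) (d, 0) else 0

variable {D F}

lemma PV_low_tau : PV D.ip false (fun M => low (tau (K := K) (D.one, 1) M)) :=
  (PV_tau D.ip (D.one, 1) ip_one).map D.evenOp_low

lemma del_F (hF : D.StringSys F) (L : List (ι × ℕ)) : D.del F L = - qform D.eta L := by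
  unfold del
  rw [act_tau D.ip (D.one, 1) ip_one D.evenOp_low F hF.symm, low_single_succ, ev_single,
    one_smul, hF.string]
  ring

lemma del_cons (C : List (ι × ℕ) → K) (hC : SymF (K := K) D.ip C) (i : ι × ℕ)
    (L : List (ι × ℕ)) : D.del (fun M => C (i :: M)) L = D.del C (i :: L) -
      ev K (ι × ℕ) K (low (Finsupp.single i 1)) (fun j => C (j :: L)) := by
  unfold del
  rw [act_cons D.ip PV_low_tau C i L (fun j M => by rw [sg_comm]; exact hC [] M j i)]
  have h2 : act D.ip (fun M => low (tau (K := K) (D.one, 1) (i :: M))) C L =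
      ev K (ι × ℕ) K (low (Finsupp.single i 1)) (fun j => C (j :: L)) := by
    have : (fun M => low (tau (K := K) (D.one, 1) (i :: M))) =
        cst (low (Finsupp.single i 1)) := by
      funext M
      rw [tau_cons]
      cases M <;> simp
    rw [this]
    unfold act
    rw [sh_cst_left]
  rw [h2]
  ring

lemma qform_cons (N : ι → ι → K) (i : ι × ℕ) (M : List (ι × ℕ)) :
    qform N (i :: M) = D.Y N M i := by
  obtain ⟨a, n⟩ := i
  unfold Y
  cases n with
  | zero =>
    match M with
    | [] => simp [qform, tau]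
    | [(y, 0)] => simp [qform, tau, Finsupp.single_apply]
    | [(y, m + 1)] => simp [qform, tau]
    | _ :: _ :: _ => simp [qform, tau]
  | succ n =>
    simp only [Nat.add_eq_zero_iff, one_ne_zero, and_false, if_false]
    unfold qform
    split
    · rename_i heq
      simp at heq
    · rfl

/-- The commutator of the string vector field with a linear vector field. -/
lemma del_act {A : (ι × ℕ →₀ K) →ₗ[K] (ι × ℕ →₀ K)}
    (C : List (ι × ℕ) → K) (hC : SymF (K := K) D.ip C) (L : List (ι × ℕ)) :
    D.del (fun M => act D.ip (fun M => A (tau (D.one, 1) M)) C M) L =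
      act D.ip (fun M => A (low (tau (D.one, 1) M))) C L +
      act D.ip (fun M => A (tau (D.one, 1) M)) (D.del C) L -
      act D.ip (fun M => low (A (tau (D.one, 1) M))) C L := by
  have h0 : D.del (fun M => act D.ip (fun M => A (tau (D.one, 1) M)) C M) L =
      act D.ip (fun M => low (tau (K := K) (D.one, 1) M)) (fun M => sh D.ip (ev K (ι × ℕ) K) M
      (fun M => A (tau (D.one, 1) M)) (fun M i => C (i :: M))) L := rfl
  rw [h0, act_sh D.ip _ PV_low_tau]
  have h5 : act D.ip (fun M => low (tau (K := K) (D.one, 1) M))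
      (fun M => A (tau (D.one, 1) M)) =
      fun M => A (low (tau (D.one, 1) M)) := by
    funext M
    rw [act_comp, act_coord D.ip _ (tau (D.one, 1)) (tau_cons (D.one, 1)) M]
  rw [h5]
  have h6 : act D.ip (fun M => low (tau (K := K) (D.one, 1) M)) (fun M i => C (i :: M)) =
      fun M => (fun i => D.del C (i :: M)) +
        - (fun i => ev K (ι × ℕ) K (low (Finsupp.single i 1)) (fun j => C (j :: M))) := by
    funext M i
    rw [act_apply]
    have := D.del_cons C hC i M
    unfold del at this
    rw [this]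
    simp only [Pi.add_apply, Pi.neg_apply, sub_eq_add_neg]
    rfl
  rw [h6, sh_add_right, sh_neg_right]
  have h7 := act_cmap D.ip (fun M => A (tau (K := K) (D.one, 1) M)) low C L
  rw [← h7]
  have h8 : sh D.ip (ev K (ι × ℕ) K) L (fun M => A (tau (D.one, 1) M))
      (fun M i => C (i :: M)) = act D.ip (fun M => A (tau (D.one, 1) M)) C L := rfl
  unfold act
  ring

lemma low_single (c : ι) (n : ℕ) (x : K) : low (Finsupp.single (c, n) x) =
    if n = 0 then 0 else Finsupp.single (c, n - 1) x := by
  cases n with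
  | zero => simp
  | succ n => simp

lemma Aop_single' (k : ℕ) (x : ι × ℕ) : D.Aop k (Finsupp.single x 1) =
    ∑ i ∈ Finset.range (k + 3), ∑ c, if i ≤ x.2 + k then
      (br k i ((x.2 : K) + D.half + D.mu x.1) * D.Rp i x.1 c) •
        Finsupp.single (c, x.2 + k - i) 1 else 0 := by
  rw [Finset.sum_range_succ, Aop_single]
  rw [left_eq_add]
  refine Finset.sum_eq_zero fun c _ => ?_
  rw [br_high k (k + 2) (by omega)]
  simp

variable (D) in
/-- The defect of the commutation of `l_k` with `1/z` on `H[z]`. -/
noncomputable def Eop (k : ℕ) : (ι × ℕ →₀ K) →ₗ[K] (ι × ℕ →₀ K) :=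
  Finsupp.lsum K fun x => LinearMap.toSpanSingleton K _
    (if x.2 = 0 then ∑ i ∈ Finset.range (k + 1), ∑ c,
      (br (k + 1) i (D.mu x.1 - 1 + D.half) * D.Rp i x.1 c) •
        Finsupp.single (c, k - i) 1 else 0)

lemma Eop_single (k : ℕ) (x : ι × ℕ) : D.Eop k (Finsupp.single x 1) =
    if x.2 = 0 then ∑ i ∈ Finset.range (k + 1), ∑ c,
      (br (k + 1) i (D.mu x.1 - 1 + D.half) * D.Rp i x.1 c) •
        Finsupp.single (c, k - i) 1 else 0 := by
  simp [Eop]

lemma low_Aop (k : ℕ) (v : ι × ℕ →₀ K) : D.Aop (k + 1) (low v) =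
    low (D.Aop (k + 1) v) - ((k : K) + 2) • D.Aop k v - D.Eop k v := by
  refine finsupp_lin_ext (f := D.Aop (k + 1) ∘ₗ low)
    (g := low ∘ₗ D.Aop (k + 1) - ((k : K) + 2) • D.Aop k - D.Eop k) (fun x => ?_) v
  obtain ⟨a, m⟩ := x
  simp only [LinearMap.comp_apply, LinearMap.sub_apply, LinearMap.smul_apply]
  rw [Aop_single (k + 1), Aop_single' k, Eop_single, map_sum, Finset.smul_sum]
  simp only [map_sum, Finset.smul_sum]
  cases m with
  | zero =>
    simp only [low_single_zero, map_zero, if_true]
    have h1 : ∑ i ∈ Finset.range (k + 1), ∑ c,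
        (br (k + 1) i (D.mu a - 1 + D.half) * D.Rp i a c) •
        (Finsupp.single (c, k - i) 1 : ι × ℕ →₀ K) =
        ∑ i ∈ Finset.range (k + 3), ∑ c, if i ≤ k then
        (br (k + 1) i (D.mu a - 1 + D.half) * D.Rp i a c) •
        (Finsupp.single (c, k - i) 1 : ι × ℕ →₀ K) else 0 := by
      rw [Finset.sum_range_succ _ (k + 2), Finset.sum_range_succ _ (k + 1)]
      have e1 : ∑ c : ι, (if k + 1 ≤ k then
        (br (k + 1) (k + 1) (D.mu a - 1 + D.half) * D.Rp (k + 1) a c) •
        (Finsupp.single (c, k - (k + 1)) 1 : ι × ℕ →₀ K) else 0) = 0 :=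
        Finset.sum_eq_zero fun c _ => if_neg (by omega)
      have e2 : ∑ c : ι, (if k + 2 ≤ k then
        (br (k + 1) (k + 2) (D.mu a - 1 + D.half) * D.Rp (k + 2) a c) •
        (Finsupp.single (c, k - (k + 2)) 1 : ι × ℕ →₀ K) else 0) = 0 :=
        Finset.sum_eq_zero fun c _ => if_neg (by omega)
      rw [e1, e2, add_zero, add_zero]
      refine Finset.sum_congr rfl fun i hi => Finset.sum_congr rfl fun c _ => ?_
      have := Finset.mem_range.mp hi
      rw [if_pos (by omega)]
    rw [h1, ← Finset.sum_sub_distrib, ← Finset.sum_sub_distrib]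
    symm
    refine Finset.sum_eq_zero fun i _ => ?_
    rw [← Finset.sum_sub_distrib, ← Finset.sum_sub_distrib]
    refine Finset.sum_eq_zero fun c _ => ?_
    by_cases hi : i ≤ k
    · rw [if_pos (by omega), if_pos (by omega), if_pos hi, map_smul, low_single,
        if_neg (by omega), ← mul_smul]
      have e1 : 0 + (k + 1) - i - 1 = k - i := by omega
      have e2 : 0 + k - i = k - i := by omega
      rw [e1, e2, ← sub_smul, ← sub_smul]
      have h2 := br_diff k i (((0 : ℕ) : K) + D.half + D.mu a)
      have e3 : ((0 : ℕ) : K) + D.half + D.mu a - 1 = D.mu a - 1 + D.half := by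
        push_cast; ring
      rw [e3] at h2
      have h3 : br (k + 1) i (((0 : ℕ) : K) + D.half + D.mu a) * D.Rp i a c -
          ((k : K) + 2) * (br k i (((0 : ℕ) : K) + D.half + D.mu a) * D.Rp i a c) -
          br (k + 1) i (D.mu a - 1 + D.half) * D.Rp i a c = 0 := by
        linear_combination (D.Rp i a c) * h2
      rw [h3, zero_smul]
    · rw [if_neg (show ¬ i ≤ 0 + k by omega), if_neg hi]
      split
      · have e1 : 0 + (k + 1) - i = 0 := by omega
        rw [map_smul, e1]
        simp
      · simp
  | succ m =>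
    simp only [low_single_succ]
    rw [Aop_single (k + 1), if_neg (Nat.succ_ne_zero m), sub_zero, ← Finset.sum_sub_distrib]
    refine Finset.sum_congr rfl fun i _ => ?_
    rw [← Finset.sum_sub_distrib]
    refine Finset.sum_congr rfl fun c _ => ?_
    by_cases hi : i ≤ m + (k + 1)
    · rw [if_pos hi, if_pos (by omega), if_pos (by omega), map_smul, low_single,
        if_neg (by omega), ← mul_smul]
      have e1 : m + 1 + (k + 1) - i - 1 = m + (k + 1) - i := by omega
      have e2 : m + 1 + k - i = m + (k + 1) - i := by omega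
      rw [e1, e2, ← sub_smul]
      have h2 := br_diff k i (((m + 1 : ℕ) : K) + D.half + D.mu a)
      have e3 : ((m + 1 : ℕ) : K) + D.half + D.mu a - 1 = (m : K) + D.half + D.mu a := by
        push_cast; ring
      rw [e3] at h2
      congr 1
      linear_combination (- D.Rp i a c) * h2
    · rw [if_neg hi, if_neg (show ¬ i ≤ m + 1 + k by omega)]
      split
      · have e1 : m + 1 + (k + 1) - i = 0 := by omega
        rw [map_smul, e1]
        simp
      · simp

end Coh

/-- Moving an operator from the vector field to the pairing. -/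
lemma sh_cmap {I : Type*} {W : Type*} [AddCommGroup W] [Module K W] (par : I → Bool)
    (c : List I → (I →₀ K)) (f : (I →₀ K) →ₗ[K] (I →₀ K)) (G : List I → I → W)
    (L : List I) : sh par (ev K I W) L (fun M => f (c M)) G =
      sh par (ev K I W) L c (fun M i => ev K I W (f (Finsupp.single i 1)) (G M)) := by
  rw [sh_comp_left]
  let g : (I → W) →ₗ[K] (I → W) :=
    { toFun := fun h i => ev K I W (f (Finsupp.single i 1)) h
      map_add' := fun h h' => by funext i; simp
      map_smul' := fun k h => by funext i; simp }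
  have h1 : (fun (M : List I) (i : I) => ev K I W (f (Finsupp.single i 1)) (G M)) =
      fun M => g (G M) := by
    funext M i; rfl
  rw [h1, sh_comp_right]
  congr 1
  apply LinearMap.ext; intro v
  apply LinearMap.ext; intro h
  simp only [LinearMap.compl₂_apply, LinearMap.comp_apply]
  have := finsupp_lin_ext (f := (ev K I W).flip h ∘ₗ f) (g := (ev K I W).flip (g h))
    (fun i => by simp [g]) v
  simpa using this

lemma ev_level0 (v : ι × ℕ →₀ K) (g : ι → K) :
    ev K (ι × ℕ) K v (fun i => if i.2 = 0 then g i.1 else 0) = ∑ a, v (a, 0) * g a := by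
  have := finsupp_lin_ext (f := (ev K (ι × ℕ) K).flip (fun i => if i.2 = 0 then g i.1 else 0))
    (g := ∑ a, g a • (Finsupp.lapply (a, 0) : (ι × ℕ →₀ K) →ₗ[K] K)) (fun i => by
      obtain ⟨x, m⟩ := i
      simp only [LinearMap.flip_apply, ev_single, one_smul, LinearMap.sum_apply,
        LinearMap.smul_apply, Finsupp.lapply_apply, Finsupp.single_apply, Prod.mk.injEq,
        smul_eq_mul]
      cases m with
      | zero => simp
      | succ m => simp) v
  simp only [LinearMap.flip_apply, LinearMap.sum_apply, LinearMap.smul_apply,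
    Finsupp.lapply_apply, smul_eq_mul] at this
  rw [this]
  refine Finset.sum_congr rfl fun a _ => ?_
  ring

lemma sh_level0 (par : ι × ℕ → Bool) (L : List (ι × ℕ)) (c : List (ι × ℕ) → (ι × ℕ →₀ K))
    (G : ι → List (ι × ℕ) → K) :
    sh par (ev K (ι × ℕ) K) L c (fun M i => if i.2 = 0 then G i.1 M else 0) =
      ∑ a, sh par (LinearMap.mul K K) L (fun M => c M (a, 0)) (G a) := by
  induction L generalizing c G with
  | nil =>
    simp only [sh_nil, LinearMap.mul_apply']
    exact ev_level0 (c []) (fun a => G a [])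
  | cons j L ih =>
    simp only [sh_cons, Finset.sum_add_distrib]
    rw [ih (fun M => c (j :: M)) G, ih (fun M => lsg K par (par j) M • c M)
      (fun a M => G a (j :: M))]
    simp only [Finsupp.smul_apply]

namespace Coh

variable {D : Coh K ι} {F : List (ι × ℕ) → K}

lemma Y_eq (N : ι → ι → K) (M : List (ι × ℕ)) (a : ι) :
    D.Y N M (a, 0) = ∑ d, N a d * (tau (D.one, 1) M) (d, 0) := by
  simp [Y]

lemma sh_tau_Y (N : ι → ι → K) (L : List (ι × ℕ)) :
    sh D.ip (ev K (ι × ℕ) K) L (tau (D.one, 1)) (D.Y N) =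
      qform (fun a b => N a b + sg K (D.par a) (D.par b) * N b a) L := by
  match L with
  | [] =>
    simp [sh_nil, tau, qform, Y]
  | x :: L =>
    rw [sh_cons]
    have h1 : (fun M => tau (K := K) (D.one, 1) (x :: M)) = cst (Finsupp.single x 1) := by
      funext M; exact tau_cons _ _ _
    have h2 : (fun (M : List (ι × ℕ)) => D.Y N (x :: M)) =
        cst (fun i => if i.2 = 0 ∧ x.2 = 0 then N i.1 x.1 else 0) := by
      funext M i
      unfold Y
      rw [tau_cons]
      match M with
      | [] =>
        simp only [cst_nil, Finsupp.single_apply]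
        obtain ⟨x1, x2⟩ := x
        by_cases hi : i.2 = 0
        · cases x2 with
          | zero => simp [hi]
          | succ x2 => simp [hi]
        · simp [hi]
      | _ :: _ => simp
    rw [h1, h2, sh_cst_left, sh_cst_right, ev_single, one_smul]
    match L with
    | [] =>
      simp [tau, qform, Y]
    | [y] =>
      simp only [lsg_cons, lsg_nil, mul_one, tau, map_smul, LinearMap.smul_apply, ev_single,
        one_smul]
      obtain ⟨x1, x2⟩ := x
      obtain ⟨y1, y2⟩ := y
      cases x2 with
      | zero =>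
        cases y2 with
        | zero =>
          rw [Y_eq]
          simp only [tau, Finsupp.single_apply, Prod.mk.injEq, and_true, and_self, qform,
            ip, smul_eq_mul, if_true]
          have h3 : ∑ d, N x1 d * (if y1 = d then (1 : K) else 0) = N x1 y1 := by simp
          rw [h3]
        | succ y2 => simp [qform, Y, tau]
      | succ x2 => simp [qform, Y, tau]
    | _ :: _ :: _ =>
      simp [tau, qform, Y]

lemma Reta_mu (j : ℕ) (a b : ι) (h : ∑ c, D.Rp j a c * D.eta c b ≠ 0) :
    D.mu a + D.mu b + j = 0 := by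
  obtain ⟨c, _, hc⟩ := Finset.exists_ne_zero_of_sum_ne_zero h
  have h1 := D.Rp_mu j a c (left_ne_zero_of_mul hc)
  have h2 := D.eta_mu c b (right_ne_zero_of_mul hc)
  linear_combination h2 - h1

/-- The `t_0 t_0`-part of the commutator. -/
lemma del_qpart (k : ℕ) (L : List (ι × ℕ)) :
    D.del (qform (fun a b => ∑ c, D.Rp (k + 2) a c * D.eta c b)) L -
      act D.ip (fun M => D.Aop (k + 1) (tau (D.one, 1) M)) (qform D.eta) L =
    - (((k : K) + 2) * qform (fun a b => ∑ c, D.Rp (k + 1) a c * D.eta c b) L) := by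
  have h1 : D.del (qform (fun a b => ∑ c, D.Rp (k + 2) a c * D.eta c b)) L =
      sh D.ip (ev K (ι × ℕ) K) L (fun M => low (tau (D.one, 1) M))
        (D.Y (fun a b => ∑ c, D.Rp (k + 2) a c * D.eta c b)) := by
    unfold del act
    congr 1
    funext M i
    exact qform_cons _ i M
  have h2 : act D.ip (fun M => D.Aop (k + 1) (tau (D.one, 1) M)) (qform D.eta) L =
      sh D.ip (ev K (ι × ℕ) K) L (fun M => D.Aop (k + 1) (tau (D.one, 1) M)) (D.Y D.eta) := by
    unfold act
    congr 1
    funext M i
    exact qform_cons _ i M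
  rw [h1, h2, sh_cmap, sh_cmap, sub_eq_add_neg, ← sh_neg_right, ← sh_add_right]
  have h3 : (fun M => (fun i => ev K (ι × ℕ) K (low (Finsupp.single i 1))
      (D.Y (fun a b => ∑ c, D.Rp (k + 2) a c * D.eta c b) M)) +
      - (fun i => ev K (ι × ℕ) K (D.Aop (k + 1) (Finsupp.single i 1)) (D.Y D.eta M))) =
      fun M => - D.Y (fun a b => br (k + 1) (k + 1) (D.half + D.mu a) *
        ∑ c, D.Rp (k + 1) a c * D.eta c b) M := by
    funext M i
    obtain ⟨a, m⟩ := i
    simp only [Pi.add_apply, Pi.neg_apply, ev_Aop]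
    have hY : ∀ (j : ℕ), ∑ c, D.Rp j a c * D.Y D.eta M (c, 0) =
        ∑ d, (∑ c, D.Rp j a c * D.eta c d) * (tau (D.one, 1) M) (d, 0) := by
      intro j
      simp only [Y_eq, Finset.mul_sum, Finset.sum_mul]
      rw [Finset.sum_comm]
      refine Finset.sum_congr rfl fun x _ => Finset.sum_congr rfl fun y _ => ?_
      ring
    have hY0 : ∀ (c : ι) (n : ℕ), D.Y D.eta M (c, n + 1) = 0 := by
      intro c n; simp [Y]
    match m with
    | 0 =>
      rw [Finset.sum_eq_single_of_mem (k + 1) (Finset.mem_range.mpr (by omega))]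
      · have h5 : ∀ c : ι, (if k + 1 ≤ 0 + (k + 1) then
            br (k + 1) (k + 1) (((0 : ℕ) : K) + D.half + D.mu a) * D.Rp (k + 1) a c *
            D.Y D.eta M (c, 0 + (k + 1) - (k + 1)) else 0) =
            br (k + 1) (k + 1) (D.half + D.mu a) * (D.Rp (k + 1) a c * D.Y D.eta M (c, 0)) := by
          intro c
          rw [if_pos (by omega)]
          have : 0 + (k + 1) - (k + 1) = 0 := by omega
          rw [this]
          push_cast
          rw [zero_add]
          ring
        simp only [h5]
        rw [← Finset.mul_sum, hY]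
        simp only [low_single_zero, map_zero, LinearMap.zero_apply, zero_add, Y_eq]
        rw [Finset.mul_sum]
        congr 1
        refine Finset.sum_congr rfl fun x _ => ?_
        ring
      · intro i hi hik
        refine Finset.sum_eq_zero fun c _ => ?_
        split
        · rename_i hle
          obtain ⟨n, hn⟩ : ∃ n, 0 + (k + 1) - i = n + 1 := ⟨k - i, by omega⟩
          rw [hn, hY0, mul_zero]
        · rfl
    | 1 =>
      rw [Finset.sum_eq_single_of_mem (k + 2) (Finset.mem_range.mpr (by omega))]
      · have h5 : ∀ c : ι, (if k + 2 ≤ 1 + (k + 1) then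
            br (k + 1) (k + 2) (((1 : ℕ) : K) + D.half + D.mu a) * D.Rp (k + 2) a c *
            D.Y D.eta M (c, 1 + (k + 1) - (k + 2)) else 0) =
            (D.Rp (k + 2) a c * D.Y D.eta M (c, 0)) := by
          intro c
          rw [if_pos (by omega), br_top]
          have : 1 + (k + 1) - (k + 2) = 0 := by omega
          rw [this]
          ring
        simp only [h5]
        rw [hY]
        have h6 : low (Finsupp.single (a, 1) (1 : K)) = Finsupp.single (a, 0) 1 :=
          low_single_succ a 0 1
        rw [h6, ev_single, one_smul, Y_eq]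
        simp [Y]
      · intro i hi hik
        have hi' := Finset.mem_range.mp hi
        refine Finset.sum_eq_zero fun c _ => ?_
        split
        · rename_i hle
          obtain ⟨n, hn⟩ : ∃ n, 1 + (k + 1) - i = n + 1 := ⟨k + 1 - i, by omega⟩
          rw [hn, hY0, mul_zero]
        · rfl
    | m + 2 =>
      rw [Finset.sum_eq_zero]
      · have h6 : low (Finsupp.single (a, m + 2) (1 : K)) = Finsupp.single (a, m + 1) 1 :=
          low_single_succ a (m + 1) 1
        rw [h6, ev_single]
        simp [Y]
      · intro i hi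
        have hi' := Finset.mem_range.mp hi
        refine Finset.sum_eq_zero fun c _ => ?_
        split
        · rename_i hle
          obtain ⟨n, hn⟩ : ∃ n, m + 2 + (k + 1) - i = n + 1 := ⟨m + 2 + k - i, by omega⟩
          rw [hn, hY0, mul_zero]
        · rfl
  have h3' : (fun M => (fun i => ev K (ι × ℕ) K (low (Finsupp.single i 1))
      (D.Y (fun a b => ∑ c, D.Rp (k + 2) a c * D.eta c b) M)) +
      (fun M => - (fun i => ev K (ι × ℕ) K (D.Aop (k + 1) (Finsupp.single i 1))
        (D.Y D.eta M))) M) =
      fun M => - D.Y (fun a b => br (k + 1) (k + 1) (D.half + D.mu a) *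
        ∑ c, D.Rp (k + 1) a c * D.eta c b) M := h3
  have h4 : sh D.ip (ev K (ι × ℕ) K) L (tau (D.one, 1)) (fun M =>
      (fun i => ev K (ι × ℕ) K (low (Finsupp.single i 1))
      (D.Y (fun a b => ∑ c, D.Rp (k + 2) a c * D.eta c b) M)) +
      - (fun i => ev K (ι × ℕ) K (D.Aop (k + 1) (Finsupp.single i 1)) (D.Y D.eta M))) =
      - (((k : K) + 2) * qform (fun a b => ∑ c, D.Rp (k + 1) a c * D.eta c b) L) := by
    rw [h3, sh_neg_right, sh_tau_Y]
    congr 1
    have h5 : ∀ a b, br (k + 1) (k + 1) (D.half + D.mu a) * ∑ c, D.Rp (k + 1) a c * D.eta c b +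
        sg K (D.par a) (D.par b) * (br (k + 1) (k + 1) (D.half + D.mu b) *
          ∑ c, D.Rp (k + 1) b c * D.eta c a) =
        ((k : K) + 2) * ∑ c, D.Rp (k + 1) a c * D.eta c b := by
      intro a b
      have h6 := Reta_super (D := D) (k + 1) a b
      by_cases h7 : ∑ c, D.Rp (k + 1) a c * D.eta c b = 0
      · have h8 : sg K (D.par a) (D.par b) * ∑ c, D.Rp (k + 1) b c * D.eta c a = 0 := by
          rw [← h6]; exact h7
        rw [h7]
        linear_combination (br (k + 1) (k + 1) (D.half + D.mu b)) * h8
      · have h8 := D.Reta_mu (k + 1) a b h7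
        rw [br_second D.half D.two_half, br_second D.half D.two_half]
        push_cast at h8 ⊢
        have h9 := D.two_half
        linear_combination (-(((k : K) + 1 + 1) * (D.half + D.mu b) +
          D.half * (k + 1) * (k + 1 + 1))) * h6 +
          (((k : K) + 2) * ∑ c, D.Rp (k + 1) a c * D.eta c b) * (h8 + ((k : K) + 2) * h9)
    have h10 : qform (fun a b => br (k + 1) (k + 1) (D.half + D.mu a) *
        ∑ c, D.Rp (k + 1) a c * D.eta c b +
        sg K (D.par a) (D.par b) * (br (k + 1) (k + 1) (D.half + D.mu b) *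
          ∑ c, D.Rp (k + 1) b c * D.eta c a)) L =
        qform (fun a b => ((k : K) + 2) * ∑ c, D.Rp (k + 1) a c * D.eta c b) L := by
      simp only [h5]
    rw [h10]
    unfold qform
    split
    · rfl
    · simp
  exact h4

end Coh

end Vale.Agent.P269.H597
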