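import Vale.Agent.P269.H597.Bridge

/-!
# The Virasoro constraints of a Gromov-Witten system
-/

set_option linter.unusedSectionVars false

namespace Vale.Agent.P269.H597

open Finset.HasAntidiagonal (antidiagonal)
open Vale.Agent.P269
open CI
open Coh (low qform)

section

variable {K : Type*} [CommRing K] {I : Type*}

lemma rep_add (A A' : I → (I →₀ K)) (F : List I → K) (L : List I) :
    rep (fun i => A i + A' i) F L = rep A F L + rep A' F L := by
  induction L generalizing F with
  | nil => simp [rep]
  | cons i L ih =>
    simp only [rep, ih, map_add, LinearMap.add_apply]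
    ring

lemma rep_smul (c : K) (A : I → (I →₀ K)) (F : List I → K) (L : List I) :
    rep (fun i => c • A i) F L = c * rep A F L := by
  induction L generalizing F with
  | nil => simp [rep]
  | cons i L ih =>
    simp only [rep, ih, map_smul, LinearMap.smul_apply, smul_eq_mul]
    ring

lemma rep_diag (s : I → K) (F : List I → K) (L : List I) :
    rep (fun i => Finsupp.single i (s i)) F L = (L.map s).sum * F L := by
  induction L generalizing F with
  | nil => simp [rep]
  | cons i L ih =>
    simp only [rep, ih, ev_single, smul_eq_mul, List.map_cons, List.sum_cons]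
    ring

end

variable (X : CompleteIntersection)

lemma lowerSum_eq (T : Ix X → Ix X → ℂ) (F : List (Ins X) → ℂ) (L : List (Ins X)) :
    lowerSum X T F L = rep (fun i => ∑ b, T i.1 b • low (Finsupp.single (b, i.2) (1 : ℂ))) F L := by
  rw [rep_eq_sum]
  unfold lowerSum
  refine Finset.sum_congr rfl fun j _ => ?_
  rw [map_sum, LinearMap.sum_apply]
  split
  · rename_i h
    symm
    refine Finset.sum_eq_zero fun b _ => ?_
    rw [Coh.low_single, if_pos h, smul_zero, map_zero, LinearMap.zero_apply]
  · rename_i h
    refine Finset.sum_congr rfl fun b _ => ?_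
    rw [Coh.low_single, if_neg h, map_smul, LinearMap.smul_apply, ev_single, one_smul,
      smul_eq_mul]

lemma lowerSum_one (F : List (Ins X) → ℂ) (L : List (Ins X)) :
    lowerSum X (fun a b => if a = b then 1 else 0) F L =
      rep (fun i => low (Finsupp.single i (1 : ℂ))) F L := by
  rw [lowerSum_eq]
  congr 1
  funext i
  rw [Finset.sum_eq_single i.1]
  · simp
  · intro b _ hb
    rw [if_neg (Ne.symm hb), zero_smul]
  · simp

lemma pairTerm_eq (T : Ix X → Ix X → ℂ) (L : List (Ins X)) : pairTerm X T L = qform T L := by
  unfold pairTerm qform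
  split
  · rfl
  · rename_i h
    split
    · rename_i a b
      exact absurd rfl (h a b)
    · rfl

lemma emptyTerm_eq (x : ℂ) (L : List (Ins X)) : emptyTerm X x L = x * cst 1 L := by
  cases L <;> simp [emptyTerm]

lemma shuffle_eq (L : List (Ins X)) (A B : List (Ins X) → ℂ) :
    shuffle X L A B = sh (coh X).ip (LinearMap.mul ℂ ℂ) L A B := by
  induction L generalizing A B with
  | nil => rfl
  | cons x L ih =>
    rw [sh_cons]
    unfold shuffle
    rw [ih, ih]
    rfl

variable {X} {F : ℕ → ℕ → List (Ins X) → ℂ}

lemma lsg_of_even (h1 : ∀ x : Ins X, (coh X).ip x = false) (L : List (Ins X)) (a : Bool) :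
    lsg ℂ (coh X).ip a L = 1 := by
  induction L with
  | nil => simp
  | cons x L ih => rw [lsg_cons, h1, ih]; simp

lemma hodge_parity (L : List (Ins X))
    (h : (L.map fun x => (x.2 : ℤ) + hp X x.1 - 1).sum =
      (L.map fun x => (x.2 : ℤ) + hq X x.1 - 1).sum) (a : Bool) :
    lsg ℂ (coh X).ip a L = 1 := by
  -- number of odd entries
  cases a with
  | false => simp
  | true =>
    rcases Nat.even_or_odd X.dim with he | ho
    · apply lsg_of_even
      intro x
      obtain ⟨x, m⟩ := x
      rcases x with j | b
      · rfl
      · change (X.dim % 2 == 1) = false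
        rw [Nat.even_iff.mp he]
        rfl
    · have h1 : ∀ L : List (Ins X), lsg ℂ (coh X).ip true L =
          (-1 : ℂ) ^ ((L.map fun x => (hp X x.1 : ℤ) - hq X x.1).sum).natAbs := by
        intro L
        have key : ∀ x : Ins X, sg ℂ true ((coh X).ip x) =
            (-1 : ℂ) ^ ((hp X x.1 : ℤ) - hq X x.1).natAbs := by
          intro x
          obtain ⟨x, m⟩ := x
          rcases x with j | b
          · change sg ℂ true false = _
            simp [hp, hq]
          · change sg ℂ true (X.dim % 2 == 1) = _
            rw [Nat.odd_iff.mp ho]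
            have h2 := X.hodgeP_le b
            have h3 : Odd ((hp X (Sum.inr b) : ℤ) - hq X (Sum.inr b)).natAbs := by
              rw [Int.natAbs_odd]
              simp only [hp, hq]
              rw [Nat.cast_sub h2]
              obtain ⟨t, ht⟩ := ho
              refine ⟨X.hodgeP b - t - 1, ?_⟩
              rw [ht]
              push_cast
              ring
            rw [h3.neg_one_pow]
            simp [sg]
        have hpow : ∀ u v : ℤ, (-1 : ℂ) ^ (u + v).natAbs =
            (-1 : ℂ) ^ u.natAbs * (-1 : ℂ) ^ v.natAbs := by
          intro u v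
          have h5 : ∀ u : ℤ, (-1 : ℂ) ^ u.natAbs = (-1 : ℂ) ^ u := by
            intro u
            rcases Int.natAbs_eq u with hu | hu
            · conv_rhs => rw [hu]
              rw [zpow_natCast]
            · conv_rhs => rw [hu]
              rw [zpow_neg, zpow_natCast, ← inv_pow]
              norm_num
          rw [h5, h5, h5, zpow_add₀ (by norm_num)]
        induction L with
        | nil => simp
        | cons x L ih =>
          rw [lsg_cons, ih, key, List.map_cons, List.sum_cons, hpow]
      rw [h1]
      have h2 : (L.map fun x => (hp X x.1 : ℤ) - hq X x.1).sum = 0 := by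
        have h3 : (L.map fun x => (hp X x.1 : ℤ) - hq X x.1).sum =
            (L.map fun x => (x.2 : ℤ) + hp X x.1 - 1).sum -
            (L.map fun x => (x.2 : ℤ) + hq X x.1 - 1).sum := by
          clear h
          induction L with
          | nil => simp
          | cons x L ih =>
            simp only [List.map_cons, List.sum_cons, ih]
            ring
        rw [h3, h, sub_self]
      rw [h2]
      simp

lemma stringG (hF : IsGW X F) : (coh X).StringG F where
  symm g d := by
    intro L M x y
    rw [hF.symm g d L M x y]
    rfl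
  even g d a L := by
    by_cases h : F g d L = 0
    · rw [h, mul_zero]
    · rw [hodge_parity L ((hF.grading_p g d L h).trans (hF.grading_q g d L h).symm), one_mul]
  string g d L := by
    have h := hF.string g d L
    rw [lowerSum_one, pairTerm_eq] at h
    exact h

lemma weights (hF : IsGW X F) (g d : ℕ) :
    HW (Coh.wt (dgr X)) (Coh.vd X.dim (index X) g d) (F g d) := by
  intro L hL
  by_contra h
  apply hL
  have h1 := hF.grading_p g d L h
  have h2 := hF.grading_q g d L h
  have h3 : (L.map (Coh.wt (dgr X))).sum =
      (L.map fun x => (x.2 : ℤ) + hp X x.1 - 1).sum +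
      (L.map fun x => (x.2 : ℤ) + hq X x.1 - 1).sum := by
    clear h1 h2 h hL
    induction L with
    | nil => simp
    | cons x L ih =>
      simp only [List.map_cons, List.sum_cons, ih]
      unfold Coh.wt dgr
      ring
  rw [h3, h1, h2]
  unfold Coh.vd
  ring

lemma hmul_one_sum (G : Ix X → ℂ) : ∑ b, hmul X (one X) b * G b = G (hcls X) := by
  rw [Finset.sum_eq_single (hcls X)]
  · simp [hmul, one, hcls]
  · intro b _ hb
    rcases b with j | b
    · have : ¬ ((j : ℕ) = ((0 : Fin (X.dim + 1)) : ℕ) + 1) := by
        intro h
        apply hb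
        unfold hcls
        congr 1
        apply Fin.ext
        simpa using h
      simp only [one, hmul]
      rw [if_neg this, zero_mul]
    · simp [one, hmul]
  · simp

/-- The `L_0`-constraint. -/
lemma vir_zero (hF : IsGW X F)
    (hk : (coh X).kap = (3 - (X.dim : ℂ)) / 48 * (deg X * chernCoeff X X.dim) -
      (index X : ℂ) / 24 * (deg X * chernCoeff X (X.dim - 1)))
    (g d : ℕ) (L : List (Ins X)) : (coh X).vir F 0 g d L = 0 := by
  have h1 : (coh X).vir F 0 g d L = (coh X).lin 0 (F g d) L +
      (if g = 0 ∧ d = 0 then qform (fun a b => ∑ c, (coh X).Rp (0 + 1) a c *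
        (coh X).eta c b) L else 0) +
      (if g = 1 ∧ d = 0 then (coh X).kap * cst 1 L else 0) := by
    unfold Coh.vir Coh.quad2 Coh.loop
    simp
  rw [h1]
  unfold Coh.lin
  have h2 : (fun i : Ins X => (coh X).Aop 0 (Finsupp.single i 1)) = fun i =>
      Finsupp.single i ((i.2 : ℂ) + (coh X).half + (coh X).mu i.1) +
      ∑ b, (coh X).R i.1 b • low (Finsupp.single (b, i.2) 1) := by
    funext i
    rw [← Coh.A0_eq_Aop]
    exact (coh X).A0_single i.1 i.2
  have h3 : (coh X).Aop 0 (Finsupp.single ((coh X).one, 1) 1) =
      Finsupp.single ((coh X).one, 1) (((1 : ℕ) : ℂ) + (coh X).half + (coh X).mu (coh X).one) +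
      ∑ b, (coh X).R (coh X).one b • Finsupp.single (b, 0) 1 := by
    have := congrFun h2 ((coh X).one, 1)
    simp only at this
    rw [this]
    congr 1
    refine Finset.sum_congr rfl fun b _ => ?_
    rw [Coh.low_single, if_neg (by simp)]
  rw [h2, h3, rep_add, rep_diag, map_add, LinearMap.add_apply, ev_single, map_sum,
    LinearMap.sum_apply]
  have h4 : ∑ b, (ev ℂ (Ins X) ℂ) ((coh X).R (coh X).one b • Finsupp.single (b, 0) 1)
      (fun j => F g d (j :: L)) = index X * F g d ((hcls X, 0) :: L) := by
    rw [← hmul_one_sum (fun b => F g d ((b, 0) :: L)), Finset.mul_sum]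
    refine Finset.sum_congr rfl fun b _ => ?_
    rw [map_smul, LinearMap.smul_apply, ev_single, one_smul, smul_eq_mul]
    change c1 X (one X) b * _ = _
    unfold c1
    ring
  rw [h4]
  have h5 : rep (fun i : Ins X => ∑ b, (coh X).R i.1 b • low (Finsupp.single (b, i.2) (1 : ℂ)))
      (F g d) L = index X * lowerSum X (hmul X) (F g d) L := by
    rw [lowerSum_eq, ← rep_smul]
    congr 1
    funext i
    rw [Finset.smul_sum]
    refine Finset.sum_congr rfl fun b _ => ?_
    rw [smul_smul]
    rfl
  rw [h5]
  have hdil := hF.dilaton g d L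
  have hdiv := hF.divisor g d L
  have h6 : F g d (((coh X).one, 1) :: L) = F g d ((one X, 1) :: L) := rfl
  rw [h6, hdil, hdiv]
  -- the grading
  have hgr : ((L.map fun i : Ins X => (i.2 : ℂ) + (coh X).half + (coh X).mu i.1).sum -
      (3 - (X.dim : ℂ)) / 2 * (2 * g - 2 + L.length) - index X * d) * F g d L = 0 := by
    by_cases h : F g d L = 0
    · rw [h, mul_zero]
    · have h7 := hF.grading_p g d L h
      have h8 : (L.map fun i : Ins X => (i.2 : ℂ) + (coh X).half + (coh X).mu i.1).sum =
          (((L.map fun x => (x.2 : ℤ) + hp X x.1 - 1).sum : ℤ) : ℂ) +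
          (3 - (X.dim : ℂ)) / 2 * L.length := by
        clear h7 h hdil hdiv h6 h5 h4 h3 h2 h1
        induction L with
        | nil => simp
        | cons x L ih =>
          simp only [List.map_cons, List.sum_cons, ih, List.length_cons]
          have : (coh X).mu x.1 = (hp X x.1 : ℂ) - (X.dim : ℂ) / 2 := rfl
          rw [this]
          have : (coh X).half = 1 / 2 := rfl
          rw [this]
          push_cast
          ring
      rw [h8, h7]
      push_cast
      ring
  have hone : (((1 : ℕ) : ℂ) + (coh X).half + (coh X).mu (coh X).one) =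
      (3 - (X.dim : ℂ)) / 2 := by
    have e1 : (coh X).mu (coh X).one = 0 - (X.dim : ℂ) / 2 := by
      change mu X (one X) = _
      simp [mu, one, hp]
    have e2 : (coh X).half = 1 / 2 := rfl
    rw [e1, e2]
    push_cast
    ring
  rw [hone]
  have hq : (if g = 0 ∧ d = 0 then qform (fun a b => ∑ c, (coh X).Rp (0 + 1) a c *
        (coh X).eta c b) L else 0) = index X *
      (if g = 0 ∧ d = 0 then pairTerm X (fun a b => ∑ c, hmul X a c * pairing X c b) L
        else 0) := by
    split
    · rw [pairTerm_eq]
      have e1 : (fun a b => ∑ c, (coh X).Rp (0 + 1) a c * (coh X).eta c b) =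
          fun a b => (index X : ℂ) * ∑ c, hmul X a c * pairing X c b := by
        funext a b
        rw [Finset.mul_sum]
        refine Finset.sum_congr rfl fun c _ => ?_
        have : (coh X).Rp (0 + 1) a c = (coh X).R a c := by simp [Coh.Rp]
        rw [this]
        change c1 X a c * pairing X c b = _
        unfold c1
        ring
      rw [e1]
      unfold qform
      split
      · rfl
      · simp
    · simp
  rw [hq, hk]
  simp only [emptyTerm_eq, smul_eq_mul]
  by_cases hgd : g = 1 ∧ d = 0
  · simp only [if_pos hgd]
    linear_combination hgr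
  · simp only [if_neg hgd]
    linear_combination hgr

end Vale.Agent.P269.H597
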