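import Vale.Agent.P269.H597.Dimension
import Vale.Agent.P269.H597.Defs

/-!
# From complete intersections to the abstract data
-/

set_option linter.unusedSectionVars false

namespace Vale.Agent.P269.H597

open Finset.HasAntidiagonal (antidiagonal)
open Vale.Agent.P269

section

variable {K : Type*} [CommRing K] {ι : Type*} [Fintype ι] [DecidableEq ι]

lemma rep_eq_sum {I : Type*} (A : I → (I →₀ K)) (F : List I → K) (L : List I) :
    rep A F L = ∑ j : Fin L.length, ev K I K (A (L.get j)) (fun x => F (L.set j x)) := by
  induction L generalizing F with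
  | nil => simp [rep]
  | cons i L ih =>
    simp only [rep, ih]
    exact (Fin.sum_univ_succ (fun j : Fin (L.length + 1) =>
      ev K I K (A ((i :: L).get j)) (fun x => F ((i :: L).set j x)))).symm

lemma Coh.A0_eq_Aop (D : Coh K ι) (x : ι × ℕ) :
    D.A0 (Finsupp.single x 1) = D.Aop 0 (Finsupp.single x 1) := by
  obtain ⟨a, m⟩ := x
  rw [A0_single, Aop_single]
  rw [Finset.sum_range_succ, Finset.sum_range_one]
  have h1 : ∑ c : ι, (if 0 ≤ m + 0 then (br 0 0 ((m : K) + D.half + D.mu a) * D.Rp 0 a c) •
      (Finsupp.single (c, m + 0 - 0) 1 : ι × ℕ →₀ K) else 0) =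
      Finsupp.single (a, m) ((m : K) + D.half + D.mu a) := by
    rw [Finset.sum_eq_single a]
    · rw [if_pos (Nat.zero_le _), br_zero_zero, Rp_zero, if_pos rfl]
      simp
    · intro c _ hc
      rw [if_pos (Nat.zero_le _), Rp_zero, if_neg (Ne.symm hc)]
      simp
    · simp
  have h2 : ∑ c : ι, (if 0 + 1 ≤ m + 0 then
      (br 0 (0 + 1) ((m : K) + D.half + D.mu a) * D.Rp (0 + 1) a c) •
      (Finsupp.single (c, m + 0 - (0 + 1)) 1 : ι × ℕ →₀ K) else 0) =
      ∑ b, D.R a b • low (Finsupp.single (b, m) 1) := by
    refine Finset.sum_congr rfl fun c _ => ?_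
    cases m with
    | zero => simp
    | succ m =>
      rw [if_pos (by omega), low_single_succ]
      have : br 0 (0 + 1) (((m + 1 : ℕ) : K) + D.half + D.mu a) = 1 := br_zero_one _
      rw [this, one_mul]
      have h3 : D.Rp (0 + 1) a c = D.R a c := by simp [Rp]
      rw [h3]
      congr 1
  simp only at h1 h2 ⊢
  rw [h1, h2]

end

open CI

variable (X : CompleteIntersection)

lemma sgn_eq (a b : Bool) : CI.sgn a b = sg ℂ a b := rfl

lemma sgnL_eq (a : Bool) (L : List (Ins X)) :
    CI.sgnL X a L = lsg ℂ (fun x : Ins X => par X x.1) a L := rfl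

lemma par_cases (a : X.Prim) : par X (Sum.inr a) = (X.dim % 2 == 1) := rfl

lemma sg_par (a b : X.Prim) : sg ℂ (par X (Sum.inr a)) (par X (Sum.inr b)) = (-1) ^ X.dim := by
  rw [par_cases, par_cases]
  rcases Nat.even_or_odd X.dim with h | h
  · have h2 : X.dim % 2 = 0 := Nat.even_iff.mp h
    rw [h.neg_one_pow, h2]
    simp [sg]
  · have h2 : X.dim % 2 = 1 := Nat.odd_iff.mp h
    rw [h.neg_one_pow, h2]
    simp [sg]

lemma deg_ne : CI.deg X ≠ 0 := by
  unfold CI.deg
  rw [Nat.cast_ne_zero]
  apply List.prod_ne_zero
  intro h
  have := X.degs_pos 0 h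
  omega

lemma form_inv_hodge (a b : X.Prim) (h : (Matrix.of X.form)⁻¹ a b ≠ 0) :
    X.hodgeP a + X.hodgeP b = X.dim := by
  set Q : Matrix X.Prim X.Prim ℂ := Matrix.of X.form with hQ
  set P : Matrix X.Prim X.Prim ℂ := Matrix.diagonal fun a => ((X.hodgeP a : ℂ)) with hP
  have hu : IsUnit Q.det := isUnit_iff_ne_zero.mpr X.form_nondeg
  have h1 : P * Q = (X.dim : ℂ) • Q - Q * P := by
    ext x y
    rw [hP, Matrix.diagonal_mul, Matrix.sub_apply, Matrix.mul_diagonal, Matrix.smul_apply,
      smul_eq_mul]
    by_cases hxy : Q x y = 0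
    · rw [hxy]; ring
    · have := X.form_hodge x y hxy
      have h2 : ((X.hodgeP x : ℂ)) + X.hodgeP y = X.dim := by exact_mod_cast this
      linear_combination (Q x y) * h2
  have h2 : Q⁻¹ * P = (X.dim : ℂ) • Q⁻¹ - P * Q⁻¹ := by
    have h3 : Q⁻¹ * (P * Q) * Q⁻¹ = Q⁻¹ * ((X.dim : ℂ) • Q - Q * P) * Q⁻¹ := by rw [h1]
    rw [Matrix.mul_assoc, Matrix.mul_assoc, Matrix.mul_nonsing_inv Q hu, Matrix.mul_one] at h3
    rw [h3, Matrix.mul_sub, Matrix.sub_mul, ← Matrix.mul_assoc Q⁻¹ Q P,
      Matrix.nonsing_inv_mul Q hu, Matrix.one_mul, Matrix.mul_smul, Matrix.nonsing_inv_mul Q hu,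
      Matrix.smul_mul, Matrix.one_mul]
  have h3 := congrFun (congrFun h2 a) b
  rw [hP, Matrix.mul_diagonal, Matrix.sub_apply, Matrix.diagonal_mul, Matrix.smul_apply,
    smul_eq_mul] at h3
  have h4 : ((X.hodgeP a : ℂ) + X.hodgeP b - X.dim) * Q⁻¹ a b = 0 := by linear_combination h3
  rcases mul_eq_zero.mp h4 with h5 | h5
  · have h6 : ((X.hodgeP a : ℂ)) + X.hodgeP b = X.dim := by linear_combination h5
    exact_mod_cast h6
  · exact absurd h5 h

lemma mu_add (a b : Ix X) (h : hp X a + hp X b = X.dim) : mu X a + mu X b = 0 := by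
  unfold mu
  have : ((hp X a : ℂ)) + hp X b = X.dim := by exact_mod_cast h
  linear_combination this

lemma hmul_pairing (i j : Fin (X.dim + 1)) :
    ∑ c, hmul X (Sum.inl i) c * pairing X c (Sum.inl j) =
      if (i : ℕ) + 1 + j = X.dim then CI.deg X else 0 := by
  rw [Fintype.sum_sum_type]
  have h1 : ∑ x : X.Prim, hmul X (Sum.inl i) (Sum.inr x) * pairing X (Sum.inr x) (Sum.inl j) =
      0 := Finset.sum_eq_zero fun x _ => by simp [hmul]
  rw [h1, add_zero]
  simp only [hmul, pairing]
  split
  · rename_i h
    rw [Finset.sum_eq_single ⟨(i : ℕ) + 1, by omega⟩]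
    · simp [h]
    · intro c _ hc
      have : ¬ (c : ℕ) = i + 1 := fun h2 => hc (Fin.ext h2)
      simp [this]
    · simp
  · rename_i h
    refine Finset.sum_eq_zero fun c _ => ?_
    by_cases h2 : (c : ℕ) = i + 1
    · rw [if_pos h2, if_neg (by omega), mul_zero]
    · rw [if_neg h2, zero_mul]

lemma pairing_hmul (i j : Fin (X.dim + 1)) :
    ∑ c, pairing X (Sum.inl i) c * hmul X (Sum.inl j) c =
      if (i : ℕ) + 1 + j = X.dim then CI.deg X else 0 := by
  rw [Fintype.sum_sum_type]
  have h1 : ∑ x : X.Prim, pairing X (Sum.inl i) (Sum.inr x) * hmul X (Sum.inl j) (Sum.inr x) =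
      0 := Finset.sum_eq_zero fun x _ => by simp [hmul]
  rw [h1, add_zero]
  simp only [hmul, pairing]
  split
  · rename_i h
    rw [Finset.sum_eq_single ⟨(j : ℕ) + 1, by omega⟩]
    · have : (i : ℕ) + (j + 1) = X.dim := by omega
      simp [this]
    · intro c _ hc
      have : ¬ (c : ℕ) = j + 1 := fun h2 => hc (Fin.ext h2)
      simp [this]
    · simp
  · rename_i h
    refine Finset.sum_eq_zero fun c _ => ?_
    by_cases h2 : (c : ℕ) = j + 1
    · rw [if_pos h2, if_neg (by omega), zero_mul]
    · rw [if_neg h2, mul_zero]

/-- The abstract data of a complete intersection. -/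
noncomputable def coh : Coh ℂ (Ix X) where
  half := 1 / 2
  two_half := by norm_num
  par := par X
  one := one X
  mu := mu X
  R := c1 X
  eta := pairing X
  etai := pairingInv X
  par_one := rfl
  eta_par a b h := by
    rcases a with i | a <;> rcases b with j | b
    · rfl
    · simp [pairing] at h
    · simp [pairing] at h
    · rfl
  R_par a b h := by
    rcases a with i | a <;> rcases b with j | b
    · rfl
    · simp [c1, hmul] at h
    · simp [c1, hmul] at h
    · rfl
  eta_symm a b := by
    rcases a with i | a <;> rcases b with j | b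
    · simp only [pairing, par, sg_false_left, one_mul]
      rw [add_comm]
    · simp [pairing]
    · simp [pairing]
    · rw [sg_par]
      exact X.form_symm a b
  eta_inv a c := by
    rw [Fintype.sum_sum_type]
    rcases a with i | a <;> rcases c with j | c
    · have h1 : ∑ x : X.Prim, pairing X (Sum.inl i) (Sum.inr x) *
          pairingInv X (Sum.inr x) (Sum.inl j) = 0 :=
        Finset.sum_eq_zero fun x _ => by simp [pairing]
      rw [h1, add_zero]
      simp only [pairing, pairingInv]
      rw [Finset.sum_eq_single ⟨X.dim - i, by omega⟩]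
      · have h2 : (i : ℕ) + (X.dim - i) = X.dim := by omega
        rw [if_pos h2]
        by_cases hij : i = j
        · subst hij
          have h3 : (X.dim - (i : ℕ)) + i = X.dim := by omega
          rw [if_pos h3, mul_inv_cancel₀ (deg_ne X)]
          simp
        · have h3 : ¬ (X.dim - (i : ℕ)) + j = X.dim := by
            intro h4
            apply hij
            apply Fin.ext
            omega
          rw [if_neg h3, mul_zero, if_neg]
          intro h4
          exact hij (Sum.inl.inj h4)
      · intro b _ hb
        have : ¬ (i : ℕ) + b = X.dim := by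
          intro h2
          apply hb
          apply Fin.ext
          simp only
          omega
        rw [if_neg this, zero_mul]
      · simp
    · simp [pairing, pairingInv]
    · simp [pairing, pairingInv]
    · have h1 : ∑ x : Fin (X.dim + 1), pairing X (Sum.inr a) (Sum.inl x) *
          pairingInv X (Sum.inl x) (Sum.inr c) = 0 :=
        Finset.sum_eq_zero fun x _ => by simp [pairing]
      rw [h1, zero_add]
      have h2 := Matrix.mul_nonsing_inv (Matrix.of X.form) (isUnit_iff_ne_zero.mpr X.form_nondeg)
      have h3 := congrFun (congrFun h2 a) c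
      rw [Matrix.mul_apply, Matrix.one_apply] at h3
      have h4 : (if (Sum.inr a : Ix X) = Sum.inr c then (1 : ℂ) else 0) =
          if a = c then 1 else 0 := by simp
      rw [h4, ← h3]
      rfl
  etai_par a b h := by
    rcases a with i | a <;> rcases b with j | b
    · rfl
    · simp [pairingInv] at h
    · simp [pairingInv] at h
    · rfl
  etai_mu a b h := by
    apply mu_add
    rcases a with i | a <;> rcases b with j | b
    · simp only [pairingInv] at h
      by_contra h2
      exact h (if_neg h2)
    · simp [pairingInv] at h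
    · simp [pairingInv] at h
    · exact form_inv_hodge X a b h
  R_mu a b h := by
    rcases a with i | a <;> rcases b with j | b
    · simp only [c1, hmul] at h
      have h2 : (j : ℕ) = i + 1 := by
        by_contra h3
        apply h
        rw [if_neg h3, mul_zero]
      simp only [mu, hp, h2]
      push_cast
      ring
    · simp [c1, hmul] at h
    · simp [c1, hmul] at h
    · simp [c1, hmul] at h
  eta_mu a b h := by
    apply mu_add
    rcases a with i | a <;> rcases b with j | b
    · simp only [pairing] at h
      by_contra h2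
      exact h (if_neg h2)
    · simp [pairing] at h
    · simp [pairing] at h
    · exact X.form_hodge a b h
  R_symm a b := by
    have h1 : ∑ c, c1 X a c * pairing X c b = index X * ∑ c, hmul X a c * pairing X c b := by
      rw [Finset.mul_sum]
      refine Finset.sum_congr rfl fun c _ => ?_
      unfold c1; ring
    have h2 : ∑ c, pairing X a c * c1 X b c = index X * ∑ c, pairing X a c * hmul X b c := by
      rw [Finset.mul_sum]
      refine Finset.sum_congr rfl fun c _ => ?_
      unfold c1; ring
    rw [h1, h2]
    congr 1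
    rcases a with i | a <;> rcases b with j | b
    · rw [hmul_pairing, pairing_hmul]
    · rw [Finset.sum_eq_zero, Finset.sum_eq_zero]
      · intro c _
        simp [hmul]
      · intro c _
        rcases c with c | c <;> simp [hmul, pairing]
    · rw [Finset.sum_eq_zero, Finset.sum_eq_zero]
      · intro c _
        rcases c with c | c <;> simp [hmul, pairing]
      · intro c _
        simp [hmul]
    · rw [Finset.sum_eq_zero, Finset.sum_eq_zero]
      · intro c _
        simp [hmul]
      · intro c _
        simp [hmul]

/-- The real degree of a class. -/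
def dgr (a : Ix X) : ℤ := hp X a + hq X a

lemma dgr_inl (j : Fin (X.dim + 1)) : dgr X (Sum.inl j) = 2 * j := by
  simp only [dgr, hp, hq]; ring

lemma dgr_inr (a : X.Prim) : dgr X (Sum.inr a) = X.dim := by
  have := X.hodgeP_le a
  simp only [dgr, hp, hq]
  omega

lemma degData : (coh X).DegData (dgr X) X.dim (index X) where
  one := by
    change dgr X (Sum.inl 0) = 0
    rw [dgr_inl]
    simp
  other a ha := by
    rcases a with i | a
    · rw [dgr_inl]
      have : (i : ℕ) ≠ 0 := by
        intro h
        apply ha
        change Sum.inl i = Sum.inl 0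
        congr 1
        exact Fin.ext h
      omega
    · rw [dgr_inr]
      have := X.two_le_dim
      omega
  R a b h := by
    rcases a with i | a <;> rcases b with j | b
    · rw [dgr_inl, dgr_inl]
      have h' : c1 X (Sum.inl i) (Sum.inl j) ≠ 0 := h
      simp only [c1, hmul] at h'
      have h2 : (j : ℕ) = i + 1 := by
        by_contra h3
        apply h'
        rw [if_neg h3, mul_zero]
      omega
    · simp [coh, c1, hmul] at h
    · simp [coh, c1, hmul] at h
    · simp [coh, c1, hmul] at h
  eta a b h := by
    rcases a with i | a <;> rcases b with j | b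
    · rw [dgr_inl, dgr_inl]
      have h' : pairing X (Sum.inl i) (Sum.inl j) ≠ 0 := h
      simp only [pairing] at h'
      have h2 : (i : ℕ) + j = X.dim := by
        by_contra h3
        exact h' (if_neg h3)
      omega
    · simp [coh, pairing] at h
    · simp [coh, pairing] at h
    · rw [dgr_inr, dgr_inr]; ring
  etai a b h := by
    rcases a with i | a <;> rcases b with j | b
    · rw [dgr_inl, dgr_inl]
      have h' : pairingInv X (Sum.inl i) (Sum.inl j) ≠ 0 := h
      simp only [pairingInv] at h'
      have h2 : (i : ℕ) + j = X.dim := by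
        by_contra h3
        exact h' (if_neg h3)
      omega
    · simp [coh, pairingInv] at h
    · simp [coh, pairingInv] at h
    · rw [dgr_inr, dgr_inr]; ring

end Vale.Agent.P269.H597
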