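import Vale.Agent.P269.H597.State

/-!
# Closed form of the Virasoro operators and the genus-zero Virasoro constraints
-/

set_option linter.unusedSectionVars false

namespace Vale.Agent.P269.H597

variable {K : Type*} [CommRing K] {ι : Type*} [Fintype ι] [DecidableEq ι]

open Polynomial in
/-- `[x]^k_i`, the coefficient of `R^i` in `∏_{j=0}^{k} (R + x + j)`. -/
noncomputable def br (k i : ℕ) (x : K) : K :=
  (∏ j ∈ Finset.range (k + 1), (X + C (x + (j : K)))).coeff i

lemma br_zero_zero (x : K) : br 0 0 x = x := by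
  simp [br]

lemma br_zero_one (x : K) : br 0 1 x = 1 := by
  simp [br]

lemma br_succ (k i : ℕ) (x : K) : br (k + 1) i x =
    x * br k i (x + 1) + (if i = 0 then 0 else br k (i - 1) (x + 1)) := by
  unfold br
  rw [Finset.prod_range_succ']
  have h1 : ∏ j ∈ Finset.range (k + 1), (Polynomial.X + Polynomial.C (x + ((j + 1 : ℕ) : K))) =
      ∏ j ∈ Finset.range (k + 1), (Polynomial.X + Polynomial.C (x + 1 + (j : K))) := by
    refine Finset.prod_congr rfl fun j _ => ?_
    congr 2
    push_cast; ring
  rw [h1, mul_add, Polynomial.coeff_add, Polynomial.coeff_mul_C]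
  cases i with
  | zero => simp [mul_comm]
  | succ i =>
    rw [Polynomial.coeff_mul_X]
    simp [mul_comm, add_comm]

lemma br_high (k i : ℕ) (hi : k + 1 < i) (x : K) : br k i x = 0 := by
  induction k generalizing i x with
  | zero =>
    unfold br
    simp only [zero_add, Finset.range_one, Finset.prod_singleton, Nat.cast_zero, add_zero,
      Polynomial.coeff_add, Polynomial.coeff_X, Polynomial.coeff_C]
    rw [if_neg (by omega), if_neg (by omega), add_zero]
  | succ k ih =>
    rw [br_succ, ih i (by omega), if_neg (by omega), ih (i - 1) (by omega)]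
    simp

lemma br_top (k : ℕ) (x : K) : br k (k + 1) x = 1 := by
  induction k generalizing x with
  | zero => exact br_zero_one x
  | succ k ih =>
    rw [br_succ, br_high k (k + 1 + 1) (by omega), if_neg (by omega)]
    simp [ih]

lemma br_refl (k i : ℕ) (y : K) : br k i (-(y + k)) = (-1) ^ (k + 1 + i) * br k i y := by
  unfold br
  have h1 : ∏ j ∈ Finset.range (k + 1), (Polynomial.X + Polynomial.C (-(y + k) + (j : K))) =
      (-1) ^ (k + 1) * (∏ j ∈ Finset.range (k + 1),
        (Polynomial.X + Polynomial.C (y + (j : K)))).comp (-Polynomial.X) := by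
    rw [← Finset.prod_range_reflect, Polynomial.prod_comp, ← Finset.card_range (k + 1),
      ← Finset.prod_const, Finset.card_range, ← Finset.prod_mul_distrib]
    refine Finset.prod_congr rfl fun j hj => ?_
    have hj' : j ≤ k := by
      have := Finset.mem_range.mp hj
      omega
    have h2 : ((k + 1 - 1 - j : ℕ) : K) = (k : K) - j := by
      rw [Nat.add_sub_cancel, Nat.cast_sub hj']
    rw [h2]
    simp only [Polynomial.add_comp, Polynomial.X_comp, Polynomial.C_comp]
    have h3 : -(y + (k : K)) + ((k : K) - j) = -(y + j) := by ring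
    rw [h3, Polynomial.C_neg]
    ring
  rw [h1]
  have h2 : ((-1 : Polynomial K)) ^ (k + 1) = Polynomial.C ((-1) ^ (k + 1)) := by
    simp
  have h3 : (-Polynomial.X : Polynomial K) = Polynomial.C (-1) * Polynomial.X := by simp
  rw [h2, Polynomial.coeff_C_mul, h3, Polynomial.comp_C_mul_X_coeff, pow_add]
  ring

namespace Coh

variable (D : Coh K ι) (F : List (ι × ℕ) → K)

/-- Powers of `R`. -/
noncomputable def Rp (i : ℕ) (a c : ι) : K := ((Matrix.of D.R) ^ i) a c

lemma Rp_zero (a c : ι) : D.Rp 0 a c = if a = c then 1 else 0 := by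
  unfold Rp
  rw [pow_zero, Matrix.one_apply]

lemma Rp_succ (i : ℕ) (a c : ι) : D.Rp (i + 1) a c = ∑ b, D.R a b * D.Rp i b c := by
  unfold Rp
  rw [pow_succ', Matrix.mul_apply]
  rfl

lemma Rp_succ' (i : ℕ) (a c : ι) : D.Rp (i + 1) a c = ∑ b, D.Rp i a b * D.R b c := by
  unfold Rp
  rw [pow_succ, Matrix.mul_apply]
  rfl

lemma Rp_par (i : ℕ) (a c : ι) (h : D.par a ≠ D.par c) : D.Rp i a c = 0 := by
  induction i generalizing a with
  | zero =>
    rw [Rp_zero, if_neg]
    rintro rfl
    exact h rfl
  | succ i ih =>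
    rw [Rp_succ]
    refine Finset.sum_eq_zero fun b _ => ?_
    by_cases hR : D.R a b = 0
    · simp [hR]
    · have := D.R_par a b hR
      rw [ih b (by rwa [← this]), mul_zero]

/-- The Laurent form of the operator `l_k`. -/
noncomputable def Lk (k : ℕ) (Φ : ι × ℤ → List (ι × ℕ) → K) : ι × ℤ → List (ι × ℕ) → K :=
  fun x L => ∑ i ∈ Finset.range (k + 2), ∑ c,
    br k i ((x.2 : K) + D.half + D.mu x.1) * D.Rp i x.1 c * Φ (c, x.2 + k - i) L

lemma Lk_zero (Φ : ι × ℤ → List (ι × ℕ) → K) (a : ι) (n : ℤ) (L : List (ι × ℕ)) :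
    D.Lk 0 Φ (a, n) L = ((n : K) + D.half + D.mu a) * Φ (a, n) L +
      ∑ b, D.R a b * Φ (b, n - 1) L := by
  unfold Lk
  simp only [zero_add, Finset.sum_range_succ, Finset.range_one, Finset.sum_singleton,
    Nat.cast_zero, add_zero, sub_zero, br_zero_zero, Rp_zero, br_zero_one, Nat.cast_one, one_mul]
  congr 1
  · simp
  · refine Finset.sum_congr rfl fun b _ => ?_
    rw [show D.Rp 1 a b = D.R a b by simp [Rp]]

lemma Lk_succ (k : ℕ) (Φ : ι × ℤ → List (ι × ℕ) → K) (a : ι) (n : ℤ) (L : List (ι × ℕ)) :
    D.Lk (k + 1) Φ (a, n) L = ((n : K) + D.half + D.mu a) * D.Lk k Φ (a, n + 1) L +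
      ∑ b, D.R a b * D.Lk k Φ (b, n) L := by
  have h1 : D.Lk (k + 1) Φ (a, n) L =
      ∑ i ∈ Finset.range (k + 3), ∑ c, (((n : K) + D.half + D.mu a) *
        br k i ((n : K) + D.half + D.mu a + 1)) * D.Rp i a c * Φ (c, n + (k + 1 : ℕ) - i) L +
      ∑ i ∈ Finset.range (k + 3), ∑ c, (if i = 0 then 0 else
        br k (i - 1) ((n : K) + D.half + D.mu a + 1)) * D.Rp i a c *
        Φ (c, n + (k + 1 : ℕ) - i) L := by
    unfold Lk
    rw [← Finset.sum_add_distrib]
    refine Finset.sum_congr rfl fun i _ => ?_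
    rw [← Finset.sum_add_distrib]
    refine Finset.sum_congr rfl fun c _ => ?_
    rw [br_succ]
    ring
  rw [h1]
  congr 1
  · rw [Finset.sum_range_succ]
    have h2 : ∑ c, (((n : K) + D.half + D.mu a) *
        br k (k + 2) ((n : K) + D.half + D.mu a + 1)) * D.Rp (k + 2) a c *
        Φ (c, n + (k + 1 : ℕ) - (k + 2 : ℕ)) L = 0 := by
      refine Finset.sum_eq_zero fun c _ => ?_
      rw [br_high k (k + 2) (by omega)]
      ring
    rw [h2, add_zero]
    unfold Lk
    rw [Finset.mul_sum]
    refine Finset.sum_congr rfl fun i _ => ?_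
    rw [Finset.mul_sum]
    refine Finset.sum_congr rfl fun c _ => ?_
    have e1 : n + (k + 1 : ℕ) - (i : ℤ) = n + 1 + k - i := by push_cast; ring
    simp only [e1]
    have e2 : ((n + 1 : ℤ) : K) + D.half + D.mu a = (n : K) + D.half + D.mu a + 1 := by
      push_cast; ring
    rw [e2]
    ring
  · rw [Finset.sum_range_succ']
    simp only [if_true, zero_mul, Finset.sum_const_zero, add_zero, Nat.add_sub_cancel]
    unfold Lk
    simp only [Finset.mul_sum]
    rw [Finset.sum_comm]
    rw [Finset.sum_comm]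
    have h3 : ∀ i ∈ Finset.range (k + 2), ∑ c, (if i + 1 = 0 then 0 else
        br k i ((n : K) + D.half + D.mu a + 1)) * D.Rp (i + 1) a c *
        Φ (c, n + (k + 1 : ℕ) - (i + 1 : ℕ)) L =
        ∑ b, ∑ c, D.R a b * (br k i ((n : K) + D.half + D.mu b) * D.Rp i b c *
          Φ (c, n + k - i) L) := by
      intro i _
      rw [Finset.sum_comm]
      refine Finset.sum_congr rfl fun c _ => ?_
      rw [if_neg (by omega), Rp_succ, Finset.mul_sum, Finset.sum_mul]
      refine Finset.sum_congr rfl fun b _ => ?_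
      by_cases hR : D.R a b = 0
      · simp [hR]
      · have e1 : n + (k + 1 : ℕ) - ((i + 1 : ℕ) : ℤ) = n + k - i := by push_cast; ring
        have e2 : (n : K) + D.half + D.mu b = (n : K) + D.half + D.mu a + 1 := by
          rw [D.R_mu a b hR]; ring
        rw [e1, e2]
        ring
    rw [Finset.sum_congr rfl h3, Finset.sum_comm]

variable {D F}

/-- Closed form of the components of `l_k f`. -/
lemma cs_closed (k : ℕ) (a : ι) (n : ℤ) (L : List (ι × ℕ)) :
    (cs D F k).2 (a, n) L = - D.Lk k (D.Phi0 F) (a, n) L := by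
  induction k generalizing a n L with
  | zero =>
    rw [Lk_zero]
    rfl
  | succ k ih =>
    rw [Lk_succ]
    have h1 : (cs D F (k + 1)).2 (a, n) L =
      - (((n : K) + D.half + D.mu a) * (- (cs D F k).2 (a, n + 1) L) +
        ∑ b, D.R a b * (- (cs D F k).2 (b, n - 1 + 1) L)) := rfl
    rw [h1]
    simp only [ih, sub_add_cancel, neg_neg]

variable (D) in
/-- The polynomial part of `l_k` on `H[z]`: `z^m φ_a ↦ ∑_i [μ_a+m+1/2]^k_i z^{m+k-i} R^i φ_a`. -/
noncomputable def Aop (k : ℕ) : (ι × ℕ →₀ K) →ₗ[K] (ι × ℕ →₀ K) :=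
  Finsupp.lsum K fun x => LinearMap.toSpanSingleton K _
    (∑ i ∈ Finset.range (k + 2), ∑ c, if i ≤ x.2 + k then
      (br k i ((x.2 : K) + D.half + D.mu x.1) * D.Rp i x.1 c) •
        Finsupp.single (c, x.2 + k - i) 1 else 0)

lemma Aop_single (k : ℕ) (x : ι × ℕ) : D.Aop k (Finsupp.single x 1) =
    ∑ i ∈ Finset.range (k + 2), ∑ c, if i ≤ x.2 + k then
      (br k i ((x.2 : K) + D.half + D.mu x.1) * D.Rp i x.1 c) •
        Finsupp.single (c, x.2 + k - i) 1 else 0 := by
  simp [Aop]

lemma ev_Aop (k : ℕ) (x : ι × ℕ) (G : ι × ℕ → K) :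
    ev K (ι × ℕ) K (D.Aop k (Finsupp.single x 1)) G =
    ∑ i ∈ Finset.range (k + 2), ∑ c, if i ≤ x.2 + k then
      (br k i ((x.2 : K) + D.half + D.mu x.1) * D.Rp i x.1 c) *
        G (c, x.2 + k - i) else 0 := by
  rw [Aop_single, map_sum, LinearMap.sum_apply]
  refine Finset.sum_congr rfl fun i _ => ?_
  rw [map_sum, LinearMap.sum_apply]
  refine Finset.sum_congr rfl fun c _ => ?_
  split
  · rw [map_smul, LinearMap.smul_apply, ev_single, one_smul, smul_eq_mul]
  · simp

lemma evenOp_Aop (k : ℕ) : EvenOp D.ip (D.Aop k) := by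
  intro a b v
  refine finsupp_lin_ext (f := S D.ip a b ∘ₗ D.Aop k) (g := D.Aop k ∘ₗ S D.ip a b)
    (fun x => ?_) v
  simp only [LinearMap.comp_apply, S_single, mul_one]
  have h0 : (Finsupp.single x (sg K a (xor (D.ip x) b)) : ι × ℕ →₀ K) =
      sg K a (xor (D.ip x) b) • Finsupp.single x 1 := by simp
  rw [h0, map_smul, Aop_single, map_sum, Finset.smul_sum]
  refine Finset.sum_congr rfl fun i _ => ?_
  rw [map_sum, Finset.smul_sum]
  refine Finset.sum_congr rfl fun c _ => ?_
  split
  · rw [map_smul, S_single, smul_comm]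
    by_cases hp : D.par x.1 = D.par c
    · congr 1
      simp [ip, hp]
    · rw [D.Rp_par i x.1 c hp]
      simp
  · simp

/-- The Laurent operator in terms of its polynomial part. -/
lemma Lk_nat (k : ℕ) (a : ι) (m : ℕ) (M : List (ι × ℕ)) :
    D.Lk k (D.Phi0 F) (a, (m : ℤ)) M =
      ev K (ι × ℕ) K (D.Aop k (Finsupp.single (a, m) 1)) (fun j => F (j :: M)) +
      (if m = 0 then ∑ d, (∑ c, D.Rp (k + 1) a c * D.eta c d) * (tau (D.one, 1) M) (d, 0)
        else 0) := by
  have key : ∀ (f g : ℕ → K) (x : K), (∀ i ∈ Finset.range (k + 1), f i = g i) →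
      f (k + 1) = g (k + 1) + x →
      ∑ i ∈ Finset.range (k + 2), f i = ∑ i ∈ Finset.range (k + 2), g i + x := by
    intro f g x h1 h2
    rw [Finset.sum_range_succ f (k + 1), Finset.sum_range_succ g (k + 1), h2,
      Finset.sum_congr rfl h1]
    ring
  rw [ev_Aop]
  unfold Lk
  refine key _ _ _ (fun i hi => Finset.sum_congr rfl fun c _ => ?_) ?_
  · have hi' := Finset.mem_range.mp hi
    have e0 : i ≤ m + k := by omega
    have e1 : (m : ℤ) + k - i = Int.ofNat (m + k - i) := by
      simp only [Int.ofNat_eq_natCast]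
      omega
    simp only [e1, Phi0, if_pos e0, Int.cast_natCast]
  · cases m with
    | zero =>
      have h1 : ∑ c, (if k + 1 ≤ 0 + k then
        (br k (k + 1) (((0 : ℕ) : K) + D.half + D.mu a) * D.Rp (k + 1) a c) *
          F ((c, 0 + k - (k + 1)) :: M) else 0) = 0 := by
        refine Finset.sum_eq_zero fun c _ => ?_
        rw [if_neg (by omega)]
      simp only [if_true]
      rw [h1, zero_add]
      have e1 : ((0 : ℕ) : ℤ) + k - ((k + 1 : ℕ) : ℤ) = Int.negSucc 0 := by
        simp only [Int.negSucc_eq]; push_cast; ring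
      simp only [e1, br_top, one_mul, Phi0, pow_zero]
      simp only [Finset.mul_sum, Finset.sum_mul]
      rw [Finset.sum_comm]
      refine Finset.sum_congr rfl fun c _ => Finset.sum_congr rfl fun d _ => ?_
      ring
    | succ m =>
      rw [if_neg (Nat.succ_ne_zero m), add_zero]
      refine Finset.sum_congr rfl fun c _ => ?_
      have e0 : k + 1 ≤ m + 1 + k := by omega
      have e1 : ((m + 1 : ℕ) : ℤ) + k - ((k + 1 : ℕ) : ℤ) = Int.ofNat m := by
        simp only [Int.ofNat_eq_natCast]; push_cast; ring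
      have e2 : m + 1 + k - (k + 1) = m := by omega
      simp only [e1, e2, Phi0, Int.cast_natCast, if_pos e0]

/-! ### The Hamiltonian identity -/

lemma rep_id (C : List (ι × ℕ) → K) (L : List (ι × ℕ)) :
    rep (fun i => (LinearMap.id : (ι × ℕ →₀ K) →ₗ[K] (ι × ℕ →₀ K)) (Finsupp.single i 1)) C L =
      (L.length : K) * C L := by
  induction L generalizing C with
  | nil => simp [rep]
  | cons i L ih =>
    rw [rep, ih]
    simp only [LinearMap.id_apply, ev_single, one_smul, List.length_cons]
    push_cast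
    ring

/-- Euler's relation (the dilaton equation). -/
lemma act_tau_F (hF : D.Genus0 F) (L : List (ι × ℕ)) :
    act D.ip (tau (K := K) (D.one, 1)) F L = 2 * F L := by
  have h := act_tau D.ip (D.one, 1) ip_one (evenOp_id (K := K) D.ip) F hF.symm L
  rw [rep_id] at h
  simp only [LinearMap.id_apply, ev_single, one_smul] at h
  rw [hF.dilaton] at h
  have h2 : (fun M => tau (K := K) (D.one, 1) M) = tau (D.one, 1) := rfl
  rw [h2] at h
  rw [h]
  ring

lemma fin_identity (hF : D.Genus0 F) (k : ℕ) (L : List (ι × ℕ)) :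
    sh D.ip (ev K (ι × ℕ) K) L (tau (D.one, 1))
      (fun M i => (cs D F k).2 (i.1, (i.2 : ℤ)) M) = act D.ip (cs D F k).1 F L := by
  obtain ⟨hT, hC, hP, -⟩ := cs_good hF k
  have h1 : act D.ip (cs D F k).1 (fun M => sh D.ip (ev K (ι × ℕ) K) M (tau (D.one, 1))
      (fun M i => F (i :: M))) L = act D.ip (cs D F k).1 (fun M => 2 * F M) L := by
    congr 1
    funext M
    exact act_tau_F hF M
  rw [act_mul_const, act_sh D.ip _ hP] at h1
  have h2 : act D.ip (cs D F k).1 (tau (D.one, 1)) = (cs D F k).1 := by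
    funext M
    exact act_coord D.ip _ _ (tau_cons (D.one, 1)) M
  have h3 : act D.ip (cs D F k).1 (fun M i => F (i :: M)) =
      fun M i => (cs D F k).2 (i.1, (i.2 : ℤ)) M := by
    funext M i
    rw [act_apply]
    exact (hT i.1 i.2 M).symm
  rw [h2, h3] at h1
  have h4 : sh D.ip (ev K (ι × ℕ) K) L (cs D F k).1 (fun M i => F (i :: M)) =
      act D.ip (cs D F k).1 F L := rfl
  rw [h4] at h1
  linear_combination h1

lemma Reta_symm (k : ℕ) (a b : ι) : ∑ c, D.Rp k a c * D.eta c b =
    ∑ c, D.eta a c * D.Rp k b c := by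
  induction k generalizing a b with
  | zero => simp [Rp_zero]
  | succ k ih =>
    have h1 : ∑ c, D.Rp (k + 1) a c * D.eta c b = ∑ x, D.R a x * ∑ c, D.Rp k x c * D.eta c b := by
      simp only [Rp_succ, Finset.sum_mul, Finset.mul_sum]
      rw [Finset.sum_comm]
      refine Finset.sum_congr rfl fun x _ => Finset.sum_congr rfl fun y _ => ?_
      ring
    have h2 : ∑ x, D.R a x * ∑ c, D.Rp k x c * D.eta c b =
        ∑ y, (∑ x, D.R a x * D.eta x y) * D.Rp k b y := by
      simp only [ih, Finset.sum_mul, Finset.mul_sum]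
      rw [Finset.sum_comm]
      refine Finset.sum_congr rfl fun x _ => Finset.sum_congr rfl fun y _ => ?_
      ring
    rw [h1, h2]
    simp only [D.R_symm, Rp_succ', Finset.sum_mul, Finset.mul_sum]
    rw [Finset.sum_comm]
    refine Finset.sum_congr rfl fun x _ => Finset.sum_congr rfl fun y _ => ?_
    ring

lemma Reta_super (k : ℕ) (a b : ι) : ∑ c, D.Rp k a c * D.eta c b =
    sg K (D.par a) (D.par b) * ∑ c, D.Rp k b c * D.eta c a := by
  rw [Reta_symm k a b, Finset.mul_sum]
  refine Finset.sum_congr rfl fun c _ => ?_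
  by_cases hp : D.par b = D.par c
  · rw [D.eta_symm a c, hp]
    ring
  · rw [D.Rp_par k b c hp]
    ring

/-- The quadratic form `(N t_0, t_0)`. -/
lemma sh_tau_q (N : ι → ι → K) (hN : ∀ a b, N a b = sg K (D.par a) (D.par b) * N b a)
    (L : List (ι × ℕ)) :
    sh D.ip (ev K (ι × ℕ) K) L (tau (D.one, 1))
      (fun M i => if i.2 = 0 then ∑ d, N i.1 d * (tau (D.one, 1) M) (d, 0) else 0) =
      2 * qform N L := by
  match L with
  | [] =>
    simp [sh_nil, tau, qform]
  | x :: L =>
    rw [sh_cons]
    have h1 : (fun M => tau (K := K) (D.one, 1) (x :: M)) = cst (Finsupp.single x 1) := by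
      funext M; exact tau_cons _ _ _
    have h2 : (fun (M : List (ι × ℕ)) (i : ι × ℕ) => if i.2 = 0 then
        ∑ d, N i.1 d * (tau (K := K) (D.one, 1) (x :: M)) (d, 0) else 0) =
        cst (fun i => if i.2 = 0 ∧ x.2 = 0 then N i.1 x.1 else 0) := by
      funext M i
      rw [tau_cons]
      match M with
      | [] =>
        simp only [cst_nil, Finsupp.single_apply]
        obtain ⟨x1, x2⟩ := x
        by_cases hi : i.2 = 0
        · cases x2 with
          | zero => simp [hi]
          | succ x2 => simp [hi]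
        · simp [hi]
      | _ :: _ => simp
    rw [h1, h2, sh_cst_left, sh_cst_right, ev_single, one_smul]
    match L with
    | [] =>
      simp [tau, qform]
    | [y] =>
      simp only [lsg_cons, lsg_nil, mul_one, tau, map_smul, LinearMap.smul_apply, ev_single,
        one_smul]
      obtain ⟨x1, x2⟩ := x
      obtain ⟨y1, y2⟩ := y
      cases x2 with
      | zero =>
        cases y2 with
        | zero =>
          simp only [Finsupp.single_apply, Prod.mk.injEq, and_true, if_true, and_self, qform,
            ip, smul_eq_mul]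
          have h3 : ∑ d, N x1 d * (if y1 = d then (1 : K) else 0) = N x1 y1 := by simp
          rw [h3, hN x1 y1]
          ring
        | succ y2 => simp [qform]
      | succ x2 => simp [qform]
    | _ :: _ :: _ =>
      simp [tau, qform]

/-! ### Closed form of the polynomial part -/

lemma Aop_apply (k : ℕ) (v : ι × ℕ →₀ K) (b : ι) (m : ℕ) :
    D.Aop k v (b, m) = ∑ i ∈ Finset.range (k + 2), if k ≤ m + i then
      ∑ c, br k i (((m + i - k : ℕ) : K) + D.half + D.mu c) * D.Rp i c b * v (c, m + i - k)
      else 0 := by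
  have h := finsupp_lin_ext (f := (Finsupp.lapply (b, m)) ∘ₗ D.Aop k)
    (g := ∑ i ∈ Finset.range (k + 2), if k ≤ m + i then
      ∑ c, (br k i (((m + i - k : ℕ) : K) + D.half + D.mu c) * D.Rp i c b) •
        (Finsupp.lapply (c, m + i - k) : (ι × ℕ →₀ K) →ₗ[K] K) else 0) (fun x => by
      obtain ⟨x, y⟩ := x
      rw [LinearMap.comp_apply, Aop_single, map_sum, LinearMap.sum_apply]
      refine Finset.sum_congr rfl fun i _ => ?_
      by_cases h1 : y + k = m + i
      · rw [if_pos (by omega)]
        have e1 : i ≤ y + k := by omega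
        have e2 : y + k - i = m := by omega
        have e3 : m + i - k = y := by omega
        simp only [e1, e2, e3, if_true, map_sum, map_smul, LinearMap.sum_apply,
          LinearMap.smul_apply, Finsupp.lapply_apply, Finsupp.single_apply, Prod.mk.injEq,
          and_true, smul_eq_mul]
        rw [Finset.sum_eq_single b, Finset.sum_eq_single x]
        · simp
        · intro c _ hc
          simp [Ne.symm hc]
        · simp
        · intro c _ hc
          simp [hc]
        · simp
      · have h2 : (Finsupp.lapply (b, m) : (ι × ℕ →₀ K) →ₗ[K] K)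
            (∑ c, if i ≤ y + k then (br k i ((y : K) + D.half + D.mu x) * D.Rp i x c) •
              Finsupp.single (c, y + k - i) 1 else 0) = 0 := by
          rw [map_sum]
          refine Finset.sum_eq_zero fun c _ => ?_
          split
          · rw [map_smul, Finsupp.lapply_apply, Finsupp.single_apply, if_neg, smul_zero]
            intro h3
            have := (Prod.mk.inj h3).2
            omega
          · simp
        simp only
        rw [h2]
        symm
        split
        · rw [LinearMap.sum_apply]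
          refine Finset.sum_eq_zero fun c _ => ?_
          rw [LinearMap.smul_apply, Finsupp.lapply_apply, Finsupp.single_apply, if_neg, smul_zero]
          intro h3
          have := (Prod.mk.inj h3).2
          omega
        · rfl) v
  rw [LinearMap.comp_apply, LinearMap.sum_apply] at h
  rw [Finsupp.lapply_apply] at h
  rw [h]
  refine Finset.sum_congr rfl fun i _ => ?_
  split
  · rw [LinearMap.sum_apply]
    refine Finset.sum_congr rfl fun c _ => ?_
    rw [LinearMap.smul_apply, Finsupp.lapply_apply, smul_eq_mul]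
  · rfl

lemma cs_apply (hF : D.Genus0 F) (k : ℕ) (L : List (ι × ℕ)) (b : ι) (m : ℕ) :
    (cs D F k).1 L (b, m) = (-1) ^ m *
      ∑ a, (D.etai a b * D.sn a) * (cs D F k).2 (a, Int.negSucc m) L := by
  obtain ⟨-, hC, -, -⟩ := cs_good hF k
  have h1 : ∑ a, (D.etai a b * D.sn a) * (cs D F k).2 (a, Int.negSucc m) L =
      (-1) ^ m * ∑ x, (∑ a, (D.etai a b * D.sn a) * D.eta a x) * (cs D F k).1 L (x, m) := by
    simp only [hC _ m L, Finset.mul_sum, Finset.sum_mul]
    rw [Finset.sum_comm]
    refine Finset.sum_congr rfl fun x _ => Finset.sum_congr rfl fun y _ => ?_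
    ring
  rw [h1]
  simp only [D.etai_eta]
  rw [← mul_assoc, ← mul_pow]
  simp

lemma Rp_mu (i : ℕ) (a c : ι) (h : D.Rp i a c ≠ 0) : D.mu c = D.mu a + i := by
  induction i generalizing a with
  | zero =>
    rw [Rp_zero] at h
    have : a = c := by
      by_contra h2
      rw [if_neg h2] at h
      exact h rfl
    rw [this]; simp
  | succ i ih =>
    rw [Rp_succ] at h
    obtain ⟨b, _, hb⟩ := Finset.exists_ne_zero_of_sum_ne_zero h
    have h1 : D.R a b ≠ 0 := left_ne_zero_of_mul hb
    have h2 : D.Rp i b c ≠ 0 := right_ne_zero_of_mul hb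
    rw [ih b h2, D.R_mu a b h1]
    push_cast; ring

/-- The adjointness of `l_k`. -/
lemma adj_term (k i m m' : ℕ) (hm : m' + k = m + i) (b : ι) (v : ι → K) :
    - ((-1) ^ m * ∑ a, (D.etai a b * D.sn a) * ∑ c,
        br k i (((Int.negSucc m : ℤ) : K) + D.half + D.mu a) * D.Rp i a c *
          ((-1) ^ m' * ∑ d, D.eta c d * v d)) =
      ∑ c, br k i ((m' : K) + D.half + D.mu c) * D.Rp i c b * v c := by
  have h1 : ∀ a, ∑ c, br k i (((Int.negSucc m : ℤ) : K) + D.half + D.mu a) * D.Rp i a c *
      ((-1) ^ m' * ∑ d, D.eta c d * v d) =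
      (-1) ^ m' * br k i (((Int.negSucc m : ℤ) : K) + D.half + D.mu a) *
        ∑ d, (∑ c, D.eta a c * D.Rp i d c) * v d := by
    intro a
    simp only [← Reta_symm]
    simp only [Finset.mul_sum, Finset.sum_mul]
    rw [Finset.sum_comm]
    refine Finset.sum_congr rfl fun x _ => Finset.sum_congr rfl fun y _ => ?_
    ring
  simp only [h1]
  have h2 : ∀ d, (-1 : K) ^ (m + m' + 1) * ∑ a, (D.etai a b * D.sn a) *
      br k i (((Int.negSucc m : ℤ) : K) + D.half + D.mu a) * (∑ c, D.eta a c * D.Rp i d c) =
      br k i ((m' : K) + D.half + D.mu d) * D.Rp i d b := by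
    intro d
    have h3 : ∀ a, (D.etai a b * D.sn a) *
        br k i (((Int.negSucc m : ℤ) : K) + D.half + D.mu a) * (∑ c, D.eta a c * D.Rp i d c) =
        ∑ c, (D.etai a b * D.sn a) * D.eta a c *
          (br k i (((Int.negSucc m : ℤ) : K) + D.half - D.mu c) * D.Rp i d c) := by
      intro a
      rw [Finset.mul_sum]
      refine Finset.sum_congr rfl fun c _ => ?_
      by_cases he : D.eta a c = 0
      · simp [he]
      · have h4 := D.eta_mu a c he
        have h5 : D.mu a = - D.mu c := by linear_combination h4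
        rw [h5, ← sub_eq_add_neg]
        ring
    simp only [h3]
    rw [Finset.sum_comm]
    simp only [← Finset.sum_mul, D.etai_eta]
    simp only [ite_mul, one_mul, zero_mul, Finset.sum_ite_eq, Finset.mem_univ, if_true]
    by_cases hR : D.Rp i d b = 0
    · simp [hR]
    · have h6 := Rp_mu i d b hR
      have h7 : ((Int.negSucc m : ℤ) : K) + D.half - D.mu b =
          -(((m' : K) + D.half + D.mu d) + k) := by
        have h8 : ((m' : K) + k) = (m : K) + i := by exact_mod_cast congrArg (Nat.cast (R := K)) hm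
        have h9 := D.two_half
        rw [h6]
        have h10 : ((Int.negSucc m : ℤ) : K) = - ((m : K) + 1) := by
          simp only [Int.negSucc_eq]; push_cast; ring
        rw [h10]
        linear_combination h8 + h9
      rw [h7, br_refl]
      have h11 : (-1 : K) ^ (m + m' + 1) * (-1) ^ (k + 1 + i) = 1 := by
        rw [← pow_add]
        have : m + m' + 1 + (k + 1 + i) = 2 * (m + i + 1) := by omega
        rw [this, pow_mul]
        simp
      linear_combination (br k i ((m' : K) + D.half + D.mu d) * D.Rp i d b) * h11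
  have h3 : - ((-1) ^ m * ∑ a, (D.etai a b * D.sn a) * ((-1) ^ m' *
      br k i (((Int.negSucc m : ℤ) : K) + D.half + D.mu a) *
        ∑ d, (∑ c, D.eta a c * D.Rp i d c) * v d)) =
      ∑ d, ((-1 : K) ^ (m + m' + 1) * ∑ a, (D.etai a b * D.sn a) *
      br k i (((Int.negSucc m : ℤ) : K) + D.half + D.mu a) * (∑ c, D.eta a c * D.Rp i d c)) *
        v d := by
    have h4 : ∀ d, ((-1 : K) ^ (m + m' + 1) * ∑ a, (D.etai a b * D.sn a) *
      br k i (((Int.negSucc m : ℤ) : K) + D.half + D.mu a) * (∑ c, D.eta a c * D.Rp i d c)) *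
        v d = ∑ a, (-1 : K) ^ (m + m' + 1) * ((D.etai a b * D.sn a) *
      br k i (((Int.negSucc m : ℤ) : K) + D.half + D.mu a) * ((∑ c, D.eta a c * D.Rp i d c) *
        v d)) := by
      intro d
      rw [Finset.mul_sum, Finset.sum_mul]
      refine Finset.sum_congr rfl fun a _ => ?_
      ring
    simp only [h4]
    rw [Finset.sum_comm, Finset.mul_sum, ← Finset.sum_neg_distrib]
    refine Finset.sum_congr rfl fun a _ => ?_
    simp only [← Finset.mul_sum]
    rw [pow_add, pow_add]
    ring
  rw [h3]
  refine Finset.sum_congr rfl fun d _ => ?_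
  rw [h2]

variable (D F) in
/-- Coefficients of the vector field coming from the momenta. -/
noncomputable def qc (k m : ℕ) (b : ι) (L : List (ι × ℕ)) : K :=
  ∑ i ∈ Finset.range (k - m), ∑ a, ∑ c, ((-1) ^ (m + 1) *
    br k i (D.mu a - m - 1 + D.half) * (D.etai a b * D.sn a) * D.Rp i a c) *
      F ((c, k - 1 - m - i) :: L)

lemma cs_decomp (hF : D.Genus0 F) (k : ℕ) (L : List (ι × ℕ)) :
    (cs D F k).1 L = D.Aop k (tau (D.one, 1) L) +
      ∑ m ∈ Finset.range k, ∑ b, D.qc F k m b L • Finsupp.single (b, m) 1 := by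
  ext ⟨b, m⟩
  rw [cs_apply hF, Finsupp.add_apply, Aop_apply, Finsupp.finsetSum_apply]
  have h1 : ∑ x ∈ Finset.range k, (∑ b, D.qc F k x b L •
      (Finsupp.single (b, x) 1 : ι × ℕ →₀ K)) (b, m) =
      if m < k then D.qc F k m b L else 0 := by
    have h2 : ∀ x ∈ Finset.range k, (∑ b, D.qc F k x b L •
      (Finsupp.single (b, x) 1 : ι × ℕ →₀ K)) (b, m) = if x = m then D.qc F k m b L else 0 := by
      intro x _
      rw [Finsupp.finsetSum_apply]
      by_cases hx : x = m
      · subst hx
        rw [if_pos rfl, Finset.sum_eq_single b]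
        · simp
        · intro c _ hc
          simp [hc]
        · simp
      · rw [if_neg hx]
        refine Finset.sum_eq_zero fun c _ => ?_
        simp [hx]
    rw [Finset.sum_congr rfl h2, Finset.sum_ite_eq']
    simp
  rw [h1]
  have h3 : (-1) ^ m * ∑ a, (D.etai a b * D.sn a) * (cs D F k).2 (a, Int.negSucc m) L =
      ∑ i ∈ Finset.range (k + 2), - ((-1) ^ m * ∑ a, (D.etai a b * D.sn a) *
        ∑ c, br k i (((Int.negSucc m : ℤ) : K) + D.half + D.mu a) * D.Rp i a c *
          D.Phi0 F (c, Int.negSucc m + k - i) L) := by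
    simp only [cs_closed]
    unfold Lk
    rw [Finset.sum_neg_distrib, ← Finset.mul_sum, ← mul_neg]
    congr 1
    rw [Finset.sum_comm, ← Finset.sum_neg_distrib]
    refine Finset.sum_congr rfl fun a _ => ?_
    rw [mul_neg, Finset.mul_sum]
  rw [h3]
  have h4 : ∀ i ∈ Finset.range (k + 2), - ((-1) ^ m * ∑ a, (D.etai a b * D.sn a) *
        ∑ c, br k i (((Int.negSucc m : ℤ) : K) + D.half + D.mu a) * D.Rp i a c *
          D.Phi0 F (c, Int.negSucc m + k - i) L) =
      (if k ≤ m + i then ∑ c, br k i (((m + i - k : ℕ) : K) + D.half + D.mu c) *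
        D.Rp i c b * (tau (D.one, 1) L) (c, m + i - k) else 0) +
      (if m + i < k then ∑ a, ∑ c, ((-1) ^ (m + 1) *
        br k i (D.mu a - m - 1 + D.half) * (D.etai a b * D.sn a) * D.Rp i a c) *
        F ((c, k - 1 - m - i) :: L) else 0) := by
    intro i _
    by_cases hi : k ≤ m + i
    · rw [if_pos hi, if_neg (by omega), add_zero]
      have e1 : Int.negSucc m + k - i = Int.negSucc (m + i - k) := by
        simp only [Int.negSucc_eq]; omega
      rw [e1]
      exact adj_term k i m (m + i - k) (by omega) b (fun d => (tau (D.one, 1) L) (d, m + i - k))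
    · rw [if_neg hi, if_pos (by omega), zero_add]
      have e1 : Int.negSucc m + k - i = Int.ofNat (k - 1 - m - i) := by
        simp only [Int.negSucc_eq, Int.ofNat_eq_natCast]; omega
      rw [e1, Finset.mul_sum, ← Finset.sum_neg_distrib]
      refine Finset.sum_congr rfl fun a _ => ?_
      rw [Finset.mul_sum, Finset.mul_sum, ← Finset.sum_neg_distrib]
      refine Finset.sum_congr rfl fun c _ => ?_
      have h10 : ((Int.negSucc m : ℤ) : K) + D.half + D.mu a = D.mu a - m - 1 + D.half := by
        simp only [Int.negSucc_eq]; push_cast; ring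
      rw [h10, pow_succ]
      simp only [Phi0]
      ring
  rw [Finset.sum_congr rfl h4, Finset.sum_add_distrib]
  congr 1
  rw [← Finset.sum_filter]
  by_cases hm : m < k
  · rw [if_pos hm]
    unfold qc
    have : (Finset.range (k + 2)).filter (fun i => m + i < k) = Finset.range (k - m) := by
      ext i
      simp only [Finset.mem_filter, Finset.mem_range]
      omega
    rw [this]
  · rw [if_neg hm]
    have : (Finset.range (k + 2)).filter (fun i => m + i < k) = ∅ := by
      ext i
      simp only [Finset.mem_filter, Finset.mem_range, Finset.notMem_empty, iff_false]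
      omega
    rw [this, Finset.sum_empty]

variable (D F) in
/-- The quadratic part of the genus-zero Virasoro constraint:
`∑_{m+n+i=k-1} (-1)^{m+1} [μ_a-m-1/2]^k_i η^{ab} (R^i)_a^c ∂_{b,m}F · ∂_{c,n}F`. -/
noncomputable def quad (k : ℕ) (L : List (ι × ℕ)) : K :=
  ∑ m ∈ Finset.range k, ∑ i ∈ Finset.range (k - m), ∑ a, ∑ b, ∑ c,
    ((-1) ^ (m + 1) * br k i (D.mu a - m - 1 + D.half) * D.etai a b * D.Rp i a c) *
      sh D.ip (LinearMap.mul K K) L (fun M => F ((b, m) :: M))
        (fun M => F ((c, k - 1 - m - i) :: M))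

variable (D F) in
/-- The coefficients of the genus-zero Virasoro constraint. -/
noncomputable def vir0 (k : ℕ) (L : List (ι × ℕ)) : K :=
  rep (fun i => D.Aop k (Finsupp.single i 1)) F L -
    ev K (ι × ℕ) K (D.Aop k (Finsupp.single (D.one, 1) 1)) (fun j => F (j :: L)) +
    D.half * quad D F k L + qform (fun a b => ∑ c, D.Rp (k + 1) a c * D.eta c b) L

lemma act_qc (hF : D.Genus0 F) (k : ℕ) (L : List (ι × ℕ)) :
    act D.ip (fun M => ∑ m ∈ Finset.range k, ∑ b, D.qc F k m b M •
      (Finsupp.single (b, m) 1 : ι × ℕ →₀ K)) F L = quad D F k L := by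
  rw [act_csum]
  unfold quad
  refine Finset.sum_congr rfl fun m hm => ?_
  rw [act_csum]
  have h1 : ∀ b, act D.ip (fun M => D.qc F k m b M • (Finsupp.single (b, m) 1 : ι × ℕ →₀ K)) F L =
      ∑ i ∈ Finset.range (k - m), ∑ a, ∑ c,
      ((-1) ^ (m + 1) * br k i (D.mu a - m - 1 + D.half) * D.etai a b * D.Rp i a c) *
      sh D.ip (LinearMap.mul K K) L (fun M => F ((b, m) :: M))
        (fun M => F ((c, k - 1 - m - i) :: M)) := by
    intro b
    have h2 : (fun M => D.qc F k m b M • (Finsupp.single (b, m) 1 : ι × ℕ →₀ K)) =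
        fun M => Finsupp.single (b, m) (D.qc F k m b M) := by
      funext M; simp
    rw [h2, act_single]
    unfold mulK qc
    rw [lsmul_eq_mul, sh_sum_left]
    refine Finset.sum_congr rfl fun i _ => ?_
    rw [sh_sum_left]
    refine Finset.sum_congr rfl fun a _ => ?_
    rw [sh_sum_left]
    refine Finset.sum_congr rfl fun c _ => ?_
    have h3 := sh_smul_left D.ip (LinearMap.mul K K) L ((-1) ^ (m + 1) *
      br k i (D.mu a - m - 1 + D.half) * (D.etai a b * D.sn a) * D.Rp i a c)
      (fun M => F ((c, k - 1 - m - i) :: M)) (fun M => F ((b, m) :: M))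
    simp only [smul_eq_mul] at h3
    rw [h3]
    by_cases he : D.etai a b = 0
    · simp [he]
    by_cases hp : D.par a = D.par c
    · have hab := D.etai_par a b he
      have h4 := sh_mul_comm D.ip (D.par b) L (fun M => F ((c, k - 1 - m - i) :: M))
        (fun M => F ((b, m) :: M)) (fun x M => hF.even1 x (b, m) M)
      have h5 : (fun M => lsg K D.ip (D.par b) M * F ((c, k - 1 - m - i) :: M)) =
          fun M => D.sn a • F ((c, k - 1 - m - i) :: M) := by
        funext M
        rw [hF.even1 (D.par b) (c, k - 1 - m - i) M]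
        unfold sn
        rw [← hab]
        simp [ip, ← hp]
      rw [h4, h5, sh_smul_right, smul_eq_mul]
      have h6 := D.sn_mul_self a
      linear_combination ((-1) ^ (m + 1) * br k i (D.mu a - m - 1 + D.half) * D.etai a b *
        D.Rp i a c * sh D.ip (LinearMap.mul K K) L (fun M => F ((b, m) :: M))
        (fun M => F ((c, k - 1 - m - i) :: M))) * h6
    · rw [D.Rp_par i a c hp]
      ring
  simp only [h1]
  rw [Finset.sum_comm]
  refine Finset.sum_congr rfl fun i _ => ?_
  rw [Finset.sum_comm]

/-- **Genus-zero Virasoro constraints** from the string and dilaton equations, the grading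
equation and topological recursion. -/
theorem virasoro_genus_zero (hF : D.Genus0 F) (k : ℕ) (L : List (ι × ℕ)) :
    vir0 D F k L = 0 := by
  have h1 := fin_identity hF k L
  have h2 : act D.ip (cs D F k).1 F L =
      act D.ip (fun M => D.Aop k (tau (D.one, 1) M)) F L + quad D F k L := by
    have h3 : (cs D F k).1 = fun M => D.Aop k (tau (D.one, 1) M) +
      ∑ m ∈ Finset.range k, ∑ b, D.qc F k m b M • Finsupp.single (b, m) 1 := by
      funext M
      exact cs_decomp hF k M
    rw [h3, act_cadd, act_qc hF]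
  have h4 : sh D.ip (ev K (ι × ℕ) K) L (tau (D.one, 1))
      (fun M i => (cs D F k).2 (i.1, (i.2 : ℤ)) M) =
      - act D.ip (fun M => D.Aop k (tau (D.one, 1) M)) F L -
        2 * qform (fun a b => ∑ c, D.Rp (k + 1) a c * D.eta c b) L := by
    have h5 : (fun (M : List (ι × ℕ)) (i : ι × ℕ) => (cs D F k).2 (i.1, (i.2 : ℤ)) M) =
        fun M => - ((fun i => ev K (ι × ℕ) K (D.Aop k (Finsupp.single i 1))
          (fun j => F (j :: M))) + (fun i => if i.2 = 0 then
          ∑ d, (∑ c, D.Rp (k + 1) i.1 c * D.eta c d) * (tau (D.one, 1) M) (d, 0) else 0)) := by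
      funext M i
      rw [cs_closed, Lk_nat]
      rfl
    rw [h5, sh_neg_right, sh_add_right, sh_tau_q _ (Reta_super (k + 1)), act_cmap]
    ring
  rw [h2, h4] at h1
  have h6 := act_tau D.ip (D.one, 1) ip_one (evenOp_Aop (D := D) k) F hF.symm L
  unfold vir0
  rw [← h6]
  have h7 := D.two_half
  linear_combination (-D.half) * h1 - (act D.ip (fun M => D.Aop k (tau (D.one, 1) M)) F L +
    qform (fun a b => ∑ c, D.Rp (k + 1) a c * D.eta c b) L) * h7

end Coh

end Vale.Agent.P269.H597
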