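import Vale.Agent.P269.H597.AllGenus

/-!
# The commutator of the Virasoro constraints with the string vector field
-/

set_option linter.unusedSectionVars false

namespace Vale.Agent.P269.H597

variable {K : Type*} [CommRing K] {ι : Type*} [Fintype ι] [DecidableEq ι]

namespace Coh

variable {D : Coh K ι} {F : List (ι × ℕ) → K}

lemma del_add (C C' : List (ι × ℕ) → K) (L : List (ι × ℕ)) :
    D.del (fun M => C M + C' M) L = D.del C L + D.del C' L := act_add _ _ _ _ _

lemma del_mul (x : K) (C : List (ι × ℕ) → K) (L : List (ι × ℕ)) :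
    D.del (fun M => x * C M) L = x * D.del C L := act_mul_const _ _ _ _ _

lemma del_neg (C : List (ι × ℕ) → K) (L : List (ι × ℕ)) :
    D.del (fun M => - C M) L = - D.del C L := act_neg _ _ _ _

lemma del_sum {σ : Type*} (s : Finset σ) (C : σ → List (ι × ℕ) → K) (L : List (ι × ℕ)) :
    D.del (fun M => ∑ x ∈ s, C x M) L = ∑ x ∈ s, D.del (C x) L := act_sum _ _ _ _ _

lemma del_sh (C C' : List (ι × ℕ) → K) (L : List (ι × ℕ)) :
    D.del (fun M => sh D.ip (LinearMap.mul K K) M C C') L =
      sh D.ip (LinearMap.mul K K) L (D.del C) C' + sh D.ip (LinearMap.mul K K) L C (D.del C') := by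
  unfold del
  rw [act_sh D.ip _ PV_low_tau]

variable (F) in
/-- The derivative `∂_{(a,m-1)} F`, zero for `m = 0`. -/
noncomputable def dlow (a : ι) (m : ℕ) (M : List (ι × ℕ)) : K :=
  if m = 0 then 0 else F ((a, m - 1) :: M)

lemma del_dF (hF : D.StringSys F) (a : ι) (m : ℕ) :
    D.del (fun M => F ((a, m) :: M)) = fun M => - D.Y D.eta M (a, m) + - dlow F a m M := by
  funext M
  rw [del_cons F hF.symm, del_F hF, qform_cons (D := D), low_single]
  unfold dlow
  split
  · simp
  · simp [sub_eq_add_neg]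

lemma Y_succ (N : ι → ι → K) (M : List (ι × ℕ)) (a : ι) (m : ℕ) : D.Y N M (a, m + 1) = 0 := by
  simp [Y]

/-- Sum over `m + i ≤ k` of terms vanishing for `m = 0`. -/
lemma sum_shift_first (k : ℕ) (f : ℕ → ℕ → K) (h0 : ∀ i, f 0 i = 0) :
    ∑ m ∈ Finset.range (k + 1), ∑ i ∈ Finset.range (k + 1 - m), f m i =
      ∑ m ∈ Finset.range k, ∑ i ∈ Finset.range (k - m), f (m + 1) i := by
  rw [Finset.sum_range_succ']
  rw [Finset.sum_eq_zero (s := Finset.range (k + 1 - 0)) (fun i _ => h0 i), add_zero]
  refine Finset.sum_congr rfl fun m _ => ?_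
  rw [Nat.add_sub_add_right]

/-- Sum over `m + i ≤ k` of terms vanishing for `m + i = k`. -/
lemma sum_shift_second (k : ℕ) (f : ℕ → ℕ → K) (h0 : ∀ m i, m + i = k → f m i = 0) :
    ∑ m ∈ Finset.range (k + 1), ∑ i ∈ Finset.range (k + 1 - m), f m i =
      ∑ m ∈ Finset.range k, ∑ i ∈ Finset.range (k - m), f m i := by
  rw [Finset.sum_range_succ]
  have h1 : ∑ i ∈ Finset.range (k + 1 - k), f k i = 0 := by
    have : k + 1 - k = 1 := by omega
    rw [this, Finset.range_one, Finset.sum_singleton]
    exact h0 k 0 (by omega)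
  rw [h1, add_zero]
  refine Finset.sum_congr rfl fun m hm => ?_
  have hm' := Finset.mem_range.mp hm
  have : k + 1 - m = (k - m) + 1 := by omega
  rw [this, Finset.sum_range_succ, h0 m (k - m) (by omega), add_zero]

/-- Sum over `m + i ≤ k` of terms vanishing for `m ≠ 0`. -/
lemma sum_first_only (k : ℕ) (f : ℕ → ℕ → K) (h0 : ∀ m i, f (m + 1) i = 0) :
    ∑ m ∈ Finset.range (k + 1), ∑ i ∈ Finset.range (k + 1 - m), f m i =
      ∑ i ∈ Finset.range (k + 1), f 0 i := by
  rw [Finset.sum_range_succ', Finset.sum_eq_zero, zero_add]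
  · rfl
  · intro m _
    exact Finset.sum_eq_zero fun i _ => h0 m i

/-- Sum over `m + i ≤ k` of terms vanishing for `m + i ≠ k`. -/
lemma sum_last_only (k : ℕ) (f : ℕ → ℕ → K) (h0 : ∀ m i, m + i < k → f m i = 0) :
    ∑ m ∈ Finset.range (k + 1), ∑ i ∈ Finset.range (k + 1 - m), f m i =
      ∑ i ∈ Finset.range (k + 1), f (k - i) i := by
  rw [← Finset.sum_range_reflect (fun i => f (k - i) i)]
  refine Finset.sum_congr rfl fun m hm => ?_
  have hm' := Finset.mem_range.mp hm
  have e1 : k + 1 - m = (k - m) + 1 := by omega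
  rw [e1, Finset.sum_range_succ, Finset.sum_eq_zero, zero_add]
  · have e2 : k + 1 - 1 - m = k - m := by omega
    have e3 : k - (k - m) = m := by omega
    rw [e2, e3]
  · intro i hi
    have := Finset.mem_range.mp hi
    exact h0 m i (by omega)

lemma cf_shift (k m i : ℕ) (a b c : ι) :
    - D.cf (k + 1) (m + 1) i a b c + - D.cf (k + 1) m i a b c =
      - (((k : K) + 2) * D.cf k m i a b c) := by
  unfold cf
  have h := br_diff k i (D.mu a - m - 1 + D.half)
  have e : D.mu a - m - 1 + D.half - 1 = D.mu a - ((m + 1 : ℕ) : K) - 1 + D.half := by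
    push_cast; ring
  rw [e] at h
  rw [pow_succ (-1 : K) (m + 1)]
  linear_combination ((-(-1) ^ (m + 1)) * D.etai a b * D.Rp i a c) * h

/-- The `ℓ_b`-contractions at the first slot. -/
lemma contr_first (a : ι) (G : List (ι × ℕ) → K) (L : List (ι × ℕ)) :
    ∑ b, D.etai a b * sh D.ip (LinearMap.mul K K) L (fun M => D.Y D.eta M (b, 0)) G =
      sh D.ip (LinearMap.mul K K) L (fun M => (tau (D.one, 1) M) (a, 0)) G := by
  have h1 : (fun M => (tau (K := K) (D.one, 1) M) (a, 0)) =
      fun M => ∑ b, D.etai a b • D.Y D.eta M (b, 0) := by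
    funext M
    simp only [Y_eq, smul_eq_mul, Finset.mul_sum]
    rw [Finset.sum_comm]
    have h2 : ∀ d, ∑ b, D.etai a b * (D.eta b d * (tau (K := K) (D.one, 1) M) (d, 0)) =
        (if a = d then 1 else 0) * (tau (K := K) (D.one, 1) M) (d, 0) := by
      intro d
      rw [← D.eta_inv' a d, Finset.sum_mul]
      refine Finset.sum_congr rfl fun b _ => ?_
      ring
    simp only [h2]
    simp
  rw [h1, sh_sum_left]
  refine Finset.sum_congr rfl fun b _ => ?_
  rw [sh_smul_left, smul_eq_mul]

/-- The defect term. -/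
lemma act_Eop (k : ℕ) (L : List (ι × ℕ)) :
    act D.ip (fun M => D.Eop k (tau (D.one, 1) M)) F L =
      ∑ i ∈ Finset.range (k + 1), ∑ a, ∑ c,
        (br (k + 1) i (D.mu a - 1 + D.half) * D.Rp i a c) *
        sh D.ip (LinearMap.mul K K) L (fun M => (tau (D.one, 1) M) (a, 0))
          (fun M => F ((c, k - i) :: M)) := by
  have h1 : act D.ip (fun M => D.Eop k (tau (D.one, 1) M)) F L =
      sh D.ip (ev K (ι × ℕ) K) L (tau (D.one, 1)) (fun M x => if x.2 = 0 then
        (fun a M => ∑ i ∈ Finset.range (k + 1), ∑ c,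
        (br (k + 1) i (D.mu a - 1 + D.half) * D.Rp i a c) * F ((c, k - i) :: M)) x.1 M else 0) := by
    rw [act_cmap]
    congr 1
    funext M x
    rw [Eop_single]
    split
    · rw [map_sum, LinearMap.sum_apply]
      refine Finset.sum_congr rfl fun i _ => ?_
      rw [map_sum, LinearMap.sum_apply]
      refine Finset.sum_congr rfl fun c _ => ?_
      rw [map_smul, LinearMap.smul_apply, ev_single, one_smul, smul_eq_mul]
    · simp
  have h2 := sh_level0 D.ip L (tau (K := K) (D.one, 1))
    (fun a M => ∑ i ∈ Finset.range (k + 1), ∑ c,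
        (br (k + 1) i (D.mu a - 1 + D.half) * D.Rp i a c) * F ((c, k - i) :: M))
  refine h1.trans (h2.trans ?_)
  rw [Finset.sum_comm]
  refine Finset.sum_congr rfl fun a _ => ?_
  rw [sh_sum_right]
  refine Finset.sum_congr rfl fun i _ => ?_
  rw [sh_sum_right]
  refine Finset.sum_congr rfl fun c _ => ?_
  have := sh_smul_right D.ip (LinearMap.mul K K) L
    (br (k + 1) i (D.mu a - 1 + D.half) * D.Rp i a c)
    (fun M => (tau (D.one, 1) M) (a, 0)) (fun M => F ((c, k - i) :: M))
  simpa only [smul_eq_mul] using this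

lemma S_apply (b : Bool) (v : ι × ℕ →₀ K) (x : ι) (m : ℕ) :
    (S D.ip b false v) (x, m) = sg K b (D.par x) * v (x, m) := by
  have := finsupp_lin_ext (f := (Finsupp.lapply (x, m)) ∘ₗ (S (K := K) D.ip b false))
    (g := sg K b (D.par x) • Finsupp.lapply (x, m)) (fun i => by
      simp only [LinearMap.comp_apply, S_single, Finsupp.lapply_apply,
        LinearMap.smul_apply, Finsupp.single_apply]
      by_cases hi : i = (x, m)
      · subst hi
        simp [ip]
      · simp [hi]) v
  simpa using this

lemma tau_par (b : Bool) (M : List (ι × ℕ)) (d : ι) (m : ℕ) :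
    lsg K D.ip b M * (tau (D.one, 1) M) (d, m) = sg K b (D.par d) * (tau (D.one, 1) M) (d, m) := by
  have h := PV_tau (K := K) D.ip (D.one, 1) ip_one b M
  have h2 := DFunLike.congr_fun h (d, m)
  rw [S_apply] at h2
  simpa using h2

lemma etai_eta' (b c : ι) : ∑ a, D.etai a b * D.eta a c = if b = c then D.sn b else 0 := by
  have h := D.etai_eta b c
  have h2 : ∑ a, D.etai a b * D.eta a c = D.sn b * ∑ a, (D.etai a b * D.sn a) * D.eta a c := by
    rw [Finset.mul_sum]
    refine Finset.sum_congr rfl fun a _ => ?_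
    by_cases he : D.etai a b = 0
    · simp [he]
    have hp := D.etai_par a b he
    have h3 : D.sn a = D.sn b := by unfold sn; rw [hp]
    rw [h3]
    have h4 := D.sn_mul_self b
    linear_combination (-(D.etai a b * D.eta a c)) * h4
  rw [h2, h]
  split <;> simp

lemma contr_coef (k m i : ℕ) (hm : m + i = k) (b d : ι) :
    ∑ a, ∑ c, - (D.cf (k + 1) m i a b c * D.eta c d) =
      br (k + 1) i (D.mu d - 1 + D.half) * D.Rp i d b * D.sn b := by
  have h1 : ∑ a, ∑ c, - (D.cf (k + 1) m i a b c * D.eta c d) =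
      ∑ c, (-1) ^ m * br (k + 1) i (- D.mu c - m - 1 + D.half) * D.Rp i d c *
        ∑ a, D.etai a b * D.eta a c := by
    have h2 : ∀ a, ∑ c, - (D.cf (k + 1) m i a b c * D.eta c d) =
        ∑ c, (-1) ^ m * br (k + 1) i (- D.mu c - m - 1 + D.half) * D.Rp i d c *
          (D.etai a b * D.eta a c) := by
      intro a
      have h3 : ∑ c, - (D.cf (k + 1) m i a b c * D.eta c d) =
          ((-1) ^ m * br (k + 1) i (D.mu a - m - 1 + D.half) * D.etai a b) *
            ∑ c, D.Rp i a c * D.eta c d := by
        rw [Finset.mul_sum]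
        refine Finset.sum_congr rfl fun c _ => ?_
        unfold cf
        rw [pow_succ]
        ring
      rw [h3, Reta_symm, Finset.mul_sum]
      refine Finset.sum_congr rfl fun c _ => ?_
      by_cases he : D.eta a c = 0
      · simp [he]
      have h4 := D.eta_mu a c he
      have h5 : D.mu a = - D.mu c := by linear_combination h4
      rw [h5]
      ring
    simp only [h2, Finset.mul_sum]
    rw [Finset.sum_comm]
  rw [h1]
  simp only [etai_eta', mul_ite, mul_zero, Finset.sum_ite_eq, Finset.mem_univ, if_true]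
  by_cases hR : D.Rp i d b = 0
  · simp [hR]
  have h6 := Rp_mu i d b hR
  have h7 : - D.mu b - m - 1 + D.half = -((D.mu d - 1 + D.half) + ((k + 1 : ℕ) : K)) := by
    have h8 : ((m : K) + i) = (k : K) := by exact_mod_cast congrArg (Nat.cast (R := K)) hm
    have h9 := D.two_half
    rw [h6]
    push_cast
    linear_combination h9 - h8
  rw [h7, br_refl]
  have h11 : (-1 : K) ^ m * (-1) ^ (k + 1 + 1 + i) = 1 := by
    rw [← pow_add]
    have : m + (k + 1 + 1 + i) = 2 * (k + 1) := by omega
    rw [this, pow_mul]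
    simp
  linear_combination (br (k + 1) i (D.mu d - 1 + D.half) * D.Rp i d b * D.sn b) * h11

lemma StringSys.even1 (hF : D.StringSys F) (a : Bool) (i : ι × ℕ) (M : List (ι × ℕ)) :
    lsg K D.ip a M * F (i :: M) = sg K a (D.ip i) * F (i :: M) := by
  have h := hF.even a (i :: M)
  rw [lsg_cons] at h
  have h2 := sg_mul_self (K := K) a (D.ip i)
  linear_combination (sg K a (D.ip i)) * h - (lsg K D.ip a M * F (i :: M)) * h2

/-- The `ℓ_c`-contractions at the second slot. -/
lemma contr_second (hF : D.StringSys F) (k m i : ℕ) (hm : m + i = k) (L : List (ι × ℕ)) :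
    ∑ a, ∑ b, ∑ c, D.cf (k + 1) m i a b c *
      (- sh D.ip (LinearMap.mul K K) L (fun M => F ((b, m) :: M)) (fun M => D.Y D.eta M (c, 0))) =
    ∑ a, ∑ c, (br (k + 1) i (D.mu a - 1 + D.half) * D.Rp i a c) *
        sh D.ip (LinearMap.mul K K) L (fun M => (tau (D.one, 1) M) (a, 0))
          (fun M => F ((c, m) :: M)) := by
  have h1 : ∀ b c, sh D.ip (LinearMap.mul K K) L (fun M => F ((b, m) :: M))
      (fun M => D.Y D.eta M (c, 0)) = ∑ d, D.eta c d *
      sh D.ip (LinearMap.mul K K) L (fun M => F ((b, m) :: M))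
        (fun M => (tau (D.one, 1) M) (d, 0)) := by
    intro b c
    have h2 : (fun M => D.Y D.eta M (c, 0)) =
        fun M => ∑ d, D.eta c d • (tau (K := K) (D.one, 1) M) (d, 0) := by
      funext M
      rw [Y_eq]
      rfl
    rw [h2, sh_sum_right]
    refine Finset.sum_congr rfl fun d _ => ?_
    rw [sh_smul_right, smul_eq_mul]
  have h3 : ∑ a, ∑ b, ∑ c, D.cf (k + 1) m i a b c *
      (- sh D.ip (LinearMap.mul K K) L (fun M => F ((b, m) :: M)) (fun M => D.Y D.eta M (c, 0))) =
      ∑ b, ∑ d, (∑ a, ∑ c, - (D.cf (k + 1) m i a b c * D.eta c d)) *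
        sh D.ip (LinearMap.mul K K) L (fun M => F ((b, m) :: M))
        (fun M => (tau (D.one, 1) M) (d, 0)) := by
    rw [Finset.sum_comm]
    refine Finset.sum_congr rfl fun b _ => ?_
    simp only [h1, Finset.sum_mul, Finset.mul_sum, ← Finset.sum_neg_distrib]
    rw [Finset.sum_comm' (s' := fun _ => Finset.univ) (t' := Finset.univ) (by simp)]
    have h4 : ∀ c, ∑ a, ∑ d, D.cf (k + 1) m i a b c * -(D.eta c d *
        sh D.ip (LinearMap.mul K K) L (fun M => F ((b, m) :: M))
        (fun M => (tau (D.one, 1) M) (d, 0))) = ∑ d, ∑ a, -(D.cf (k + 1) m i a b c * D.eta c d) *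
        sh D.ip (LinearMap.mul K K) L (fun M => F ((b, m) :: M))
        (fun M => (tau (D.one, 1) M) (d, 0)) := by
      intro c
      rw [Finset.sum_comm]
      refine Finset.sum_congr rfl fun d _ => Finset.sum_congr rfl fun a _ => ?_
      ring
    simp only [h4]
    rw [Finset.sum_comm]
    refine Finset.sum_congr rfl fun d _ => ?_
    rw [Finset.sum_comm]
  rw [h3]
  simp only [contr_coef k m i hm]
  rw [Finset.sum_comm]
  refine Finset.sum_congr rfl fun d _ => Finset.sum_congr rfl fun b _ => ?_
  by_cases hp : D.par d = D.par b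
  · have h5 := sh_mul_comm D.ip (D.par d) L (fun M => F ((b, m) :: M))
      (fun M => (tau (K := K) (D.one, 1) M) (d, 0)) (fun x M => tau_par x M d 0)
    have h6 : (fun M => lsg K D.ip (D.par d) M * F ((b, m) :: M)) =
        fun M => D.sn b • F ((b, m) :: M) := by
      funext M
      rw [hF.even1 (D.par d) (b, m) M, hp]
      rfl
    rw [h5, h6, sh_smul_right, smul_eq_mul]
    have h7 := D.sn_mul_self b
    linear_combination (br (k + 1) i (D.mu d - 1 + D.half) * D.Rp i d b *
      sh D.ip (LinearMap.mul K K) L (fun M => (tau (D.one, 1) M) (d, 0))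
        (fun M => F ((b, m) :: M))) * h7
  · rw [D.Rp_par i d b hp]
    ring

/-- The string vector field on the quadratic part. -/
lemma del_quad (hF : D.StringSys F) (k : ℕ) (L : List (ι × ℕ)) :
    D.del (quad D F (k + 1)) L = - (((k : K) + 2) * quad D F k L) +
      2 * act D.ip (fun M => D.Eop k (tau (D.one, 1) M)) F L := by
  have h0 : quad D F (k + 1) = fun L =>
      ∑ m ∈ Finset.range (k + 1), ∑ i ∈ Finset.range (k + 1 - m), ∑ a, ∑ b, ∑ c,
      D.cf (k + 1) m i a b c * sh D.ip (LinearMap.mul K K) L (fun M => F ((b, m) :: M))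
        (fun M => F ((c, k - m - i) :: M)) := by
    funext L
    rw [quad_eq]
    rfl
  have h1 : D.del (quad D F (k + 1)) L =
      ∑ m ∈ Finset.range (k + 1), ∑ i ∈ Finset.range (k + 1 - m),
        ((∑ a, ∑ b, ∑ c, D.cf (k + 1) m i a b c *
          - sh D.ip (LinearMap.mul K K) L (fun M => D.Y D.eta M (b, m))
            (fun M => F ((c, k - m - i) :: M))) +
        (∑ a, ∑ b, ∑ c, D.cf (k + 1) m i a b c *
          - sh D.ip (LinearMap.mul K K) L (dlow F b m) (fun M => F ((c, k - m - i) :: M))) +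
        (∑ a, ∑ b, ∑ c, D.cf (k + 1) m i a b c *
          - sh D.ip (LinearMap.mul K K) L (fun M => F ((b, m) :: M))
            (fun M => D.Y D.eta M (c, k - m - i))) +
        (∑ a, ∑ b, ∑ c, D.cf (k + 1) m i a b c *
          - sh D.ip (LinearMap.mul K K) L (fun M => F ((b, m) :: M))
            (dlow F c (k - m - i)))) := by
    rw [h0]
    simp only [del_sum, del_mul, del_sh, del_dF hF, sh_add_left, sh_add_right, sh_neg_left,
      sh_neg_right]
    refine Finset.sum_congr rfl fun m _ => Finset.sum_congr rfl fun i _ => ?_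
    simp only [← Finset.sum_add_distrib]
    refine Finset.sum_congr rfl fun a _ => Finset.sum_congr rfl fun b _ =>
      Finset.sum_congr rfl fun c _ => ?_
    ring
  rw [h1]
  simp only [Finset.sum_add_distrib]
  rw [sum_first_only k (fun m i => ∑ a, ∑ b, ∑ c, D.cf (k + 1) m i a b c *
          - sh D.ip (LinearMap.mul K K) L (fun M => D.Y D.eta M (b, m))
            (fun M => F ((c, k - m - i) :: M)))]
  rotate_left
  · intro m i
    refine Finset.sum_eq_zero fun a _ => Finset.sum_eq_zero fun b _ =>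
      Finset.sum_eq_zero fun c _ => ?_
    simp only [Y_succ, sh_zero_left, neg_zero, mul_zero]
  rw [sum_shift_first k (fun m i => ∑ a, ∑ b, ∑ c, D.cf (k + 1) m i a b c *
          - sh D.ip (LinearMap.mul K K) L (dlow F b m) (fun M => F ((c, k - m - i) :: M)))]
  rotate_left
  · intro i
    refine Finset.sum_eq_zero fun a _ => Finset.sum_eq_zero fun b _ =>
      Finset.sum_eq_zero fun c _ => ?_
    have : dlow F b 0 = fun _ => (0 : K) := by
      funext M; simp [dlow]
    rw [this, sh_zero_left, neg_zero, mul_zero]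
  rw [sum_last_only k (fun m i => ∑ a, ∑ b, ∑ c, D.cf (k + 1) m i a b c *
          - sh D.ip (LinearMap.mul K K) L (fun M => F ((b, m) :: M))
            (fun M => D.Y D.eta M (c, k - m - i)))]
  rotate_left
  · intro m i hmi
    refine Finset.sum_eq_zero fun a _ => Finset.sum_eq_zero fun b _ =>
      Finset.sum_eq_zero fun c _ => ?_
    obtain ⟨n, hn⟩ : ∃ n, k - m - i = n + 1 := ⟨k - m - i - 1, by omega⟩
    simp only [hn, Y_succ, sh_zero_right, neg_zero, mul_zero]
  rw [sum_shift_second k (fun m i => ∑ a, ∑ b, ∑ c, D.cf (k + 1) m i a b c *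
          - sh D.ip (LinearMap.mul K K) L (fun M => F ((b, m) :: M))
            (dlow F c (k - m - i)))]
  rotate_left
  · intro m i hmi
    refine Finset.sum_eq_zero fun a _ => Finset.sum_eq_zero fun b _ =>
      Finset.sum_eq_zero fun c _ => ?_
    have hn : k - m - i = 0 := by omega
    have : dlow F c (k - m - i) = fun _ => (0 : K) := by
      funext M; simp [dlow, hn]
    rw [this, sh_zero_right, neg_zero, mul_zero]
  -- the four parts
  have p1 : ∑ i ∈ Finset.range (k + 1), ∑ a, ∑ b, ∑ c, D.cf (k + 1) 0 i a b c *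
      - sh D.ip (LinearMap.mul K K) L (fun M => D.Y D.eta M (b, 0))
        (fun M => F ((c, k - 0 - i) :: M)) =
      act D.ip (fun M => D.Eop k (tau (D.one, 1) M)) F L := by
    rw [act_Eop]
    refine Finset.sum_congr rfl fun i _ => Finset.sum_congr rfl fun a _ => ?_
    rw [Finset.sum_comm]
    refine Finset.sum_congr rfl fun c _ => ?_
    rw [← contr_first, Finset.mul_sum]
    refine Finset.sum_congr rfl fun b _ => ?_
    unfold cf
    rw [Nat.sub_zero]
    have e : D.mu a - ((0 : ℕ) : K) - 1 + D.half = D.mu a - 1 + D.half := by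
      push_cast; ring
    rw [e]
    ring
  have p3 : ∑ i ∈ Finset.range (k + 1), ∑ a, ∑ b, ∑ c, D.cf (k + 1) (k - i) i a b c *
      - sh D.ip (LinearMap.mul K K) L (fun M => F ((b, k - i) :: M))
        (fun M => D.Y D.eta M (c, k - (k - i) - i)) =
      act D.ip (fun M => D.Eop k (tau (D.one, 1) M)) F L := by
    rw [act_Eop]
    refine Finset.sum_congr rfl fun i hi => ?_
    have hi' := Finset.mem_range.mp hi
    have e : k - (k - i) - i = 0 := by omega
    simp only [e]
    exact contr_second hF k (k - i) i (by omega) L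
  have p24 : ∑ m ∈ Finset.range k, ∑ i ∈ Finset.range (k - m), ∑ a, ∑ b, ∑ c,
      D.cf (k + 1) (m + 1) i a b c * - sh D.ip (LinearMap.mul K K) L (dlow F b (m + 1))
        (fun M => F ((c, k - (m + 1) - i) :: M)) +
      ∑ m ∈ Finset.range k, ∑ i ∈ Finset.range (k - m), ∑ a, ∑ b, ∑ c,
      D.cf (k + 1) m i a b c * - sh D.ip (LinearMap.mul K K) L (fun M => F ((b, m) :: M))
            (dlow F c (k - m - i)) = - (((k : K) + 2) * quad D F k L) := by
    rw [quad_eq, ← Finset.sum_add_distrib, Finset.mul_sum, ← Finset.sum_neg_distrib]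
    refine Finset.sum_congr rfl fun m hm => ?_
    have hm' := Finset.mem_range.mp hm
    rw [← Finset.sum_add_distrib, Finset.mul_sum, ← Finset.sum_neg_distrib]
    refine Finset.sum_congr rfl fun i hi => ?_
    have hi' := Finset.mem_range.mp hi
    have e1 : k - (m + 1) - i = k - 1 - m - i := by omega
    have e2 : dlow F (K := K) = fun (a : ι) (m : ℕ) (M : List (ι × ℕ)) =>
      if m = 0 then 0 else F ((a, m - 1) :: M) := rfl
    have e3 : k - m - i ≠ 0 := by omega
    have e4 : k - m - i - 1 = k - 1 - m - i := by omega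
    simp only [e1, e2, if_neg (Nat.succ_ne_zero m), if_neg e3, e4, Nat.add_sub_cancel]
    simp only [← Finset.sum_add_distrib, Finset.mul_sum, ← Finset.sum_neg_distrib]
    refine Finset.sum_congr rfl fun a _ => Finset.sum_congr rfl fun b _ =>
      Finset.sum_congr rfl fun c _ => ?_
    have h2 := cf_shift (D := D) k m i a b c
    linear_combination (sh D.ip (LinearMap.mul K K) L (fun M => F ((b, m) :: M))
      (fun M => F ((c, k - 1 - m - i) :: M))) * h2
  rw [p1, p3]
  linear_combination p24

lemma del_ddF (hF : D.StringSys F) (x y : ι × ℕ) :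
    D.del (fun M => F (x :: y :: M)) = fun M => - (if x.2 = 0 ∧ y.2 = 0 then
      D.eta x.1 y.1 * cst 1 M else 0) + (- dlow (fun L => F (L ++ [])) x.1 x.2 (y :: M) +
      - (if y.2 = 0 then 0 else F (x :: (y.1, y.2 - 1) :: M))) := by
  funext M
  have h1 := del_cons (D := D) (fun M => F (x :: M)) (hF.symm.cons x) y M
  have h2 := del_dF hF x.1 x.2
  have h3 := congrFun h2 (y :: M)
  have h4 : (fun M => F ((x.1, x.2) :: M)) = fun M => F (x :: M) := rfl
  rw [h4] at h3
  rw [h1, h3]
  have h5 : D.Y D.eta (y :: M) (x.1, x.2) = if x.2 = 0 ∧ y.2 = 0 then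
      D.eta x.1 y.1 * cst 1 M else 0 := by
    unfold Y
    rw [tau_cons]
    obtain ⟨y1, y2⟩ := y
    obtain ⟨x1, x2⟩ := x
    cases x2 with
    | zero =>
      cases y2 with
      | zero =>
        cases M with
        | nil => simp [Finsupp.single_apply]
        | cons z M => simp
      | succ y2 =>
        cases M with
        | nil => simp
        | cons z M => simp
    | succ x2 => simp
  rw [h5]
  have h6 : ev K (ι × ℕ) K (low (Finsupp.single y 1)) (fun j => F (x :: j :: M)) =
      if y.2 = 0 then 0 else F (x :: (y.1, y.2 - 1) :: M) := by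
    obtain ⟨y1, y2⟩ := y
    rw [low_single]
    split
    · simp
    · simp
  rw [h6]
  simp only [dlow, List.append_nil]
  ring

/-- The string vector field on the loop part. -/
lemma del_loop (hF : D.StringSys F) (k : ℕ) (L : List (ι × ℕ)) :
    D.del (D.loop F (k + 1)) L = - (((k : K) + 2) * D.loop F k L) +
      (∑ a, D.sn a * br (k + 1) k (D.mu a - 1 + D.half) * D.Rp k a a) * cst 1 L := by
  have h0 : D.loop F (k + 1) = fun L =>
      ∑ m ∈ Finset.range (k + 1), ∑ i ∈ Finset.range (k + 1 - m), ∑ a, ∑ b, ∑ c,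
      D.cf (k + 1) m i a b c * F ((c, k - m - i) :: (b, m) :: L) := by
    funext L
    rfl
  have h1 : D.del (D.loop F (k + 1)) L =
      ∑ m ∈ Finset.range (k + 1), ∑ i ∈ Finset.range (k + 1 - m),
        ((∑ a, ∑ b, ∑ c, D.cf (k + 1) m i a b c *
          - (if k - m - i = 0 ∧ m = 0 then D.eta c b * cst 1 L else 0)) +
        (∑ a, ∑ b, ∑ c, D.cf (k + 1) m i a b c *
          - (if k - m - i = 0 then 0 else F ((c, k - m - i - 1) :: (b, m) :: L))) +
        (∑ a, ∑ b, ∑ c, D.cf (k + 1) m i a b c *
          - (if m = 0 then 0 else F ((c, k - m - i) :: (b, m - 1) :: L)))) := by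
    rw [h0]
    simp only [del_sum, del_mul, del_ddF hF]
    refine Finset.sum_congr rfl fun m _ => Finset.sum_congr rfl fun i _ => ?_
    simp only [← Finset.sum_add_distrib]
    refine Finset.sum_congr rfl fun a _ => Finset.sum_congr rfl fun b _ =>
      Finset.sum_congr rfl fun c _ => ?_
    simp only [dlow, List.append_nil]
    ring
  rw [h1]
  simp only [Finset.sum_add_distrib]
  rw [sum_first_only k (fun m i => ∑ a, ∑ b, ∑ c, D.cf (k + 1) m i a b c *
          - (if k - m - i = 0 ∧ m = 0 then D.eta c b * cst 1 L else 0))]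
  rotate_left
  · intro m i
    refine Finset.sum_eq_zero fun a _ => Finset.sum_eq_zero fun b _ =>
      Finset.sum_eq_zero fun c _ => ?_
    rw [if_neg (by rintro ⟨-, h⟩; exact Nat.succ_ne_zero m h), neg_zero, mul_zero]
  rw [sum_shift_second k (fun m i => ∑ a, ∑ b, ∑ c, D.cf (k + 1) m i a b c *
          - (if k - m - i = 0 then 0 else F ((c, k - m - i - 1) :: (b, m) :: L)))]
  rotate_left
  · intro m i hmi
    refine Finset.sum_eq_zero fun a _ => Finset.sum_eq_zero fun b _ =>
      Finset.sum_eq_zero fun c _ => ?_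
    rw [if_pos (by omega), neg_zero, mul_zero]
  rw [sum_shift_first k (fun m i => ∑ a, ∑ b, ∑ c, D.cf (k + 1) m i a b c *
          - (if m = 0 then 0 else F ((c, k - m - i) :: (b, m - 1) :: L)))]
  rotate_left
  · intro i
    refine Finset.sum_eq_zero fun a _ => Finset.sum_eq_zero fun b _ =>
      Finset.sum_eq_zero fun c _ => ?_
    rw [if_pos rfl, neg_zero, mul_zero]
  have p1 : ∑ i ∈ Finset.range (k + 1), ∑ a, ∑ b, ∑ c, D.cf (k + 1) 0 i a b c *
      - (if k - 0 - i = 0 ∧ (0 : ℕ) = 0 then D.eta c b * cst 1 L else 0) =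
      (∑ a, D.sn a * br (k + 1) k (D.mu a - 1 + D.half) * D.Rp k a a) * cst 1 L := by
    rw [Finset.sum_eq_single_of_mem k (Finset.mem_range.mpr (by omega)), Finset.sum_mul]
    · refine Finset.sum_congr rfl fun a _ => ?_
      rw [Finset.sum_comm]
      have h2 : ∀ c, ∑ b, D.cf (k + 1) 0 k a b c *
          - (if k - 0 - k = 0 ∧ (0 : ℕ) = 0 then D.eta c b * cst 1 L else 0) =
          (br (k + 1) k (D.mu a - 1 + D.half) * D.Rp k a c * cst 1 L * D.sn c) *
            (if a = c then 1 else 0) := by
        intro c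
        rw [← D.eta_inv' a c, Finset.mul_sum]
        refine Finset.sum_congr rfl fun b _ => ?_
        rw [if_pos ⟨by omega, rfl⟩, D.eta_symm' c b]
        unfold cf
        have e : D.mu a - ((0 : ℕ) : K) - 1 + D.half = D.mu a - 1 + D.half := by
          push_cast; ring
        rw [e]
        ring
      rw [Finset.sum_congr rfl (fun c _ => h2 c)]
      simp only [mul_ite, mul_one, mul_zero, Finset.sum_ite_eq, Finset.mem_univ, if_true]
      ring
    · intro i hi hik
      have hi' := Finset.mem_range.mp hi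
      refine Finset.sum_eq_zero fun a _ => Finset.sum_eq_zero fun b _ =>
        Finset.sum_eq_zero fun c _ => ?_
      rw [if_neg (by rintro ⟨h, -⟩; omega), neg_zero, mul_zero]
  have p24 : ∑ m ∈ Finset.range k, ∑ i ∈ Finset.range (k - m), ∑ a, ∑ b, ∑ c,
      D.cf (k + 1) (m + 1) i a b c * - (if m + 1 = 0 then 0 else
        F ((c, k - (m + 1) - i) :: (b, m + 1 - 1) :: L)) +
      ∑ m ∈ Finset.range k, ∑ i ∈ Finset.range (k - m), ∑ a, ∑ b, ∑ c,
      D.cf (k + 1) m i a b c * - (if k - m - i = 0 then 0 else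
        F ((c, k - m - i - 1) :: (b, m) :: L)) = - (((k : K) + 2) * D.loop F k L) := by
    unfold loop
    rw [← Finset.sum_add_distrib, Finset.mul_sum, ← Finset.sum_neg_distrib]
    refine Finset.sum_congr rfl fun m hm => ?_
    have hm' := Finset.mem_range.mp hm
    rw [← Finset.sum_add_distrib, Finset.mul_sum, ← Finset.sum_neg_distrib]
    refine Finset.sum_congr rfl fun i hi => ?_
    have hi' := Finset.mem_range.mp hi
    have e1 : k - (m + 1) - i = k - 1 - m - i := by omega
    have e3 : k - m - i ≠ 0 := by omega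
    have e4 : k - m - i - 1 = k - 1 - m - i := by omega
    simp only [e1, if_neg (Nat.succ_ne_zero m), if_neg e3, e4, Nat.add_sub_cancel]
    simp only [← Finset.sum_add_distrib, Finset.mul_sum, ← Finset.sum_neg_distrib]
    refine Finset.sum_congr rfl fun a _ => Finset.sum_congr rfl fun b _ =>
      Finset.sum_congr rfl fun c _ => ?_
    have h2 := cf_shift (D := D) k m i a b c
    linear_combination (F ((c, k - 1 - m - i) :: (b, m) :: L)) * h2
  rw [p1]
  linear_combination p24

lemma trace_zero [CharZero K] (k : ℕ) (a : ι) : D.Rp (k + 1) a a = 0 := by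
  by_contra h
  have h1 := D.Rp_mu (k + 1) a a h
  have h2 : ((k + 1 : ℕ) : K) = 0 := by linear_combination -h1
  exact Nat.succ_ne_zero k (by exact_mod_cast h2)

/-- **The commutator of the Virasoro constraints with the string equation.** -/
theorem del_virk [CharZero K] (hF : D.StringSys F) (hb : K) (k : ℕ) (L : List (ι × ℕ)) :
    D.del (D.virk F hb (k + 1)) L = - (((k : K) + 2) * D.virk F hb k L) := by
  have h0 : D.virk F hb (k + 1) = fun L =>
      act D.ip (fun M => D.Aop (k + 1) (tau (D.one, 1) M)) F L +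
      (D.half * quad D F (k + 1) L + (D.half * hb) * D.loop F (k + 1) L) +
      qform (fun a b => ∑ c, D.Rp (k + 1 + 1) a c * D.eta c b) L := by
    funext L
    unfold virk
    rw [if_neg (Nat.succ_ne_zero k)]
    ring
  rw [h0, del_add, del_add, del_add, del_mul, del_mul, del_quad hF, del_loop hF]
  have h1 := del_act (D := D) (A := D.Aop (k + 1)) F hF.symm L
  have h2 : act D.ip (fun M => D.Aop (k + 1) (low (tau (D.one, 1) M))) F L =
      act D.ip (fun M => low (D.Aop (k + 1) (tau (D.one, 1) M))) F L -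
      ((k : K) + 2) * act D.ip (fun M => D.Aop k (tau (D.one, 1) M)) F L -
      act D.ip (fun M => D.Eop k (tau (D.one, 1) M)) F L := by
    have h3 : (fun M => D.Aop (k + 1) (low (tau (K := K) (D.one, 1) M))) =
        fun M => low (D.Aop (k + 1) (tau (D.one, 1) M)) +
          (- (((k : K) + 2) • D.Aop k (tau (D.one, 1) M)) +
          - D.Eop k (tau (D.one, 1) M)) := by
      funext M
      rw [low_Aop]
      abel
    rw [h3, act_cadd, act_cadd, act_cneg, act_cneg, act_csmul, smul_eq_mul]
    ring
  have h3 : D.del F = fun M => - qform D.eta M := by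
    funext M; exact del_F hF M
  rw [h2, h3, act_neg] at h1
  rw [h1]
  have h4 := del_qpart (D := D) k L
  have h5 : D.del (fun M => qform (fun a b => ∑ c, D.Rp (k + 1 + 1) a c * D.eta c b) M) L =
    D.del (qform (fun a b => ∑ c, D.Rp (k + 2) a c * D.eta c b)) L := rfl
  rw [h5]
  have h6 : (D.half * hb) * ((∑ a, D.sn a * br (k + 1) k (D.mu a - 1 + D.half) * D.Rp k a a) *
      cst 1 L) = - (((k : K) + 2) * (if k = 0 then hb * D.kap * cst 1 L else 0)) := by
    cases k with
    | zero =>
      rw [if_pos rfl]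
      have h7 : ∀ a, D.sn a * br (0 + 1) 0 (D.mu a - 1 + D.half) * D.Rp 0 a a =
          - (D.sn a * (D.half ^ 2 - D.mu a ^ 2)) := by
        intro a
        rw [br_succ, if_pos rfl, br_zero_zero, Rp_zero, if_pos rfl]
        have := D.two_half
        linear_combination (D.sn a * (D.mu a + D.half)) * this
      simp only [h7, Finset.sum_neg_distrib]
      unfold kap
      have := D.two_half
      push_cast
      linear_combination (D.half * hb * (∑ a, D.sn a * (D.half ^ 2 - D.mu a ^ 2)) *
        cst 1 L) * this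
    | succ k =>
      rw [if_neg (Nat.succ_ne_zero k)]
      simp only [trace_zero, mul_zero, Finset.sum_const_zero, zero_mul, neg_zero]
  unfold virk
  have h8 := D.two_half
  linear_combination h4 + h6 + (act D.ip (fun M => D.Eop k (tau (D.one, 1) M)) F L) * h8

end Coh

end Vale.Agent.P269.H597
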