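import Vale.Agent.P269.H597.Genera

/-!
# The dimension argument
-/

set_option linter.unusedSectionVars false

namespace Vale.Agent.P269.H597

open Finset.HasAntidiagonal (antidiagonal)

variable {K : Type*} [CommRing K] {ι : Type*} [Fintype ι] [DecidableEq ι]

namespace Coh

variable (D : Coh K ι) (F : ℕ → ℕ → List (ι × ℕ) → K)

/-- Degrees of the classes and the dimension of the moduli spaces. -/
structure DegData (dg : ι → ℤ) (r nu : ℤ) : Prop where
  one : dg D.one = 0
  other : ∀ a, a ≠ D.one → 2 ≤ dg a
  R : ∀ a b, D.R a b ≠ 0 → dg b = dg a + 2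
  eta : ∀ a b, D.eta a b ≠ 0 → dg a + dg b = 2 * r
  etai : ∀ a b, D.etai a b ≠ 0 → dg a + dg b = 2 * r

/-- Weight of an insertion (twice `m + deg - 1`). -/
def wt (dg : ι → ℤ) (x : ι × ℕ) : ℤ := 2 * x.2 + dg x.1 - 2

/-- Twice the virtual dimension of the moduli space without marked points. -/
def vd (r nu : ℤ) (g d : ℕ) : ℤ := 2 * ((1 - g) * (r - 3) + nu * d)

variable {D F} {dg : ι → ℤ} {r nu : ℤ}

lemma Rp_dg (hD : D.DegData dg r nu) (i : ℕ) (a c : ι) (h : D.Rp i a c ≠ 0) :
    dg c = dg a + 2 * i := by
  induction i generalizing a with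
  | zero =>
    rw [Rp_zero] at h
    have : a = c := by
      by_contra h2
      rw [if_neg h2] at h
      exact h rfl
    rw [this]; simp
  | succ i ih =>
    rw [Rp_succ] at h
    obtain ⟨b, _, hb⟩ := Finset.exists_ne_zero_of_sum_ne_zero h
    have h1 := hD.R a b (left_ne_zero_of_mul hb)
    have h2 := ih b (right_ne_zero_of_mul hb)
    push_cast
    omega

lemma Aop_wt (hD : D.DegData dg r nu) (k : ℕ) (x j : ι × ℕ)
    (h : D.Aop k (Finsupp.single x 1) j ≠ 0) : wt dg j = wt dg x + 2 * k := by
  rw [Aop_single, Finsupp.finsetSum_apply] at h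
  obtain ⟨i, hi, h⟩ := Finset.exists_ne_zero_of_sum_ne_zero h
  rw [Finsupp.finsetSum_apply] at h
  obtain ⟨c, _, h⟩ := Finset.exists_ne_zero_of_sum_ne_zero h
  by_cases hle : i ≤ x.2 + k
  · rw [if_pos hle, Finsupp.smul_apply, smul_eq_mul] at h
    have h1 := left_ne_zero_of_mul h
    have h2 := right_ne_zero_of_mul h
    rw [Finsupp.single_apply] at h2
    have h3 : (c, x.2 + k - i) = j := by
      by_contra h4
      rw [if_neg h4] at h2
      exact h2 rfl
    have h5 := Rp_dg hD i x.1 c (right_ne_zero_of_mul h1)
    rw [← h3]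
    unfold wt
    simp only
    rw [h5]
    push_cast [Nat.cast_sub hle]
    ring
  · rw [if_neg hle] at h
    simp at h

lemma HW_lin (hD : D.DegData dg r nu) (k : ℕ) {G : List (ι × ℕ) → K} {w : ℤ}
    (hG : HW (wt dg) w G) : HW (wt dg) (w - 2 * k) (D.lin k G) := by
  intro L hL
  unfold lin
  have h1 := hG.rep (fun i => D.Aop k (Finsupp.single i 1)) (δ := 2 * k)
    (fun i j h => Aop_wt hD k i j h) L hL
  have h2 := hG.ev (D.Aop k (Finsupp.single (D.one, 1) 1)) (wt dg (D.one, 1)) (δ := 2 * k)
    (fun j h => Aop_wt hD k _ j h) L (by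
      have : wt dg (D.one, 1) = 0 := by
        unfold wt
        rw [hD.one]
        norm_num
      rw [this, zero_add]
      exact hL)
  rw [h1, h2, sub_zero]

lemma cf_dg (hD : D.DegData dg r nu) (k m i : ℕ) (a b c : ι) (h : D.cf k m i a b c ≠ 0) :
    dg b + dg c = 2 * r + 2 * i := by
  unfold cf at h
  have h1 := Rp_dg hD i a c (right_ne_zero_of_mul h)
  have h2 := hD.etai a b (right_ne_zero_of_mul (left_ne_zero_of_mul h))
  omega

lemma HW_zero (w : ℤ) : HW (wt dg) w (fun _ : List (ι × ℕ) => (0 : K)) := fun _ _ => rfl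

lemma HW_vir (hD : D.DegData dg r nu) (hF : ∀ g d, HW (wt dg) (vd r nu g d) (F g d))
    (k g d : ℕ) : HW (wt dg) (vd r nu g d - 2 * k) (D.vir F k g d) := by
  intro L hL
  unfold vir
  rw [HW_lin hD k (hF g d) L hL]
  have h1 : ∑ x ∈ antidiagonal g, ∑ y ∈ antidiagonal d,
      D.quad2 k (F x.1 y.1) (F x.2 y.2) L = 0 := by
    refine Finset.sum_eq_zero fun x hx => Finset.sum_eq_zero fun y hy => ?_
    have hx' : x.1 + x.2 = g := Finset.HasAntidiagonal.mem_antidiagonal.mp hx
    have hy' : y.1 + y.2 = d := Finset.HasAntidiagonal.mem_antidiagonal.mp hy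
    unfold quad2
    refine Finset.sum_eq_zero fun m hm => Finset.sum_eq_zero fun i hi =>
      Finset.sum_eq_zero fun a _ => Finset.sum_eq_zero fun b _ => Finset.sum_eq_zero fun c _ => ?_
    by_cases hc : D.cf k m i a b c = 0
    · rw [hc, zero_mul]
    have h2 := cf_dg hD k m i a b c hc
    have h3 := ((hF x.1 y.1).cons (b, m)).sh (par := D.ip) (LinearMap.mul K K)
      ((hF x.2 y.2).cons (c, k - 1 - m - i)) L
    simp only at h3
    rw [h3, mul_zero]
    intro h4
    apply hL
    rw [h4]
    have hm' := Finset.mem_range.mp hm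
    have hi' := Finset.mem_range.mp hi
    have e1 : ((k - 1 - m - i : ℕ) : ℤ) = k - 1 - m - i := by omega
    unfold vd wt
    simp only
    rw [e1, ← hx', ← hy']
    push_cast
    linear_combination -h2
  have h2 : (if g = 0 then 0 else D.loop (F (g - 1) d) k L) = 0 := by
    split
    · rfl
    · rename_i hg
      unfold loop
      refine Finset.sum_eq_zero fun m hm => Finset.sum_eq_zero fun i hi =>
        Finset.sum_eq_zero fun a _ => Finset.sum_eq_zero fun b _ => Finset.sum_eq_zero fun c _ => ?_
      by_cases hc : D.cf k m i a b c = 0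
      · rw [hc, zero_mul]
      have h2 := cf_dg hD k m i a b c hc
      have h3 := ((hF (g - 1) d).cons (c, k - 1 - m - i)).cons (b, m) L
      simp only at h3
      rw [h3, mul_zero]
      intro h4
      apply hL
      rw [h4]
      have hm' := Finset.mem_range.mp hm
      have hi' := Finset.mem_range.mp hi
      have e1 : ((k - 1 - m - i : ℕ) : ℤ) = k - 1 - m - i := by omega
      have e2 : ((g - 1 : ℕ) : ℤ) = g - 1 := by omega
      unfold vd wt
      simp only
      rw [e1, e2]
      linear_combination -h2
  have h3 : (if g = 0 ∧ d = 0 then qform (fun a b => ∑ c, D.Rp (k + 1) a c * D.eta c b) L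
      else 0) = 0 := by
    split
    · rename_i hgd
      unfold qform
      split
      · rename_i a b
        by_contra h4
        obtain ⟨c, _, hc⟩ := Finset.exists_ne_zero_of_sum_ne_zero h4
        have h5 := Rp_dg hD (k + 1) a c (left_ne_zero_of_mul hc)
        have h6 := hD.eta c b (right_ne_zero_of_mul hc)
        apply hL
        unfold vd wt
        simp only [List.map_cons, List.map_nil, List.sum_cons, List.sum_nil, hgd.1, hgd.2]
        push_cast at h5 ⊢
        linear_combination h6 - h5
      · rfl
    · rfl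
  have h4 : (if k = 0 ∧ g = 1 ∧ d = 0 then D.kap * cst 1 L else 0) = 0 := by
    split
    · rename_i hk
      cases L with
      | nil =>
        exfalso
        apply hL
        unfold vd
        simp [hk.1, hk.2.1, hk.2.2]
      | cons x L => simp
    · rfl
  rw [h1, h2, h3, h4]
  ring

/-- If `C` vanishes on all lists of the same length, so does `rep low C`. -/
lemma rep_length (A : ι × ℕ → (ι × ℕ →₀ K)) (G : List (ι × ℕ) → K) (L : List (ι × ℕ))
    (h : ∀ M : List (ι × ℕ), M.length = L.length → G M = 0) : rep A G L = 0 := by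
  induction L generalizing G with
  | nil => rfl
  | cons i L ih =>
    simp only [rep]
    rw [ih (fun M => G (i :: M)) (fun M hM => h _ (by simp [hM])), add_zero, ev_apply,
      Finsupp.sum]
    refine Finset.sum_eq_zero fun j _ => ?_
    rw [h _ (by simp), smul_zero]


lemma SymF_move (G : List (ι × ℕ) → K) (hG : SymF (K := K) D.ip G) (x : ι × ℕ)
    (hx : D.ip x = false) (L M : List (ι × ℕ)) : G (L ++ x :: M) = G (x :: (L ++ M)) := by
  induction L generalizing G with
  | nil => rfl
  | cons y L ih =>
    have h1 := ih (fun N => G (y :: N)) (hG.cons y)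
    rw [List.cons_append, h1]
    have h2 := hG [] (L ++ M) y x
    simp only [List.nil_append, hx, sg_false_right, one_smul] at h2
    rw [h2]
    rfl

lemma exists_one_zero (hD : D.DegData dg r nu) (L : List (ι × ℕ))
    (hL : (L.map (wt dg)).sum < 0) : ∃ A B, L = A ++ (D.one, 0) :: B := by
  have h : (D.one, 0) ∈ L := by
    by_contra hn
    have h2 : 0 ≤ (L.map (wt dg)).sum := by
      apply List.sum_nonneg
      intro x hx
      obtain ⟨y, hy, rfl⟩ := List.mem_map.mp hx
      obtain ⟨a, m⟩ := y
      unfold wt
      simp only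
      by_cases ha : a = D.one
      · subst ha
        rw [hD.one]
        cases m with
        | zero => exact absurd hy hn
        | succ m => push_cast; omega
      · have := hD.other a ha
        omega
    omega
  exact List.append_of_mem h

/-- A series of negative weight satisfying the homogeneous string equation vanishes. -/
theorem string_vanish (hD : D.DegData dg r nu) (G : List (ι × ℕ) → K)
    (hG : SymF (K := K) D.ip G) (w : ℤ) (hw : w < 0) (hW : HW (wt dg) w G)
    (hS : ∀ L, G ((D.one, 0) :: L) = rep (fun i => low (Finsupp.single i (1 : K))) G L) :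
    ∀ L, G L = 0 := by
  have key : ∀ (n : ℕ) (L : List (ι × ℕ)), L.length = n → G L = 0 := by
    intro n
    induction n with
    | zero =>
      intro L hL
      apply hW
      rw [List.length_eq_zero_iff.mp hL]
      simp only [List.map_nil, List.sum_nil]
      omega
    | succ n ih =>
      intro L hL
      by_cases h1 : (L.map (wt dg)).sum = w
      · obtain ⟨A, B, rfl⟩ := exists_one_zero hD L (by omega)
        rw [SymF_move G hG (D.one, 0) D.par_one, hS]
        apply rep_length
        intro M hM
        apply ih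
        rw [hM]
        simp only [List.length_append, List.length_cons] at hL ⊢
        omega
      · exact hW L h1
  exact fun L => key L.length L rfl

/-- **Dimension argument**: at `(g, d)` of nonpositive virtual dimension the constraint
`L_0` implies all constraints `L_k`, `k ≥ 0`. -/
theorem vir_of_dim [CharZero K] (hD : D.DegData dg r nu) (hF : D.StringG F)
    (hW : ∀ g d, HW (wt dg) (vd r nu g d) (F g d)) (g d : ℕ) (hgd : vd r nu g d ≤ 0)
    (h0 : ∀ L, D.vir F 0 g d L = 0) (k : ℕ) : ∀ L, D.vir F k g d L = 0 := by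
  induction k with
  | zero => exact h0
  | succ k ih =>
    refine string_vanish hD _ (SymF_vir hF.symm (k + 1) g d) (vd r nu g d - 2 * ((k + 1 : ℕ) : ℤ))
      (by push_cast; omega) (HW_vir hD hW (k + 1) g d) ?_
    intro L
    rw [vir_string hF, ih, mul_zero, add_zero]

end Coh

end Vale.Agent.P269.H597
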