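import Vale.Agent.P269.H597.Ring

/-!
# The degree-zero Gromov-Witten invariants
-/

set_option linter.unusedSectionVars false

namespace Vale.Agent.P269.H597

open Finset.HasAntidiagonal (antidiagonal)
open Vale.Agent.P269
open CI

variable {X : CompleteIntersection}

lemma lowerSum_nil (T : Ix X → Ix X → ℂ) (F : List (Ins X) → ℂ) : lowerSum X T F [] = 0 := by
  simp [lowerSum]

lemma lowerSum_cons (T : Ix X → Ix X → ℂ) (F : List (Ins X) → ℂ) (x : Ins X)
    (L : List (Ins X)) : lowerSum X T F (x :: L) =
      (if x.2 = 0 then 0 else ∑ b, T x.1 b * F ((b, x.2 - 1) :: L)) +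
      lowerSum X T (fun M => F (x :: M)) L := by
  unfold lowerSum
  exact Fin.sum_univ_succ (fun j : Fin (L.length + 1) =>
    if ((x :: L).get j).2 = 0 then 0 else
    ∑ b, T ((x :: L).get j).1 b * F ((x :: L).set j (b, ((x :: L).get j).2 - 1)))

lemma lowerSum_add (T : Ix X → Ix X → ℂ) (F G : List (Ins X) → ℂ) (L : List (Ins X)) :
    lowerSum X T (fun M => F M + G M) L = lowerSum X T F L + lowerSum X T G L := by
  induction L generalizing F G with
  | nil => simp [lowerSum_nil]
  | cons x L ih =>
    rw [lowerSum_cons, lowerSum_cons, lowerSum_cons, ih]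
    split
    · ring
    · simp only [mul_add, Finset.sum_add_distrib]
      ring

lemma lowerSum_smul (T : Ix X → Ix X → ℂ) (c : ℂ) (F : List (Ins X) → ℂ) (L : List (Ins X)) :
    lowerSum X T (fun M => c * F M) L = c * lowerSum X T F L := by
  induction L generalizing F with
  | nil => simp [lowerSum_nil]
  | cons x L ih =>
    rw [lowerSum_cons, lowerSum_cons, ih, mul_add]
    congr 1
    split
    · ring
    · rw [Finset.mul_sum]
      refine Finset.sum_congr rfl fun b _ => ?_
      ring

lemma lowerSum_prod (T : Ix X → Ix X → ℂ) (u : List ℕ → ℂ) (v v' : List (Ix X) → ℂ)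
    (h : ∀ P a S, ∑ b, T a b * v (P ++ b :: S) = v' (P ++ a :: S)) (L : List (Ins X)) :
    lowerSum X T (fun M => u (M.map Prod.snd) * v (M.map Prod.fst)) L =
      lowN u (L.map Prod.snd) * v' (L.map Prod.fst) := by
  induction L generalizing u v v' with
  | nil => simp [lowerSum_nil, lowN]
  | cons x L ih =>
    rw [lowerSum_cons]
    have h1 := ih (fun k => u (x.2 :: k)) (fun k => v (x.1 :: k)) (fun k => v' (x.1 :: k))
      (fun P a S => h (x.1 :: P) a S)
    simp only [List.map_cons] at h1 ⊢
    rw [h1]
    simp only [lowN]
    rw [add_mul]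
    congr 1
    split
    · simp
    · have h0 := h [] x.1 (L.map Prod.fst)
      simp only [List.nil_append] at h0
      rw [← h0, Finset.mul_sum]
      refine Finset.sum_congr rfl fun b _ => ?_
      ring

lemma one_sum (G : Ix X → ℂ) (a : Ix X) :
    ∑ b, (fun a b : Ix X => if a = b then (1 : ℂ) else 0) a b * G b = G a := by
  rw [Finset.sum_eq_single a]
  · simp
  · intro b _ hb
    simp [Ne.symm hb]
  · simp

variable (X) in
/-- All classes are the unit. -/
noncomputable def vA (L : List (Ix X)) : ℂ := if fil X L = [] then 1 else 0

variable (X) in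
/-- Exactly one class is the hyperplane class, the others are the unit. -/
noncomputable def vB (L : List (Ix X)) : ℂ := if fil X L = [hcls X] then 1 else 0

lemma hcls_ne : hcls X ≠ one X := by simp [hcls, one]

lemma fil_swap_one (P S : List (Ix X)) (x y : Ix X) (h : x = one X ∨ y = one X) :
    fil X (P ++ x :: y :: S) = fil X (P ++ y :: x :: S) := by
  rw [fil_append, fil_append]
  rcases h with rfl | rfl
  · by_cases hy : y = one X
    · subst hy; rfl
    · rw [fil_one, fil_cons y hy, fil_cons y hy, fil_one]
  · by_cases hx : x = one X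
    · subst hx; rfl
    · rw [fil_one, fil_cons x hx, fil_cons x hx, fil_one]

lemma fil_long (P S : List (Ix X)) (x y : Ix X) (hx : x ≠ one X) (hy : y ≠ one X) :
    2 ≤ (fil X (P ++ x :: y :: S)).length := by
  rw [fil_append, fil_cons x hx, fil_cons y hy]
  simp only [List.length_append, List.length_cons]
  omega

lemma sg_one (x y : Ix X) (h : x = one X ∨ y = one X) : sg ℂ (par X x) (par X y) = 1 := by
  rcases h with rfl | rfl <;> simp [par, one]

lemma vA_swap (P S : List (Ix X)) (x y : Ix X) :
    vA X (P ++ x :: y :: S) = sg ℂ (par X x) (par X y) * vA X (P ++ y :: x :: S) := by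
  by_cases h : x = one X ∨ y = one X
  · rw [sg_one x y h, one_mul]
    unfold vA
    rw [fil_swap_one P S x y h]
  · rw [not_or] at h
    have h1 := fil_long P S x y h.1 h.2
    have h2 := fil_long P S y x h.2 h.1
    unfold vA
    rw [if_neg, if_neg, mul_zero]
    · intro h3
      rw [h3] at h2
      simp at h2
    · intro h3
      rw [h3] at h1
      simp at h1

lemma vB_swap (P S : List (Ix X)) (x y : Ix X) :
    vB X (P ++ x :: y :: S) = sg ℂ (par X x) (par X y) * vB X (P ++ y :: x :: S) := by
  by_cases h : x = one X ∨ y = one X
  · rw [sg_one x y h, one_mul]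
    unfold vB
    rw [fil_swap_one P S x y h]
  · rw [not_or] at h
    have h1 := fil_long P S x y h.1 h.2
    have h2 := fil_long P S y x h.2 h.1
    unfold vB
    rw [if_neg, if_neg, mul_zero]
    · intro h3
      rw [h3] at h2
      simp at h2
    · intro h3
      rw [h3] at h1
      simp at h1

lemma vA_hmul (P : List (Ix X)) (a : Ix X) (S : List (Ix X)) :
    ∑ b, hmul X a b * vA X (P ++ b :: S) = (fun _ => (0 : ℂ)) (P ++ a :: S) := by
  refine Finset.sum_eq_zero fun b _ => ?_
  by_cases hb : b = one X
  · subst hb
    rcases a with i | a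
    · simp [hmul, one]
    · simp [hmul]
  · unfold vA
    rw [if_neg, mul_zero]
    rw [fil_append, fil_cons b hb]
    simp

lemma vB_hmul (P : List (Ix X)) (a : Ix X) (S : List (Ix X)) :
    ∑ b, hmul X a b * vB X (P ++ b :: S) = vA X (P ++ a :: S) := by
  have h3 := X.two_le_dim
  by_cases ha : a = one X
  · subst ha
    rw [hmul_one_sum (fun b => vB X (P ++ b :: S))]
    unfold vA vB
    rw [fil_append, fil_append, fil_one, fil_cons _ hcls_ne]
    by_cases hP : fil X P = []
    · rw [hP]
      by_cases hS : fil X S = []
      · rw [hS]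
        simp
      · rw [if_neg, if_neg]
        · simp [hS]
        · intro h
          apply hS
          simpa using h
    · rw [if_neg, if_neg]
      · simp [hP]
      · intro h
        have := congrArg List.length h
        simp only [List.length_append, List.length_cons, List.length_nil] at this
        apply hP
        exact List.length_eq_zero_iff.mp (by omega)
  · have hA : vA X (P ++ a :: S) = 0 := by
      unfold vA
      rw [if_neg]
      rw [fil_append, fil_cons a ha]
      simp
    rw [hA]
    refine Finset.sum_eq_zero fun b _ => ?_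
    rcases a with i | a
    · rcases b with j | b
      · simp only [hmul]
        split
        · rename_i hj
          have hi : (i : ℕ) ≠ 0 := by
            intro h
            apply ha
            unfold one
            congr 1
            exact Fin.ext h
          unfold vB
          rw [if_neg, mul_zero]
          rw [fil_append, fil_cons]
          · intro h
            have h1 : (Sum.inl j : Ix X) ∈ fil X P ++ Sum.inl j :: fil X S := by simp
            rw [h] at h1
            simp only [List.mem_singleton] at h1
            unfold hcls at h1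
            have := Sum.inl.inj h1
            have := congrArg Fin.val this
            simp only at this
            omega
          · intro h
            unfold one at h
            have := Sum.inl.inj h
            have := congrArg Fin.val this
            simp only [Fin.val_zero] at this
            omega
        · rw [zero_mul]
      · simp [hmul]
    · simp [hmul]

/-- Values at ones. -/
noncomputable def bs (x t c0 : ℂ) : ℕ → ℂ
  | 0 => c0
  | n + 1 => (x + n) * bs x t c0 n + (if n = 0 then t else 0)

variable (X) in
/-- The part of the higher genus invariants without classes. -/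
noncomputable def fA (x t c0 : ℂ) (L : List (Ins X)) : ℂ :=
  Ef (bs x t c0) ((L.map Prod.snd : List ℕ) : Multiset ℕ) * vA X (L.map Prod.fst)

variable (X) in
/-- The part with one hyperplane class. -/
noncomputable def fB (L : List (Ins X)) : ℂ := Nz 1 (L.map Prod.snd) * vB X (L.map Prod.fst)

variable (X) in
/-- The invariants of genus zero and degree zero. -/
noncomputable def fI (L : List (Ins X)) : ℂ :=
  Nz 3 (L.map Prod.snd) * integral X (L.map Prod.fst)

lemma exps_perm (L M : List (Ins X)) (x y : Ins X) :
    ((L ++ x :: y :: M).map Prod.snd).Perm ((L ++ y :: x :: M).map Prod.snd) := by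
  apply List.Perm.map
  exact (List.Perm.swap y x M).append_left L

lemma fA_swap (x' t c0 : ℂ) (L M : List (Ins X)) (x y : Ins X) :
    fA X x' t c0 (L ++ x :: y :: M) =
      CI.sgn (par X x.1) (par X y.1) * fA X x' t c0 (L ++ y :: x :: M) := by
  unfold fA
  have h1 : (((L ++ x :: y :: M).map Prod.snd : List ℕ) : Multiset ℕ) =
      (((L ++ y :: x :: M).map Prod.snd : List ℕ) : Multiset ℕ) :=
    Multiset.coe_eq_coe.mpr (exps_perm L M x y)
  rw [h1]
  simp only [List.map_append, List.map_cons]
  rw [vA_swap, sgn_eq]
  ring

lemma fB_swap (L M : List (Ins X)) (x y : Ins X) :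
    fB X (L ++ x :: y :: M) = CI.sgn (par X x.1) (par X y.1) * fB X (L ++ y :: x :: M) := by
  unfold fB
  rw [Nz_perm 1 (exps_perm L M x y)]
  simp only [List.map_append, List.map_cons]
  rw [vB_swap, sgn_eq]
  ring

lemma fI_swap (L M : List (Ins X)) (x y : Ins X) :
    fI X (L ++ x :: y :: M) = CI.sgn (par X x.1) (par X y.1) * fI X (L ++ y :: x :: M) := by
  unfold fI
  rw [Nz_perm 3 (exps_perm L M x y)]
  simp only [List.map_append, List.map_cons]
  rw [integral_swap, sgn_eq]
  ring

/-! String equations -/

lemma fA_string (x t c0 : ℂ) (L : List (Ins X)) : fA X x t c0 ((one X, 0) :: L) =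
    lowerSum X (fun a b => if a = b then 1 else 0) (fA X x t c0) L := by
  have h := lowerSum_prod (X := X) (fun a b => if a = b then 1 else 0)
    (fun k => Ef (bs x t c0) (k : Multiset ℕ)) (vA X) (vA X)
    (fun P a S => one_sum (fun b => vA X (P ++ b :: S)) a) L
  unfold fA
  rw [h, lowN_multiset (Ef (bs x t c0)), ← Ef_string]
  have h2 : vA X (((one X, 0) :: L).map Prod.fst) = vA X (L.map Prod.fst) := by
    unfold vA
    rw [List.map_cons, fil_one]
  rw [h2]
  rfl

lemma fB_string (L : List (Ins X)) : fB X ((one X, 0) :: L) =
    lowerSum X (fun a b => if a = b then 1 else 0) (fB X) L := by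
  have h := lowerSum_prod (X := X) (fun a b => if a = b then 1 else 0)
    (Nz 1) (vB X) (vB X) (fun P a S => one_sum (fun b => vB X (P ++ b :: S)) a) L
  unfold fB
  rw [h]
  have h2 : vB X (((one X, 0) :: L).map Prod.fst) = vB X (L.map Prod.fst) := by
    unfold vB
    rw [List.map_cons, fil_one]
  rw [h2, List.map_cons, Nz_string]
  by_cases hL : L = []
  · subst hL
    have : vB X (([] : List (Ins X)).map Prod.fst) = 0 := by
      unfold vB
      simp [fil]
    rw [this]
    ring
  · have : ¬ ((L.map Prod.snd).sum = 0 ∧ (L.map Prod.snd).length + 1 = 1) := by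
      rintro ⟨-, h⟩
      apply hL
      rw [List.length_map] at h
      exact List.length_eq_zero_iff.mp (by omega)
    rw [if_neg this, add_zero]

lemma fI_string (L : List (Ins X)) : fI X ((one X, 0) :: L) =
    lowerSum X (fun a b => if a = b then 1 else 0) (fI X) L + pairTerm X (pairing X) L := by
  have h := lowerSum_prod (X := X) (fun a b => if a = b then 1 else 0)
    (Nz 3) (integral X) (integral X)
    (fun P a S => one_sum (fun b => integral X (P ++ b :: S)) a) L
  unfold fI
  rw [h]
  have h2 : integral X (((one X, 0) :: L).map Prod.fst) = integral X (L.map Prod.fst) := by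
    rw [List.map_cons]
    exact integral_one [] (L.map Prod.fst)
  rw [h2, List.map_cons, Nz_string, add_mul]
  congr 1
  match L with
  | [] => simp [pairTerm]
  | [x] => simp [pairTerm]
  | [(a, m), (b, n)] =>
    cases m with
    | zero =>
      cases n with
      | zero =>
        simp only [List.map_cons, List.map_nil, integral_pair, pairTerm]
        simp
      | succ n => simp [pairTerm]
    | succ m => simp [pairTerm]
  | x :: y :: z :: L => simp [pairTerm]

/-! Dilaton equations -/

lemma vA_one (L : List (Ins X)) (m : ℕ) :
    vA X (((one X, m) :: L).map Prod.fst) = vA X (L.map Prod.fst) := by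
  unfold vA
  rw [List.map_cons, fil_one]

lemma vB_one (L : List (Ins X)) (m : ℕ) :
    vB X (((one X, m) :: L).map Prod.fst) = vB X (L.map Prod.fst) := by
  unfold vB
  rw [List.map_cons, fil_one]

lemma integral_one' (L : List (Ins X)) (m : ℕ) :
    integral X (((one X, m) :: L).map Prod.fst) = integral X (L.map Prod.fst) := by
  rw [List.map_cons]
  exact integral_one [] (L.map Prod.fst)

lemma fA_dilaton (x t c0 : ℂ) (L : List (Ins X)) : fA X x t c0 ((one X, 1) :: L) =
    (x + L.length) * fA X x t c0 L + emptyTerm X t L := by
  unfold fA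
  rw [vA_one, List.map_cons]
  have h1 := Ef_dilaton (bs x t c0) x t (fun n => rfl) L.length
    ((L.map Prod.snd : List ℕ) : Multiset ℕ) (by simp)
  have h2 : ((((one X, 1) : Ins X).2 :: L.map Prod.snd : List ℕ) : Multiset ℕ) =
      1 ::ₘ ((L.map Prod.snd : List ℕ) : Multiset ℕ) := rfl
  rw [h2, h1]
  cases L with
  | nil => simp [emptyTerm, vA, fil]
  | cons y L => simp [emptyTerm]; ring

lemma fB_dilaton (L : List (Ins X)) : fB X ((one X, 1) :: L) = (L.length : ℂ) * fB X L := by
  unfold fB
  rw [vB_one, List.map_cons, Nz_dilaton, List.length_map]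
  push_cast
  ring

lemma fI_dilaton (L : List (Ins X)) : fI X ((one X, 1) :: L) =
    ((L.length : ℂ) - 2) * fI X L := by
  unfold fI
  rw [integral_one', List.map_cons, Nz_dilaton, List.length_map]
  push_cast
  ring

/-! Divisor equations -/

lemma fA_divisor (x t c0 : ℂ) (L : List (Ins X)) : fA X x t c0 ((hcls X, 0) :: L) =
    lowerSum X (hmul X) (fA X x t c0) L := by
  have h := lowerSum_prod (X := X) (hmul X)
    (fun k => Ef (bs x t c0) (k : Multiset ℕ)) (vA X) (fun _ => 0) vA_hmul L
  unfold fA
  rw [h, mul_zero]
  have : vA X (((hcls X, 0) :: L).map Prod.fst) = 0 := by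
    unfold vA
    rw [List.map_cons, fil_cons _ hcls_ne]
    simp
  rw [this, mul_zero]

lemma fB_divisor (L : List (Ins X)) : fB X ((hcls X, 0) :: L) =
    lowerSum X (hmul X) (fB X) L + emptyTerm X 1 L := by
  have h := lowerSum_prod (X := X) (hmul X) (Nz 1) (vB X) (vA X) vB_hmul L
  unfold fB
  rw [h]
  have h1 : vB X (((hcls X, 0) :: L).map Prod.fst) = vA X (L.map Prod.fst) := by
    unfold vB vA
    rw [List.map_cons, fil_cons _ hcls_ne]
    simp
  rw [h1, List.map_cons, Nz_string]
  cases L with
  | nil => simp [emptyTerm, vA, fil]
  | cons y L => simp [emptyTerm]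

lemma fI_divisor (L : List (Ins X)) : fI X ((hcls X, 0) :: L) =
    lowerSum X (hmul X) (fI X) L +
      pairTerm X (fun a b => ∑ c, hmul X a c * pairing X c b) L := by
  have h := lowerSum_prod (X := X) (hmul X) (Nz 3) (integral X)
    (fun k => integral X (hcls X :: k)) (fun P a S => integral_hmul P S a) L
  unfold fI
  rw [h, List.map_cons, List.map_cons, Nz_string, add_mul]
  congr 1
  match L with
  | [] => simp [pairTerm]
  | [x] => simp [pairTerm]
  | [(a, m), (b, n)] =>
    cases m with
    | zero =>
      cases n with
      | zero =>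
        have h1 := integral_hmul (X := X) [] [b] a
        simp only [List.nil_append] at h1
        simp only [List.map_cons, List.map_nil, pairTerm]
        rw [← h1]
        simp [integral_pair]
      | succ n => simp [pairTerm]
    | succ m => simp [pairTerm]
  | x :: y :: z :: L => simp [pairTerm]

/-! Topological recursion in degree zero -/

/-- Unsigned shuffle product on lists of exponents. -/
noncomputable def shN (u v : List ℕ → ℂ) (l : List ℕ) : ℂ :=
  sh pt.ip (LinearMap.mul ℂ ℂ) (l.map fun m => ((), m)) (fun M => u (M.map Prod.snd))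
    (fun M => v (M.map Prod.snd))

lemma shN_nil (u v : List ℕ → ℂ) : shN u v [] = u [] * v [] := by
  simp [shN, sh_nil]

lemma shN_cons (u v : List ℕ → ℂ) (m : ℕ) (l : List ℕ) : shN u v (m :: l) =
    shN (fun k => u (m :: k)) v l + shN u (fun k => v (m :: k)) l := by
  unfold shN
  rw [List.map_cons, sh_cons]
  congr 1
  congr 1
  funext M
  have h1 : lsg ℂ pt.ip (pt.ip ((), m)) M = 1 := by
    have : pt.ip ((), m) = false := rfl
    rw [this, lsg_false]
  rw [h1, one_smul]

lemma sg_sq' (a b : Bool) : sg ℂ a b * sg ℂ b a = 1 := by
  rw [sg_comm b a, sg_mul_self]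

lemma csg_mul_self (a : Bool) (L : List (Ix X)) : csg a L * csg a L = 1 := by
  induction L with
  | nil => simp [csg]
  | cons x L ih =>
    rw [csg_cons]
    have := sg_mul_self (K := ℂ) a (par X x)
    linear_combination (csg a L * csg a L) * this + ih

lemma lsg_csg (a : Bool) (L : List (Ins X)) : lsg ℂ (coh X).ip a L = csg a (L.map Prod.fst) := by
  induction L with
  | nil => simp [csg]
  | cons x L ih =>
    rw [lsg_cons, ih, List.map_cons, csg_cons]
    rfl

lemma etai_par' (a b : Ix X) (h : pairingInv X a b ≠ 0) : par X a = par X b :=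
  (coh X).etai_par a b h

lemma shuffle_split (L : List (Ins X)) : ∀ (u v : List ℕ → ℂ) (S T : List (Ix X)),
    ∑ α, ∑ β, pairingInv X α β * sh (coh X).ip (LinearMap.mul ℂ ℂ) L
      (fun M => u (M.map Prod.snd) * integral X (β :: (S ++ M.map Prod.fst)))
      (fun M => v (M.map Prod.snd) * integral X (T ++ α :: M.map Prod.fst)) =
    shN u v (L.map Prod.snd) * integral X (T ++ (S ++ L.map Prod.fst)) := by
  induction L with
  | nil =>
    intro u v S T
    simp only [sh_nil, List.map_nil, List.append_nil, LinearMap.mul_apply', shN_nil]
    rw [← glue S T, Finset.mul_sum]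
    refine Finset.sum_congr rfl fun α _ => ?_
    rw [Finset.mul_sum]
    refine Finset.sum_congr rfl fun β _ => ?_
    ring
  | cons x L ih =>
    intro u v S T
    obtain ⟨c, k⟩ := x
    simp only [sh_cons, mul_add, Finset.sum_add_distrib, List.map_cons, shN_cons, add_mul]
    congr 1
    · have h1 := ih (fun l => u (k :: l)) v (S ++ [c]) T
      simp only [List.append_assoc, List.singleton_append] at h1
      exact h1
    · have h1 := ih u (fun l => v (k :: l)) S (T ++ [c])
      have h2 : shN u (fun l => v (k :: l)) (L.map Prod.snd) *
          integral X (T ++ (S ++ c :: L.map Prod.fst)) =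
          csg (par X c) S * (shN u (fun l => v (k :: l)) (L.map Prod.snd) *
          integral X ((T ++ [c]) ++ (S ++ L.map Prod.fst))) := by
        have h3 := integral_move T S (L.map Prod.fst) c
        have h4 : (T ++ [c]) ++ (S ++ L.map Prod.fst) = T ++ c :: (S ++ L.map Prod.fst) := by simp
        rw [h4, h3]
        have h5 := csg_mul_self (par X c) S
        linear_combination (-(shN u (fun l => v (k :: l)) (L.map Prod.snd) *
          integral X (T ++ (S ++ c :: L.map Prod.fst)))) * h5
      rw [h2, ← h1, Finset.mul_sum]
      refine Finset.sum_congr rfl fun α _ => ?_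
      rw [Finset.mul_sum]
      refine Finset.sum_congr rfl fun β _ => ?_
      by_cases he : pairingInv X α β = 0
      · rw [he]; ring
      · have hp := etai_par' α β he
        have e1 : (fun M : List (Ins X) => lsg ℂ (coh X).ip ((coh X).ip (c, k)) M •
            (u (M.map Prod.snd) * integral X (β :: (S ++ M.map Prod.fst)))) =
            fun M => (sg ℂ (par X c) (par X β) * csg (par X c) S) •
              (u (M.map Prod.snd) * integral X (β :: (S ++ M.map Prod.fst))) := by
          funext M
          have h6 : (coh X).ip (c, k) = par X c := rfl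
          rw [h6, lsg_csg, smul_eq_mul, smul_eq_mul]
          have h7 := integral_even (par X c) (β :: (S ++ M.map Prod.fst))
          rw [csg_cons, csg_append] at h7
          have h8 := sg_mul_self (K := ℂ) (par X c) (par X β)
          have h9 := csg_mul_self (par X c) S
          have h10 := csg_mul_self (par X c) (M.map Prod.fst)
          have h11 : csg (par X c) (M.map Prod.fst) *
              integral X (β :: (S ++ M.map Prod.fst)) =
              (sg ℂ (par X c) (par X β) * csg (par X c) S) *
              integral X (β :: (S ++ M.map Prod.fst)) := by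
            conv_lhs => rw [← h7]
            linear_combination (sg ℂ (par X c) (par X β) * csg (par X c) S *
              integral X (β :: (S ++ M.map Prod.fst))) * h10
          linear_combination (u (M.map Prod.snd)) * h11
        have e2 : (fun M : List (Ins X) => v (k :: M.map Prod.snd) *
            integral X (T ++ α :: c :: M.map Prod.fst)) =
            fun M => sg ℂ (par X c) (par X β) • (v (k :: M.map Prod.snd) *
              integral X ((T ++ [c]) ++ α :: M.map Prod.fst)) := by
          funext M
          rw [integral_swap, hp, sg_comm]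
          have : (T ++ [c]) ++ α :: M.map Prod.fst = T ++ c :: α :: M.map Prod.fst := by simp
          rw [this, smul_eq_mul]
          ring
        rw [e1, e2, sh_smul_left, sh_smul_right, smul_eq_mul, smul_eq_mul]
        have h8 := sg_mul_self (K := ℂ) (par X c) (par X β)
        linear_combination (pairingInv X α β * csg (par X c) S *
          sh (coh X).ip (LinearMap.mul ℂ ℂ) L
          (fun M => u (M.map Prod.snd) * integral X (β :: (S ++ M.map Prod.fst)))
          (fun M => v (k :: M.map Prod.snd) *
            integral X ((T ++ [c]) ++ α :: M.map Prod.fst))) * h8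

lemma Nz_trr (m x y : ℕ) (l : List ℕ) : Nz 3 ((m + 1) :: x :: y :: l) =
    shN (fun k => Nz 3 (0 :: x :: y :: k)) (fun k => Nz 3 (m :: 0 :: k)) l := by
  have h := Wd_zero (m + x + y) m x y rfl (l.map fun m => ((), m))
  unfold Wd at h
  have h2 : (Np (((), m + 1) :: ((), x) :: ((), y) :: l.map fun m => ((), m))) =
      Nz 3 ((m + 1) :: x :: y :: l) := by
    unfold Np
    simp only [List.map_cons, List.map_map]
    congr 4
    exact List.map_id' l
  rw [h2] at h
  unfold shN
  exact sub_eq_zero.mp h

lemma fI_trr (a : Ix X) (m : ℕ) (x y : Ins X) (L : List (Ins X)) :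
    fI X ((a, m + 1) :: x :: y :: L) = ∑ α, ∑ β, pairingInv X α β *
      shuffle X L (fun M => fI X ((β, 0) :: x :: y :: M))
        (fun M => fI X ((a, m) :: (α, 0) :: M)) := by
  have h := shuffle_split L (fun k => Nz 3 (0 :: x.2 :: y.2 :: k)) (fun k => Nz 3 (m :: 0 :: k))
    [x.1, y.1] [a]
  simp only [shuffle_eq]
  rw [← Nz_trr] at h
  unfold fI
  simp only [List.map_cons]
  exact h.symm

end Vale.Agent.P269.H597
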