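import Vale.Agent.P269.H597.Graded

/-!
# The Virasoro coefficients by genus and degree
-/

set_option linter.unusedSectionVars false

namespace Vale.Agent.P269.H597

open PowerSeries (C coeff)
open Finset.HasAntidiagonal (antidiagonal)

variable {K : Type*} [CommRing K] {ι : Type*} [Fintype ι] [DecidableEq ι]

instance powerSeries_charZero [CharZero K] : CharZero (PowerSeries K) :=
  charZero_of_injective_ringHom (f := (C : K →+* PowerSeries K)) PowerSeries.C_injective

namespace Coh

variable (D : Coh K ι) (F : ℕ → ℕ → List (ι × ℕ) → K)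

/-- The coefficient of `ħ^{g-1} Q^d` (times the monomial of `L`) in `Z⁻¹ L_k Z`, `k ≥ 0`. -/
noncomputable def vir (k g d : ℕ) (L : List (ι × ℕ)) : K :=
  D.lin k (F g d) L +
    D.half * (∑ x ∈ antidiagonal g, ∑ y ∈ antidiagonal d, D.quad2 k (F x.1 y.1) (F x.2 y.2) L +
      (if g = 0 then 0 else D.loop (F (g - 1) d) k L)) +
    (if g = 0 ∧ d = 0 then qform (fun a b => ∑ c, D.Rp (k + 1) a c * D.eta c b) L else 0) +
    (if k = 0 ∧ g = 1 ∧ d = 0 then D.kap * cst 1 L else 0)

/-- Symmetry, parity and the string equation for a system of correlators. -/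
structure StringG : Prop where
  symm : ∀ g d, SymF (K := K) D.ip (F g d)
  even : ∀ g d (a : Bool) (L : List (ι × ℕ)), lsg K D.ip a L * F g d L = F g d L
  string : ∀ g d L, F g d ((D.one, 0) :: L) =
    rep (fun i => low (Finsupp.single i (1 : K))) (F g d) L +
      (if g = 0 ∧ d = 0 then qform D.eta L else 0)

/-- The total potential. -/
noncomputable def hat (L : List (ι × ℕ)) : PowerSeries (PowerSeries K) :=
  PowerSeries.mk fun g => PowerSeries.mk fun d => F g d L

variable {F}

lemma coeff_hat (g d : ℕ) (L : List (ι × ℕ)) : coeff d (coeff g (hat F L)) = F g d L := by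
  simp [hat]

/-- The double base change. -/
noncomputable def DD : Coh (PowerSeries (PowerSeries K)) ι :=
  (D.map (C : K →+* PowerSeries K)).map (C : PowerSeries K →+* PowerSeries (PowerSeries K))

lemma SymF_hat (h : ∀ g d, SymF (K := K) D.ip (F g d)) :
    SymF (K := PowerSeries (PowerSeries K)) (D.DD).ip (hat F) := by
  intro L M i j
  ext g d
  rw [coeff_hat, h g d L M i j, smul_eq_mul, smul_eq_mul, ← map_sg (C : PowerSeries K →+* _),
    ← map_sg (C : K →+* PowerSeries K), PowerSeries.coeff_C_mul, PowerSeries.coeff_C_mul,
    coeff_hat]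
  rfl

lemma coeff_rep_low (g : ℕ) (G : List (ι × ℕ) → PowerSeries K) (L : List (ι × ℕ)) :
    coeff g (rep (fun i => low (Finsupp.single i (1 : PowerSeries K))) G L) =
      rep (fun i => low (Finsupp.single i (1 : K))) (fun M => coeff g (G M)) L := by
  induction L generalizing G with
  | nil => simp [rep]
  | cons i L ih =>
    simp only [rep, map_add, ih]
    congr 1
    obtain ⟨a, m⟩ := i
    rw [low_single, low_single]
    split
    · simp
    · simp

lemma coeff_qform' (n : ℕ) (N : ι → ι → PowerSeries K) (N' : ι → ι → K)
    (h : ∀ a b, N a b = C (N' a b)) (L : List (ι × ℕ)) :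
    coeff n (qform N L) = if n = 0 then qform N' L else 0 := by
  have : N = fun a b => C (N' a b) := by
    funext a b; exact h a b
  rw [this, coeff_qform]

/-- The coefficients of the total Virasoro expression. -/
lemma coeff_virk (hF : ∀ g d, SymF (K := K) D.ip (F g d)) (k g d : ℕ) (L : List (ι × ℕ)) :
    coeff d (coeff g ((D.DD).virk (hat F) PowerSeries.X k L)) = D.vir F k g d L := by
  rw [virk_eq (D.DD) (D.SymF_hat hF)]
  unfold vir
  rw [map_add, map_add, map_add, map_add, map_add, map_add]
  congr 1
  · congr 1
    · congr 1
      · -- linear part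
        have h1 := coeff_lin (D.map (C : K →+* PowerSeries K)) g k (hat F) L
        have h2 : (D.DD).lin k (hat F) L =
          ((D.map (C : K →+* PowerSeries K)).map C).lin k (hat F) L := rfl
        rw [h2, h1, coeff_lin]
        simp only [coeff_hat]
      · have h1 : (D.DD).half = C (C D.half) := rfl
        rw [h1, PowerSeries.coeff_C_mul, PowerSeries.coeff_C_mul]
        congr 1
        rw [map_add, map_add]
        congr 1
        · have h2 := coeff_quad2 (D.map (C : K →+* PowerSeries K)) g k (hat F) (hat F) L
          have h3 : (D.DD).quad2 k (hat F) (hat F) L =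
            ((D.map (C : K →+* PowerSeries K)).map C).quad2 k (hat F) (hat F) L := rfl
          rw [h3, h2, map_sum]
          refine Finset.sum_congr rfl fun x _ => ?_
          rw [coeff_quad2]
          simp only [coeff_hat]
        · cases g with
          | zero => simp
          | succ g =>
            rw [PowerSeries.coeff_succ_X_mul, if_neg (Nat.succ_ne_zero g), Nat.add_sub_cancel]
            have h2 := coeff_loop (D.map (C : K →+* PowerSeries K)) g k (hat F) L
            have h3 : (D.DD).loop (hat F) k L =
              ((D.map (C : K →+* PowerSeries K)).map C).loop (hat F) k L := rfl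
            rw [h3, h2, coeff_loop]
            simp only [coeff_hat]
    · have h1 := coeff_qform' g (fun a b => ∑ c, (D.DD).Rp (k + 1) a c * (D.DD).eta c b)
        (fun a b => ∑ c, (D.map (C : K →+* PowerSeries K)).Rp (k + 1) a c *
          (D.map (C : K →+* PowerSeries K)).eta c b) (fun a b => by
            exact map_Reta (D.map (C : K →+* PowerSeries K)) C (k + 1) a b) L
      rw [h1]
      have h2 := coeff_qform' d (fun a b => ∑ c, (D.map (C : K →+* PowerSeries K)).Rp (k + 1) a c *
          (D.map (C : K →+* PowerSeries K)).eta c b)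
        (fun a b => ∑ c, D.Rp (k + 1) a c * D.eta c b) (fun a b => by
            exact map_Reta D C (k + 1) a b) L
      by_cases hg : g = 0
      · rw [if_pos hg, h2]
        simp [hg]
      · rw [if_neg hg, if_neg (fun h => hg h.1), map_zero]
  · by_cases hk : k = 0
    · simp only [hk, if_true, true_and]
      have h1 : (D.DD).kap = C (C D.kap) := by
        unfold DD
        rw [map_kap, map_kap]
      have h2 : ∀ L : List (ι × ℕ), (cst (1 : PowerSeries (PowerSeries K)) L) =
          C (C (cst (1 : K) L)) := by
        intro L
        cases L <;> simp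
      rw [h1, h2, mul_assoc, ← map_mul, ← map_mul]
      cases g with
      | zero => simp
      | succ g =>
        rw [PowerSeries.coeff_succ_X_mul]
        cases g with
        | zero =>
          rw [PowerSeries.coeff_zero_C, PowerSeries.coeff_C]
          simp
        | succ g =>
          rw [PowerSeries.coeff_C, if_neg (Nat.succ_ne_zero g), map_zero, if_neg]
          rintro ⟨h, -⟩
          omega
    · simp [hk]

variable {D}

lemma StringG.hat (hF : D.StringG F) : (D.DD).StringSys (hat F) where
  symm := D.SymF_hat hF.symm
  even := by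
    intro a L
    ext g d
    rw [← map_lsg (C : PowerSeries K →+* _), ← map_lsg (C : K →+* PowerSeries K),
      PowerSeries.coeff_C_mul, PowerSeries.coeff_C_mul, coeff_hat]
    exact hF.even g d a L
  string := by
    intro L
    ext g d
    rw [map_add, map_add, coeff_rep_low, coeff_rep_low]
    have h1 : (D.DD).one = D.one := rfl
    rw [h1, coeff_hat, hF.string]
    simp only [coeff_hat]
    congr 1
    have h2 := coeff_qform' g (D.DD).eta (D.map (C : K →+* PowerSeries K)).eta
      (fun a b => rfl) L
    have h3 := coeff_qform' d (D.map (C : K →+* PowerSeries K)).eta D.eta (fun a b => rfl) L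
    rw [h2]
    by_cases hg : g = 0
    · rw [if_pos hg, h3]
      simp [hg]
    · rw [if_neg hg, if_neg (fun h => hg h.1), map_zero]

lemma del_rep (C' : List (ι × ℕ) → K) (hC : SymF (K := K) D.ip C') (L : List (ι × ℕ)) :
    D.del C' L = rep (fun i => low (Finsupp.single i (1 : K))) C' L - C' ((D.one, 0) :: L) := by
  unfold del
  rw [act_tau D.ip (D.one, 1) ip_one D.evenOp_low C' hC, low_single_succ, ev_single, one_smul]

lemma SymF_vir (hF : ∀ g d, SymF (K := K) D.ip (F g d)) (k g d : ℕ) :
    SymF (K := K) D.ip (D.vir F k g d) := by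
  intro L M i j
  have h := SymF_virk (D := D.DD) (D.SymF_hat hF) PowerSeries.X k L M i j
  have h2 := congrArg (fun z => coeff d (coeff g z)) h
  rw [coeff_virk D hF, smul_eq_mul, ← map_sg (C : PowerSeries K →+* _),
    ← map_sg (C : K →+* PowerSeries K), PowerSeries.coeff_C_mul, PowerSeries.coeff_C_mul,
    coeff_virk D hF] at h2
  exact h2

/-- The recursion of the Virasoro coefficients under the string equation. -/
theorem vir_string [CharZero K] (hF : D.StringG F) (k g d : ℕ) (L : List (ι × ℕ)) :
    D.vir F (k + 1) g d ((D.one, 0) :: L) =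
      rep (fun i => low (Finsupp.single i (1 : K))) (D.vir F (k + 1) g d) L +
        ((k : K) + 2) * D.vir F k g d L := by
  have h := del_virk hF.hat (PowerSeries.X) k L
  rw [del_rep _ (SymF_virk (D.SymF_hat hF.symm) _ _)] at h
  have h2 := congrArg (fun z => coeff d (coeff g z)) h
  simp only [map_sub, map_neg] at h2
  rw [coeff_rep_low, coeff_rep_low] at h2
  simp only [coeff_virk D hF.symm] at h2
  have h3 : ((k : PowerSeries (PowerSeries K)) + 2) = C (C ((k : K) + 2)) := by
    rw [map_add, map_add, map_natCast, map_natCast, map_ofNat, map_ofNat]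
  have h4 : (D.DD).one = D.one := rfl
  rw [h4] at h2
  rw [h3, PowerSeries.coeff_C_mul, PowerSeries.coeff_C_mul, coeff_virk D hF.symm] at h2
  linear_combination -h2

end Coh

end Vale.Agent.P269.H597
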