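import Vale.Agent.P269.H597.VectorField

/-!
# The genus-zero theory: string, dilaton, topological recursion and the grading equation
-/

set_option linter.unusedSectionVars false

namespace Vale.Agent.P269.H597

variable {K : Type*} [CommRing K] {ι : Type*} [Fintype ι] [DecidableEq ι]

/-- Cohomological data over the coefficient ring `K`. -/
structure Coh (K : Type*) [CommRing K] (ι : Type*) [Fintype ι] [DecidableEq ι] where
  half : K
  two_half : 2 * half = 1
  par : ι → Bool
  one : ι
  mu : ι → K
  R : ι → ι → K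
  eta : ι → ι → K
  etai : ι → ι → K
  par_one : par one = false
  eta_par : ∀ a b, eta a b ≠ 0 → par a = par b
  R_par : ∀ a b, R a b ≠ 0 → par a = par b
  eta_symm : ∀ a b, eta a b = sg K (par a) (par b) * eta b a
  eta_inv : ∀ a c, ∑ b, eta a b * etai b c = if a = c then 1 else 0
  etai_par : ∀ a b, etai a b ≠ 0 → par a = par b
  etai_mu : ∀ a b, etai a b ≠ 0 → mu a + mu b = 0
  R_mu : ∀ a b, R a b ≠ 0 → mu b = mu a + 1
  eta_mu : ∀ a b, eta a b ≠ 0 → mu a + mu b = 0
  R_symm : ∀ a b, ∑ c, R a c * eta c b = ∑ c, eta a c * R b c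

namespace Coh

variable (D : Coh K ι)

/-- Parity of an insertion. -/
def ip (i : ι × ℕ) : Bool := D.par i.1

/-- The sign `(-1)^{|a|}`. -/
def sn (a : ι) : K := sg K (D.par a) (D.par a)

lemma sn_mul_self (a : ι) : D.sn a * D.sn a = 1 := by
  unfold sn; exact sg_mul_self _ _

lemma eta_inv' (a c : ι) : ∑ b, D.etai a b * D.eta b c = if a = c then 1 else 0 := by
  have h1 : (Matrix.of D.eta) * (Matrix.of D.etai) = 1 := by
    ext a c
    rw [Matrix.mul_apply, Matrix.one_apply]
    exact D.eta_inv a c
  have h2 := mul_eq_one_comm.mp h1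
  have h3 := congrFun (congrFun h2 a) c
  rw [Matrix.mul_apply, Matrix.one_apply] at h3
  exact h3

lemma eta_symm' (a b : ι) : D.eta a b = D.sn a * D.eta b a := by
  by_cases h : D.eta b a = 0
  · rw [D.eta_symm a b, h]; simp
  · have := D.eta_par b a h
    rw [D.eta_symm a b, sn, this]

lemma etai_symm (a b : ι) : D.etai a b = D.sn a * D.etai b a := by
  -- the inverse of the (super)symmetric matrix is (super)symmetric
  have h1 : ∀ a c, ∑ b, (D.sn a * D.etai b a) * D.eta b c = if a = c then 1 else 0 := by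
    intro a c
    have h := D.eta_inv c a
    have h2 : ∑ b, (D.sn a * D.etai b a) * D.eta b c =
        D.sn a * D.sn c * ∑ b, D.eta c b * D.etai b a := by
      rw [Finset.mul_sum]
      refine Finset.sum_congr rfl fun b _ => ?_
      have h3 : D.eta b c = D.sn c * D.eta c b := by
        have := D.eta_symm' c b
        rw [this, ← mul_assoc, D.sn_mul_self, one_mul]
      rw [h3]; ring
    rw [h2, h]
    by_cases hac : a = c
    · subst hac
      simp [D.sn_mul_self]
    · rw [if_neg (Ne.symm hac), if_neg hac, mul_zero]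
  have h4 : (Matrix.of fun a b => D.sn a * D.etai b a) * (Matrix.of D.eta) = 1 := by
    ext a c
    rw [Matrix.mul_apply, Matrix.one_apply]
    exact h1 a c
  have h5 : (Matrix.of D.eta) * (Matrix.of D.etai) = 1 := by
    ext a c
    rw [Matrix.mul_apply, Matrix.one_apply]
    exact D.eta_inv a c
  have h6 := left_inv_eq_right_inv h4 h5
  have h7 := congrFun (congrFun h6 a) b
  simp only [Matrix.of_apply] at h7
  exact h7.symm

/-- `∑_b η_{a' b} η^{a b} (-1)^{|a|} = δ`. -/
lemma eta_etai (a a' : ι) : ∑ b, D.eta a' b * (D.etai a b * D.sn a) =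
    if a = a' then 1 else 0 := by
  have h : ∀ b, D.eta a' b * (D.etai a b * D.sn a) = D.eta a' b * D.etai b a := by
    intro b
    rw [D.etai_symm a b]
    have := D.sn_mul_self a
    linear_combination (D.eta a' b * D.etai b a) * this
  simp only [h]
  rw [D.eta_inv]
  simp [eq_comm]

/-- `∑_a η^{a b} (-1)^{|a|} η_{a c} = δ`. -/
lemma etai_eta (b c : ι) : ∑ a, (D.etai a b * D.sn a) * D.eta a c =
    if b = c then 1 else 0 := by
  have h : ∀ a, (D.etai a b * D.sn a) * D.eta a c = D.etai b a * D.eta a c := by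
    intro a
    rw [D.etai_symm a b]
    have := D.sn_mul_self a
    linear_combination (D.etai b a * D.eta a c) * this
  simp only [h]
  rw [D.eta_inv']

/-- Multiplication by `z` on `H[z]`. -/
noncomputable def zop : (ι × ℕ →₀ K) →ₗ[K] (ι × ℕ →₀ K) :=
  Finsupp.lsum K fun i => LinearMap.toSpanSingleton K _ (Finsupp.single (i.1, i.2 + 1) 1)

@[simp] lemma zop_single (i : ι × ℕ) (k : K) :
    zop (Finsupp.single i k) = Finsupp.single (i.1, i.2 + 1) k := by
  simp [zop]

/-- Division by `z` on `H[z]` (the polynomial part). -/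
noncomputable def low : (ι × ℕ →₀ K) →ₗ[K] (ι × ℕ →₀ K) :=
  Finsupp.lsum K fun i => LinearMap.toSpanSingleton K _
    (match i with
      | (_, 0) => 0
      | (a, m + 1) => Finsupp.single (a, m) 1)

@[simp] lemma low_single_zero (a : ι) (k : K) :
    low (Finsupp.single (a, 0) k) = 0 := by
  simp [low]

@[simp] lemma low_single_succ (a : ι) (m : ℕ) (k : K) :
    low (Finsupp.single (a, m + 1) k) = Finsupp.single (a, m) k := by
  simp [low]

/-- The polynomial part of `l_0 = z d/dz + 1/2 + μ + R/z` on `H[z]`. -/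
noncomputable def A0 : (ι × ℕ →₀ K) →ₗ[K] (ι × ℕ →₀ K) :=
  Finsupp.lsum K fun i => LinearMap.toSpanSingleton K _
    (Finsupp.single i ((i.2 : K) + D.half + D.mu i.1) +
      ∑ b, D.R i.1 b • low (Finsupp.single (b, i.2) 1))

lemma A0_single (a : ι) (m : ℕ) : D.A0 (Finsupp.single (a, m) 1) =
    Finsupp.single (a, m) ((m : K) + D.half + D.mu a) +
      ∑ b, D.R a b • low (Finsupp.single (b, m) 1) := by
  simp [A0]

lemma evenOp_zop : EvenOp (K := K) D.ip zop := by
  intro a b v
  refine finsupp_lin_ext (f := S D.ip a b ∘ₗ zop) (g := zop ∘ₗ S D.ip a b) (fun i => ?_) v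
  simp only [LinearMap.comp_apply, zop_single, S_single]
  rfl

lemma evenOp_low : EvenOp (K := K) D.ip low := by
  intro a b v
  refine finsupp_lin_ext (f := S D.ip a b ∘ₗ low) (g := low ∘ₗ S D.ip a b) (fun i => ?_) v
  obtain ⟨x, m⟩ := i
  cases m with
  | zero => simp only [LinearMap.comp_apply, low_single_zero, S_single, map_zero]
  | succ m =>
    simp only [LinearMap.comp_apply, low_single_succ, S_single]
    rfl

lemma evenOp_id (par : ι × ℕ → Bool) : EvenOp (K := K) par LinearMap.id := by
  intro a b v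
  rfl

lemma evenOp_A0 : EvenOp D.ip D.A0 := by
  intro a b v
  refine finsupp_lin_ext (f := S D.ip a b ∘ₗ D.A0) (g := D.A0 ∘ₗ S D.ip a b) (fun i => ?_) v
  obtain ⟨x, m⟩ := i
  simp only [LinearMap.comp_apply, S_single, mul_one]
  have h0 : (Finsupp.single (x, m) (sg K a (xor (D.ip (x, m)) b)) : ι × ℕ →₀ K) =
      sg K a (xor (D.ip (x, m)) b) • Finsupp.single (x, m) 1 := by simp
  rw [h0, map_smul, A0_single, map_add, S_single, smul_add, map_sum, Finset.smul_sum]
  congr 1
  · simp only [Finsupp.smul_single, smul_eq_mul]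
  · refine Finset.sum_congr rfl fun c _ => ?_
    by_cases hR : D.R x c = 0
    · simp [hR]
    · have hp := D.R_par x c hR
      rw [map_smul, D.evenOp_low, S_single, smul_comm]
      congr 1
      have : (Finsupp.single (c, m) (sg K a (xor (D.ip (c, m)) b) * 1) : ι × ℕ →₀ K) =
        sg K a (xor (D.ip (x, m)) b) • Finsupp.single (c, m) 1 := by
        simp [ip, hp]
      rw [this, map_smul]

/-- The coefficient function of the quadratic form `(t_0, t_0)/2`. -/
def qform (M : ι → ι → K) : List (ι × ℕ) → K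
  | [(a, 0), (b, 0)] => M a b
  | _ => 0

/-- The series `u^β = ∑_α η^{αβ} (-1)^{|α|} ∂_{α,0} F`. -/
noncomputable def u (F : List (ι × ℕ) → K) (β : ι) (M : List (ι × ℕ)) : K :=
  ∑ α, D.etai α β * D.sn α * F ((α, 0) :: M)

/-- A genus-zero potential: (super)symmetric and even, satisfying the string and dilaton
equations, the genus-zero topological recursion relations, and the `L_0`-constraint. -/
structure Genus0 (F : List (ι × ℕ) → K) : Prop where
  symm : SymF (K := K) D.ip F
  even : ∀ (a : Bool) (L : List (ι × ℕ)), lsg K D.ip a L * F L = F L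
  string : ∀ L, F ((D.one, 0) :: L) = rep (fun i => low (Finsupp.single i (1 : K))) F L +
    qform D.eta L
  dilaton : ∀ L, F ((D.one, 1) :: L) = ((L.length : K) - 2) * F L
  trr : ∀ (a : ι) (m : ℕ) (i j : ι × ℕ) (L : List (ι × ℕ)),
    F ((a, m + 1) :: i :: j :: L) = ∑ α, ∑ β, D.etai α β *
      sh D.ip (LinearMap.mul K K) L (fun M => F ((β, 0) :: i :: j :: M))
        (fun M => F ((a, m) :: (α, 0) :: M))
  grading : ∀ L, rep (fun i => D.A0 (Finsupp.single i 1)) F L -
    ev K (ι × ℕ) K (D.A0 (Finsupp.single (D.one, 1) 1)) (fun j => F (j :: L)) +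
    qform (fun a b => ∑ c, D.R a c * D.eta c b) L = 0

variable {D} {F : List (ι × ℕ) → K}

lemma Genus0.symm2 (hF : D.Genus0 F) (i j : ι × ℕ) (M : List (ι × ℕ)) :
    F (i :: j :: M) = sg K (D.ip i) (D.ip j) * F (j :: i :: M) := hF.symm [] M i j

lemma Genus0.symm3 (hF : D.Genus0 F) (i j k : ι × ℕ) (M : List (ι × ℕ)) :
    F (i :: j :: k :: M) = sg K (D.ip j) (D.ip k) * F (i :: k :: j :: M) := hF.symm [i] M j k

lemma Genus0.even1 (hF : D.Genus0 F) (a : Bool) (i : ι × ℕ) (M : List (ι × ℕ)) :
    lsg K D.ip a M * F (i :: M) = sg K a (D.ip i) * F (i :: M) := by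
  have h := hF.even a (i :: M)
  rw [lsg_cons] at h
  have h2 := sg_mul_self (K := K) a (D.ip i)
  linear_combination (sg K a (D.ip i)) * h - (lsg K D.ip a M * F (i :: M)) * h2

lemma Genus0.even2 (hF : D.Genus0 F) (a : Bool) (i j : ι × ℕ) (M : List (ι × ℕ)) :
    lsg K D.ip a M * F (i :: j :: M) = sg K a (D.ip i) * sg K a (D.ip j) *
      F (i :: j :: M) := by
  have h := hF.even1 a i (j :: M)
  rw [lsg_cons] at h
  have h2 := sg_mul_self (K := K) a (D.ip j)
  linear_combination (sg K a (D.ip j)) * h - (lsg K D.ip a M * F (i :: j :: M)) * h2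

lemma Genus0.even3 (hF : D.Genus0 F) (a : Bool) (i j k : ι × ℕ) (M : List (ι × ℕ)) :
    lsg K D.ip a M * F (i :: j :: k :: M) = sg K a (D.ip i) * sg K a (D.ip j) *
      sg K a (D.ip k) * F (i :: j :: k :: M) := by
  have h := hF.even2 a i j (k :: M)
  rw [lsg_cons] at h
  have h2 := sg_mul_self (K := K) a (D.ip k)
  linear_combination (sg K a (D.ip k)) * h - (lsg K D.ip a M * F (i :: j :: k :: M)) * h2

end Coh

/-- Commutativity of the scalar product with a parity-homogeneous factor. -/
lemma sh_mul_comm {I : Type*} (par : I → Bool) (p : Bool) (L : List I) (C E : List I → K)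
    (hE : ∀ (b : Bool) (M : List I), lsg K par b M * E M = sg K b p * E M) :
    sh par (LinearMap.mul K K) L C E =
      sh par (LinearMap.mul K K) L E (fun M => lsg K par p M * C M) := by
  induction L generalizing p C E with
  | nil => simp [sh_nil, mul_comm]
  | cons j L ih =>
    rw [sh_cons, sh_cons]
    have hE' : ∀ (b : Bool) (M : List I), lsg K par b M * E (j :: M) =
        sg K b (xor p (par j)) * E (j :: M) := by
      intro b M
      have h := hE b (j :: M)
      rw [lsg_cons] at h
      have h2 := sg_mul_self (K := K) b (par j)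
      rw [sg_xor_right]
      linear_combination (sg K b (par j)) * h - (lsg K par b M * E (j :: M)) * h2
    have e1 := ih p (fun M => C (j :: M)) E hE
    have e2 := ih (xor p (par j)) (fun M => lsg K par (par j) M • C M) (fun M => E (j :: M)) hE'
    rw [e1, e2, add_comm]
    congr 1
    · congr 1
      funext M
      simp only [smul_eq_mul]
      rw [← mul_assoc, ← lsg_xor]
      congr 2
      cases p <;> cases par j <;> rfl
    · have h3 : (fun M => lsg K par (par j) M • E M) = fun M => sg K (par j) p • E M := by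
        funext M
        simpa using hE (par j) M
      have h4 : (fun M => lsg K par p (j :: M) * C (j :: M)) =
          fun M => sg K (par j) p • (lsg K par p M * C (j :: M)) := by
        funext M
        rw [lsg_cons, sg_comm]
        simp only [smul_eq_mul]
        ring
      rw [h3, h4, sh_smul_left, sh_smul_right, ← mul_smul, sg_mul_self, one_smul]

namespace Coh

variable {D : Coh K ι} {F : List (ι × ℕ) → K}

/-- Topological recursion in the form used for vector fields. -/
lemma Genus0.trr' (hF : D.Genus0 F) (i j k : ι × ℕ) (L : List (ι × ℕ)) :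
    F (i :: j :: (k.1, k.2 + 1) :: L) = ∑ β, sh D.ip (LinearMap.mul K K) L
      (fun M => D.u F β (k :: M)) (fun M => F (i :: j :: (β, 0) :: M)) := by
  obtain ⟨a, m⟩ := k
  have h1 : F (i :: j :: (a, m + 1) :: L) = sg K (D.ip j) (D.par a) * (sg K (D.ip i) (D.par a) *
      F ((a, m + 1) :: i :: j :: L)) := by
    rw [hF.symm3 i j (a, m + 1) L, hF.symm2 i (a, m + 1) (j :: L)]
    rfl
  have h2 : ∀ β, sh D.ip (LinearMap.mul K K) L (fun M => D.u F β ((a, m) :: M))
      (fun M => F (i :: j :: (β, 0) :: M)) = ∑ α, D.etai α β * D.sn α *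
      sh D.ip (LinearMap.mul K K) L (fun M => F ((α, 0) :: (a, m) :: M))
        (fun M => F (i :: j :: (β, 0) :: M)) := by
    intro β
    unfold u
    rw [sh_sum_left]
    refine Finset.sum_congr rfl fun α _ => ?_
    have := sh_smul_left D.ip (LinearMap.mul K K) L (D.etai α β * D.sn α)
      (fun M => F ((α, 0) :: (a, m) :: M)) (fun M => F (i :: j :: (β, 0) :: M))
    simpa [smul_eq_mul] using this
  simp only [h2]
  rw [Finset.sum_comm, h1, hF.trr a m i j L, Finset.mul_sum, Finset.mul_sum]
  refine Finset.sum_congr rfl fun α _ => ?_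
  rw [Finset.mul_sum, Finset.mul_sum]
  refine Finset.sum_congr rfl fun β _ => ?_
  by_cases he : D.etai α β = 0
  · simp [he]
  have hp : D.par α = D.par β := D.etai_par α β he
  have hpar : ∀ (b : Bool) (M : List (ι × ℕ)), lsg K D.ip b M * F ((a, m) :: (α, 0) :: M) =
      sg K b (xor (D.par a) (D.par α)) * F ((a, m) :: (α, 0) :: M) := by
    intro b M
    rw [hF.even2, sg_xor_right]
    rfl
  have h3 := sh_mul_comm D.ip (xor (D.par a) (D.par α)) L
    (fun M => F ((β, 0) :: i :: j :: M)) (fun M => F ((a, m) :: (α, 0) :: M)) hpar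
  have h4 : (fun M => F ((a, m) :: (α, 0) :: M)) =
      fun M => sg K (D.par a) (D.par α) • F ((α, 0) :: (a, m) :: M) := by
    funext M
    exact hF.symm2 (a, m) (α, 0) M
  have h5 : (fun M => lsg K D.ip (xor (D.par a) (D.par α)) M * F ((β, 0) :: i :: j :: M)) =
      fun M => (sg K (xor (D.par a) (D.par α)) (D.par β) * sg K (xor (D.par a) (D.par α)) (D.ip i) *
        sg K (xor (D.par a) (D.par α)) (D.ip j) * sg K (D.par β) (D.ip i) *
        sg K (D.par β) (D.ip j)) • F (i :: j :: (β, 0) :: M) := by
    funext M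
    rw [hF.even3, hF.symm2 (β, 0) i, hF.symm3 i (β, 0) j]
    simp only [smul_eq_mul]
    change _ * _ * _ * (sg K (D.par β) (D.ip i) * (sg K (D.par β) (D.ip j) * _)) = _
    simp only [ip]
    ring
  rw [h3, h5, h4, sh_smul_left, sh_smul_right]
  simp only [smul_eq_mul]
  have key : ∀ x y p q : Bool, sg K y p * (sg K x p * (sg K p q * (sg K (xor p q) q *
      sg K (xor p q) x * sg K (xor p q) y * sg K q x * sg K q y))) = sg K q q := by
    intro x y p q
    cases x <;> cases y <;> cases p <;> cases q <;> simp [sg]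
  have k2 := key (D.ip i) (D.ip j) (D.par a) (D.par β)
  unfold sn
  rw [hp]
  rw [hp] at h3
  linear_combination (D.etai α β * sh D.ip (LinearMap.mul K K) L
    (fun M => F ((α, 0) :: (a, m) :: M)) (fun M => F (i :: j :: (β, 0) :: M))) * k2

lemma u_nil_eta (a b : ι) (m : ℕ) :
    ∑ β, D.u F β [(b, m)] * D.eta a β = F [(a, 0), (b, m)] := by
  have h1 : ∀ β, D.u F β [(b, m)] * D.eta a β =
      ∑ α, D.eta a β * (D.etai α β * D.sn α) * F [(α, 0), (b, m)] := by
    intro β
    unfold u
    rw [Finset.sum_mul]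
    refine Finset.sum_congr rfl fun α _ => ?_
    ring
  simp only [h1]
  rw [Finset.sum_comm]
  have h2 : ∀ α, ∑ β, D.eta a β * (D.etai α β * D.sn α) * F [(α, 0), (b, m)] =
      (if α = a then 1 else 0) * F [(α, 0), (b, m)] := by
    intro α
    rw [← Finset.sum_mul, D.eta_etai]
  simp only [h2]
  simp

/-- The two-point recursion, at the list `[]`, from the string equation. -/
lemma int_trr_nil (hF : D.Genus0 F) (hstep : ∀ (i : ι × ℕ) (a : ι) (n : ℕ) (C : ι × ℕ)
    (L : List (ι × ℕ)), F ((a, n) :: (i.1, i.2 + 1) :: C :: L) + F ((a, n + 1) :: i :: C :: L) =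
      ∑ β, sh D.ip (LinearMap.mul K K) (C :: L)
        (fun M => D.u F β (i :: M)) (fun M => F ((a, n) :: (β, 0) :: M)))
    (b a : ι) (n : ℕ) (m : ℕ) :
    F [(a, n), (b, m + 1)] + F [(a, n + 1), (b, m)] =
      ∑ β, D.u F β [(b, m)] * F [(a, n), (β, 0)] := by
  -- the string equation for three-point correlators
  have hS : ∀ x y : ι × ℕ, F [x, y, (D.one, 0)] =
      ev K (ι × ℕ) K (low (Finsupp.single x 1)) (fun j => F [j, y]) +
      ev K (ι × ℕ) K (low (Finsupp.single y 1)) (fun j => F [x, j]) + qform D.eta [x, y] := by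
    intro x y
    have h1 := hF.string [x, y]
    rw [hF.symm3 x y (D.one, 0) [], hF.symm2 x (D.one, 0) [y], h1]
    simp only [ip, D.par_one, sg_false_right, one_mul, rep, add_zero]
  have h0 : (Finsupp.single (a, n) (1 : K)) = Finsupp.single (a, n) 1 := rfl
  induction n generalizing m with
  | zero =>
    have h := hstep (b, m + 1) a 0 (D.one, 0) []
    simp only [sh_cons, sh_nil, LinearMap.mul_apply', lsg_nil, one_smul] at h
    have hu : ∀ β, D.u F β [(b, m + 1), (D.one, 0)] = D.u F β [(b, m)] := by
      intro β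
      unfold u
      refine Finset.sum_congr rfl fun α _ => ?_
      rw [hS]
      simp [qform]
    have hv : ∀ β, F [(a, 0), (β, 0), (D.one, 0)] = D.eta a β := by
      intro β
      rw [hS]
      simp [qform]
    have hw1 : F [(a, 0), (b, m + 1 + 1), (D.one, 0)] = F [(a, 0), (b, m + 1)] := by
      rw [hS]; simp [qform]
    have hw2 : F [(a, 0 + 1), (b, m + 1), (D.one, 0)] = F [(a, 0), (b, m + 1)] +
        F [(a, 1), (b, m)] := by
      rw [hS]; simp [qform]
    simp only [hu, hv, hw1, hw2, Finset.sum_add_distrib] at h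
    rw [u_nil_eta a b (m + 1)] at h
    rw [zero_add]
    linear_combination h
  | succ n ih =>
    have h := hstep (b, m + 1) a (n + 1) (D.one, 0) []
    simp only [sh_cons, sh_nil, LinearMap.mul_apply', lsg_nil, one_smul] at h
    have hu : ∀ β, D.u F β [(b, m + 1), (D.one, 0)] = D.u F β [(b, m)] := by
      intro β
      unfold u
      refine Finset.sum_congr rfl fun α _ => ?_
      rw [hS]
      simp [qform]
    have hv : ∀ β, F [(a, n + 1), (β, 0), (D.one, 0)] = F [(a, n), (β, 0)] := by
      intro β
      rw [hS]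
      simp [qform]
    have hw1 : F [(a, n + 1), (b, m + 1 + 1), (D.one, 0)] = F [(a, n), (b, m + 1 + 1)] +
        F [(a, n + 1), (b, m + 1)] := by
      rw [hS]; simp [qform]
    have hw2 : F [(a, n + 1 + 1), (b, m + 1), (D.one, 0)] = F [(a, n + 1), (b, m + 1)] +
        F [(a, n + 1 + 1), (b, m)] := by
      rw [hS]; simp [qform]
    simp only [hu, hv, hw1, hw2, Finset.sum_add_distrib] at h
    have h2 := ih (m + 1) rfl
    linear_combination h - h2

/-- The two-point topological recursion. -/
lemma Genus0.int_trr (hF : D.Genus0 F) (i : ι × ℕ) (a : ι) (n : ℕ) (L : List (ι × ℕ)) :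
    F ((a, n) :: (i.1, i.2 + 1) :: L) + F ((a, n + 1) :: i :: L) =
      ∑ β, sh D.ip (LinearMap.mul K K) L
        (fun M => D.u F β (i :: M)) (fun M => F ((a, n) :: (β, 0) :: M)) := by
  have hstep : ∀ (i : ι × ℕ) (a : ι) (n : ℕ) (C : ι × ℕ)
    (L : List (ι × ℕ)), F ((a, n) :: (i.1, i.2 + 1) :: C :: L) + F ((a, n + 1) :: i :: C :: L) =
      ∑ β, sh D.ip (LinearMap.mul K K) (C :: L)
        (fun M => D.u F β (i :: M)) (fun M => F ((a, n) :: (β, 0) :: M)) := by
    intro i a n C L
    simp only [sh_cons, Finset.sum_add_distrib]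
    rw [add_comm]
    congr 1
    · rw [hF.trr a n i C L]
      refine Finset.sum_congr rfl fun x _ => ?_
      unfold u
      rw [sh_sum_left]
      refine Finset.sum_congr rfl fun y _ => ?_
      have h := sh_smul_left D.ip (LinearMap.mul K K) L (D.etai y x * D.sn y)
        (fun M => F ((y, 0) :: i :: C :: M)) (fun M => F ((a, n) :: (x, 0) :: M))
      simp only [smul_eq_mul] at h
      rw [h]
      have h2 : D.etai y x * D.sn y = D.etai x y := by
        rw [D.etai_symm y x]
        have := D.sn_mul_self y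
        linear_combination (D.etai x y) * this
      rw [h2]
    · rw [hF.symm3 (a, n) (i.1, i.2 + 1) C L, hF.trr' (a, n) C i L, Finset.mul_sum]
      refine Finset.sum_congr rfl fun β _ => ?_
      have h1 : (fun M => lsg K D.ip (D.ip C) M • D.u F β (i :: M)) =
          fun M => (sg K (D.ip C) (D.par β) * sg K (D.ip C) (D.ip i)) • D.u F β (i :: M) := by
        funext M
        unfold u
        simp only [smul_eq_mul]
        rw [Finset.mul_sum, Finset.mul_sum]
        refine Finset.sum_congr rfl fun α _ => ?_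
        by_cases he : D.etai α β = 0
        · simp [he]
        have hp : D.par α = D.par β := D.etai_par α β he
        have h := hF.even2 (D.ip C) (α, 0) i M
        have h' : D.ip (α, 0) = D.par β := hp
        rw [h'] at h
        linear_combination (D.etai α β * D.sn α) * h
      have h2 : (fun M => F ((a, n) :: (β, 0) :: C :: M)) =
          fun M => sg K (D.par β) (D.ip C) • F ((a, n) :: C :: (β, 0) :: M) := by
        funext M
        exact hF.symm3 (a, n) (β, 0) C M
      rw [h1, h2, sh_smul_left, sh_smul_right]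
      simp only [smul_eq_mul]
      have h3 := sg_mul_self (K := K) (D.par β) (D.ip C)
      have h4 : D.ip (i.1, i.2 + 1) = D.ip i := rfl
      rw [h4, sg_comm (D.ip C) (D.par β), sg_comm (D.ip C) (D.ip i)]
      linear_combination (- sg K (D.ip i) (D.ip C) * sh D.ip (LinearMap.mul K K) L
        (fun M => D.u F β (i :: M)) (fun M => F ((a, n) :: C :: (β, 0) :: M))) * h3
  match L with
  | [] =>
    have h := int_trr_nil hF hstep i.1 a n i.2
    simpa [sh_nil] using h
  | C :: L => exact hstep i a n C L

end Coh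

end Vale.Agent.P269.H597
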