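import Vale.Agent.P269.H597.Assembly

/-!
# All genus-zero constraints and all constraints of nonpositive virtual dimension
-/

set_option linter.unusedSectionVars false

namespace Vale.Agent.P269.H597

open Finset.HasAntidiagonal (antidiagonal)
open PowerSeries (C coeff mk)
open Vale.Agent.P269
open CI
open Coh (low qform)

variable {X : CompleteIntersection} {F : ℕ → ℕ → List (Ins X) → ℂ}

/-- The genus-zero potential with its Novikov variable. -/
noncomputable def pot (F : ℕ → ℕ → List (Ins X) → ℂ) (L : List (Ins X)) : PowerSeries ℂ :=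
  mk fun d => F 0 d L

lemma coeff_pot (d : ℕ) (L : List (Ins X)) : coeff d (pot F L) = F 0 d L := by
  simp [pot]

lemma genus0 (hF : IsGW X F)
    (hk : (coh X).kap = (3 - (X.dim : ℂ)) / 48 * (deg X * chernCoeff X X.dim) -
      (index X : ℂ) / 24 * (deg X * chernCoeff X (X.dim - 1))) :
    ((coh X).map (C : ℂ →+* PowerSeries ℂ)).Genus0 (pot F) where
  symm := by
    intro L M i j
    ext d
    rw [coeff_pot, (stringG hF).symm 0 d L M i j, smul_eq_mul, smul_eq_mul,
      ← map_sg (C : ℂ →+* PowerSeries ℂ), PowerSeries.coeff_C_mul, coeff_pot]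
    rfl
  even := by
    intro a L
    ext d
    rw [← map_lsg (C : ℂ →+* PowerSeries ℂ), PowerSeries.coeff_C_mul, coeff_pot]
    exact (stringG hF).even 0 d a L
  string := by
    intro L
    ext d
    rw [map_add, Coh.coeff_rep_low]
    have h3 := Coh.coeff_qform' d ((coh X).map (C : ℂ →+* PowerSeries ℂ)).eta (coh X).eta
      (fun a b => rfl) L
    rw [h3]
    have h4 := (stringG hF).string 0 d L
    simp only [coeff_pot]
    simp only [eq_self_iff_true, true_and] at h4
    exact h4
  dilaton := by
    intro L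
    ext d
    have h4 := hF.dilaton 0 d L
    rw [if_neg (by simp), add_zero] at h4
    have h5 : ((L.length : PowerSeries ℂ) - 2) = C ((L.length : ℂ) - 2) := by
      rw [map_sub, map_natCast, map_ofNat]
    rw [h5, PowerSeries.coeff_C_mul, coeff_pot, coeff_pot]
    have h6 : F 0 d ((((coh X).map (C : ℂ →+* PowerSeries ℂ)).one, 1) :: L) =
      F 0 d ((one X, 1) :: L) := rfl
    rw [h6, h4]
    push_cast
    ring
  trr := by
    intro a m i j L
    ext d
    rw [coeff_pot, hF.trr, map_sum]
    refine Finset.sum_congr rfl fun α _ => ?_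
    rw [map_sum]
    refine Finset.sum_congr rfl fun β _ => ?_
    have h1 : ((coh X).map (C : ℂ →+* PowerSeries ℂ)).etai α β = C (pairingInv X α β) := rfl
    rw [h1, PowerSeries.coeff_C_mul, Coh.coeff_sh]
    congr 1
    refine Finset.sum_congr rfl fun p _ => ?_
    rw [shuffle_eq]
    simp only [coeff_pot]
    rfl
  grading := by
    intro L
    ext d
    have h1 := vir_zero hF hk 0 d L
    have h2 : ∀ i, ((coh X).map (C : ℂ →+* PowerSeries ℂ)).A0 (Finsupp.single i 1) =
        ((coh X).map (C : ℂ →+* PowerSeries ℂ)).Aop 0 (Finsupp.single i 1) :=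
      fun i => Coh.A0_eq_Aop _ i
    simp only [h2]
    have h3 := Coh.coeff_lin (coh X) d 0 (pot F) L
    unfold Coh.lin at h3
    rw [map_add, h3]
    have h4 := Coh.coeff_qform' d (fun a b => ∑ c, ((coh X).map
      (C : ℂ →+* PowerSeries ℂ)).R a c * ((coh X).map (C : ℂ →+* PowerSeries ℂ)).eta c b)
      (fun a b => ∑ c, (coh X).R a c * (coh X).eta c b) (fun a b => by
        rw [map_sum]
        refine Finset.sum_congr rfl fun c _ => ?_
        rw [map_mul]
        rfl) L
    rw [h4]
    simp only [coeff_pot]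
    unfold Coh.vir Coh.quad2 Coh.lin at h1
    have h8 : ¬ (0 = 0 ∧ 0 = 1 ∧ d = 0) := by simp
    rw [if_neg h8] at h1
    simp only [Finset.range_zero, Finset.sum_empty, Finset.sum_const_zero, if_true, add_zero,
      mul_zero, eq_self_iff_true, true_and] at h1
    have h5 : (fun a b => ∑ c, (coh X).Rp (0 + 1) a c * (coh X).eta c b) =
        fun a b => ∑ c, (coh X).R a c * (coh X).eta c b := by
      funext a b
      refine Finset.sum_congr rfl fun c _ => ?_
      have : (coh X).Rp (0 + 1) a c = (coh X).R a c := by simp [Coh.Rp]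
      rw [this]
    rw [h5] at h1
    rw [map_zero]
    exact h1

/-- Genus zero: all constraints. -/
theorem vir_genus_zero (hF : IsGW X F)
    (hk : (coh X).kap = (3 - (X.dim : ℂ)) / 48 * (deg X * chernCoeff X X.dim) -
      (index X : ℂ) / 24 * (deg X * chernCoeff X (X.dim - 1)))
    (k d : ℕ) (L : List (Ins X)) : (coh X).vir F k 0 d L = 0 := by
  have h1 := Coh.virasoro_genus_zero (genus0 hF hk) k L
  have h2 := congrArg (coeff d) h1
  unfold Coh.vir0 at h2
  have h3 := Coh.coeff_lin (coh X) d k (pot F) L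
  unfold Coh.lin at h3
  rw [map_add, map_add, h3, map_zero] at h2
  have h4 : ((coh X).map (C : ℂ →+* PowerSeries ℂ)).half = C (coh X).half := rfl
  rw [h4, PowerSeries.coeff_C_mul] at h2
  have h5 := Coh.coeff_quad2 (coh X) d k (pot F) (pot F) L
  have h6 : Coh.quad ((coh X).map (C : ℂ →+* PowerSeries ℂ)) (pot F) k L =
    ((coh X).map (C : ℂ →+* PowerSeries ℂ)).quad2 k (pot F) (pot F) L := rfl
  rw [h6, h5] at h2
  have h7 := Coh.coeff_qform' d (fun a b => ∑ c, ((coh X).map
      (C : ℂ →+* PowerSeries ℂ)).Rp (k + 1) a c *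
      ((coh X).map (C : ℂ →+* PowerSeries ℂ)).eta c b)
      (fun a b => ∑ c, (coh X).Rp (k + 1) a c * (coh X).eta c b)
      (fun a b => Coh.map_Reta (coh X) C (k + 1) a b) L
  rw [h7] at h2
  simp only [coeff_pot] at h2
  unfold Coh.vir Coh.lin
  rw [Finset.HasAntidiagonal.antidiagonal_zero, Finset.sum_singleton, if_pos rfl, add_zero]
  have h8 : ¬ (k = 0 ∧ 0 = 1 ∧ d = 0) := by simp
  rw [if_neg h8, add_zero]
  simp only [eq_self_iff_true, true_and]
  exact h2

/-- All constraints at `(g, d)` with `g = 0` or of nonpositive virtual dimension. -/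
theorem vir_all (hF : IsGW X F)
    (hk : (coh X).kap = (3 - (X.dim : ℂ)) / 48 * (deg X * chernCoeff X X.dim) -
      (index X : ℂ) / 24 * (deg X * chernCoeff X (X.dim - 1)))
    (k g d : ℕ) (hgd : g = 0 ∨ (1 - (g : ℤ)) * (X.dim - 3) + index X * d ≤ 0)
    (L : List (Ins X)) : (coh X).vir F k g d L = 0 := by
  rcases hgd with rfl | h
  · exact vir_genus_zero hF hk k d L
  · refine Coh.vir_of_dim (degData X) (stringG hF) (weights hF) g d ?_
      (vir_zero hF hk g d) k L
    unfold Coh.vd
    linarith

end Vale.Agent.P269.H597
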