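import Vale.Agent.P269.H597.SymWt

/-!
# Extraction of the coefficients in the genus and degree variables
-/

set_option linter.unusedSectionVars false

namespace Vale.Agent.P269.H597

open PowerSeries (C coeff mk)

section

variable {K K' : Type*} [CommRing K] [CommRing K'] {ι : Type*} [Fintype ι] [DecidableEq ι]

lemma map_sg (f : K →+* K') (a b : Bool) : f (sg K a b) = sg K' a b := by
  cases a <;> cases b <;> simp [sg]

lemma map_lsg {I : Type*} (f : K →+* K') (par : I → Bool) (a : Bool) (L : List I) :
    f (lsg K par a L) = lsg K' par a L := by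
  induction L with
  | nil => simp
  | cons i L ih => simp [ih, map_sg]

lemma map_br (f : K →+* K') (k i : ℕ) (x : K) : f (br k i x) = br k i (f x) := by
  induction k generalizing i x with
  | zero =>
    match i with
    | 0 => simp [br_zero_zero]
    | 1 => simp [br_zero_one]
    | i + 2 => rw [br_high 0 (i + 2) (by omega), br_high 0 (i + 2) (by omega), map_zero]
  | succ k ih =>
    rw [br_succ, br_succ, map_add, map_mul, ih]
    congr 1
    · simp
    · split
      · simp
      · rw [ih]; simp

namespace Coh

/-- Base change of cohomological data. -/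
def map (D : Coh K ι) (f : K →+* K') : Coh K' ι where
  half := f D.half
  two_half := by
    rw [← map_ofNat f 2, ← map_mul, D.two_half, map_one]
  par := D.par
  one := D.one
  mu a := f (D.mu a)
  R a b := f (D.R a b)
  eta a b := f (D.eta a b)
  etai a b := f (D.etai a b)
  par_one := D.par_one
  eta_par a b h := D.eta_par a b fun h2 => h (by rw [h2, map_zero])
  R_par a b h := D.R_par a b fun h2 => h (by rw [h2, map_zero])
  eta_symm a b := by
    rw [D.eta_symm a b, map_mul, map_sg]
  eta_inv a c := by
    have := congrArg f (D.eta_inv a c)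
    rw [map_sum] at this
    simp only [map_mul] at this
    rw [this]
    split <;> simp
  etai_par a b h := D.etai_par a b fun h2 => h (by rw [h2, map_zero])
  etai_mu a b h := by
    rw [← map_add, D.etai_mu a b fun h2 => h (by rw [h2, map_zero]), map_zero]
  R_mu a b h := by
    rw [D.R_mu a b fun h2 => h (by rw [h2, map_zero])]
    simp
  eta_mu a b h := by
    rw [← map_add, D.eta_mu a b fun h2 => h (by rw [h2, map_zero]), map_zero]
  R_symm a b := by
    have := congrArg f (D.R_symm a b)
    simpa [map_sum] using this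

variable (D : Coh K ι)

lemma map_Rp (f : K →+* K') (i : ℕ) (a c : ι) : (D.map f).Rp i a c = f (D.Rp i a c) := by
  induction i generalizing a with
  | zero =>
    rw [Rp_zero, Rp_zero]
    split <;> simp
  | succ i ih =>
    rw [Rp_succ, Rp_succ, map_sum]
    refine Finset.sum_congr rfl fun b _ => ?_
    rw [ih, map_mul]
    rfl

lemma map_cf (f : K →+* K') (k m i : ℕ) (a b c : ι) :
    (D.map f).cf k m i a b c = f (D.cf k m i a b c) := by
  unfold cf
  rw [map_Rp]
  simp only [map_mul, map_pow, map_neg, map_one, map_br, map_sub, map_add, map_natCast]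
  rfl

lemma map_sn (f : K →+* K') (a : ι) : (D.map f).sn a = f (D.sn a) := by
  unfold sn
  rw [map_sg]
  rfl

lemma map_kap (f : K →+* K') : (D.map f).kap = f D.kap := by
  unfold kap
  simp only [map_mul, map_pow, map_sum, map_sub, map_sn]
  rfl

lemma map_Reta (f : K →+* K') (k : ℕ) (a b : ι) :
    ∑ c, (D.map f).Rp k a c * (D.map f).eta c b = f (∑ c, D.Rp k a c * D.eta c b) := by
  rw [map_sum]
  refine Finset.sum_congr rfl fun c _ => ?_
  rw [map_Rp, map_mul]
  rfl

/-- The linear part of the Virasoro coefficients. -/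
noncomputable def lin (k : ℕ) (F : List (ι × ℕ) → K) (L : List (ι × ℕ)) : K :=
  rep (fun i => D.Aop k (Finsupp.single i 1)) F L -
    ev K (ι × ℕ) K (D.Aop k (Finsupp.single (D.one, 1) 1)) (fun j => F (j :: L))

/-- The quadratic part of the Virasoro coefficients, polarised. -/
noncomputable def quad2 (k : ℕ) (F G : List (ι × ℕ) → K) (L : List (ι × ℕ)) : K :=
  ∑ m ∈ Finset.range k, ∑ i ∈ Finset.range (k - m), ∑ a, ∑ b, ∑ c,
    D.cf k m i a b c * sh D.ip (LinearMap.mul K K) L (fun M => F ((b, m) :: M))
        (fun M => G ((c, k - 1 - m - i) :: M))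

lemma virk_eq {F : List (ι × ℕ) → K} (hF : SymF (K := K) D.ip F) (hb : K) (k : ℕ)
    (L : List (ι × ℕ)) :
    D.virk F hb k L = D.lin k F L + D.half * (D.quad2 k F F L + hb * D.loop F k L) +
      qform (fun a b => ∑ c, D.Rp (k + 1) a c * D.eta c b) L +
      (if k = 0 then hb * D.kap * cst 1 L else 0) := by
  unfold virk lin
  rw [act_tau D.ip (D.one, 1) ip_one (evenOp_Aop (D := D) k) F hF]
  rfl

lemma coeff_ev_Aop (n k : ℕ) (x : ι × ℕ) (G : ι × ℕ → PowerSeries K) :
    coeff n (ev (PowerSeries K) (ι × ℕ) (PowerSeries K)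
      ((D.map C).Aop k (Finsupp.single x 1)) G) =
    ev K (ι × ℕ) K (D.Aop k (Finsupp.single x 1)) (fun j => coeff n (G j)) := by
  rw [ev_Aop, ev_Aop, map_sum]
  refine Finset.sum_congr rfl fun i _ => ?_
  rw [map_sum]
  refine Finset.sum_congr rfl fun c _ => ?_
  split
  · rw [map_Rp]
    have h1 : ((x.2 : PowerSeries K) + (D.map C).half + (D.map C).mu x.1) =
        C ((x.2 : K) + D.half + D.mu x.1) := by
      rw [map_add, map_add, map_natCast]
      rfl
    rw [h1, ← map_br, ← map_mul, PowerSeries.coeff_C_mul]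
  · simp

lemma coeff_lin (n k : ℕ) (F : List (ι × ℕ) → PowerSeries K) (L : List (ι × ℕ)) :
    coeff n ((D.map C).lin k F L) = D.lin k (fun M => coeff n (F M)) L := by
  unfold lin
  rw [map_sub, coeff_ev_Aop]
  congr 1
  induction L generalizing F with
  | nil => simp [rep]
  | cons i L ih =>
    simp only [rep, map_add]
    rw [coeff_ev_Aop, ih]

lemma coeff_sh {I : Type*} (par : I → Bool) (n : ℕ) (F G : List I → PowerSeries K)
    (L : List I) :
    coeff n (sh par (LinearMap.mul (PowerSeries K) (PowerSeries K)) L F G) =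
      ∑ p ∈ Finset.HasAntidiagonal.antidiagonal n, sh par (LinearMap.mul K K) L
        (fun M => coeff p.1 (F M)) (fun M => coeff p.2 (G M)) := by
  induction L generalizing F G with
  | nil => simp [sh_nil, PowerSeries.coeff_mul]
  | cons i L ih =>
    simp only [sh_cons, map_add, ih, ← Finset.sum_add_distrib]
    refine Finset.sum_congr rfl fun p _ => ?_
    congr 2
    funext M
    rw [smul_eq_mul, smul_eq_mul, ← map_lsg (C : K →+* PowerSeries K) par,
      PowerSeries.coeff_C_mul]

lemma coeff_quad2 (n k : ℕ) (F G : List (ι × ℕ) → PowerSeries K) (L : List (ι × ℕ)) :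
    coeff n ((D.map C).quad2 k F G L) = ∑ p ∈ Finset.HasAntidiagonal.antidiagonal n,
      D.quad2 k (fun M => coeff p.1 (F M)) (fun M => coeff p.2 (G M)) L := by
  unfold quad2
  simp only [map_sum, map_cf, PowerSeries.coeff_C_mul]
  have h1 : ∀ m i a b c, D.cf k m i a b c * coeff n (sh (D.map C).ip
      (LinearMap.mul (PowerSeries K) (PowerSeries K)) L (fun M => F ((b, m) :: M))
        (fun M => G ((c, k - 1 - m - i) :: M))) = ∑ p ∈ Finset.HasAntidiagonal.antidiagonal n,
      D.cf k m i a b c * sh D.ip (LinearMap.mul K K) L (fun M => coeff p.1 (F ((b, m) :: M)))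
        (fun M => coeff p.2 (G ((c, k - 1 - m - i) :: M))) := by
    intro m i a b c
    rw [← Finset.mul_sum]
    congr 1
    exact coeff_sh D.ip n _ _ L
  simp only [h1]
  rw [Finset.sum_comm]
  rw [Finset.sum_comm]
  refine Eq.trans (Finset.sum_congr rfl fun m _ => ?_) (Finset.sum_comm)
  refine Eq.trans (Finset.sum_congr rfl fun i _ => ?_) (Finset.sum_comm)
  refine Eq.trans (Finset.sum_congr rfl fun a _ => ?_) (Finset.sum_comm)
  refine Eq.trans (Finset.sum_congr rfl fun b _ => ?_) (Finset.sum_comm)
  rw [Finset.sum_comm]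

lemma coeff_loop (n k : ℕ) (F : List (ι × ℕ) → PowerSeries K) (L : List (ι × ℕ)) :
    coeff n ((D.map C).loop F k L) = D.loop (fun M => coeff n (F M)) k L := by
  unfold loop
  simp only [map_sum, map_cf, PowerSeries.coeff_C_mul]

lemma coeff_qform (n : ℕ) (N : ι → ι → K) (L : List (ι × ℕ)) :
    coeff n (qform (fun a b => (C (N a b) : PowerSeries K)) L) =
      if n = 0 then qform N L else 0 := by
  unfold qform
  split
  · rw [PowerSeries.coeff_C]
  · split <;> simp

end Coh

end

end Vale.Agent.P269.H597
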