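import Vale.Agent.P269.H597.Numbers

/-!
# Topological recursion for the genus-zero intersection numbers of cotangent classes
-/

set_option linter.unusedSectionVars false

namespace Vale.Agent.P269.H597

/-- The cohomology of a point. -/
noncomputable def pt : Coh ℂ Unit where
  half := 1 / 2
  two_half := by norm_num
  par := fun _ => false
  one := ()
  mu := fun _ => 0
  R := fun _ _ => 0
  eta := fun _ _ => 1
  etai := fun _ _ => 1
  par_one := rfl
  eta_par _ _ _ := rfl
  R_par _ _ _ := rfl
  eta_symm _ _ := by simp
  eta_inv _ _ := by simp
  etai_par _ _ _ := rfl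
  etai_mu _ _ _ := by simp
  R_mu _ _ h := by simp at h
  eta_mu _ _ _ := by simp
  R_symm _ _ := by simp

lemma ptDeg : pt.DegData (fun _ => 0) 0 0 where
  one := rfl
  other a ha := absurd rfl ha
  R a b h := by simp [pt] at h
  eta a b _ := by simp
  etai a b _ := by simp

/-- The genus-zero numbers on lists of insertions. -/
noncomputable def Np (L : List (Unit × ℕ)) : ℂ := Nz 3 (L.map Prod.snd)

lemma rep_low_pt (u : List ℕ → ℂ) (L : List (Unit × ℕ)) :
    rep (fun i => Coh.low (Finsupp.single i (1 : ℂ))) (fun M => u (M.map Prod.snd)) L =
      lowN u (L.map Prod.snd) := by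
  induction L generalizing u with
  | nil => simp [rep, lowN]
  | cons i L ih =>
    simp only [rep, List.map_cons, lowN]
    obtain ⟨a, m⟩ := i
    congr 1
    · rw [Coh.low_single]
      by_cases hm : m = 0
      · rw [if_pos hm, if_pos hm]; simp
      · rw [if_neg hm, if_neg hm, ev_single, one_smul]
    · exact ih (fun k => u (m :: k))

lemma Np_sys : pt.StringSys Np where
  symm := by
    intro L M i j
    have h1 : sg ℂ (pt.ip i) (pt.ip j) = 1 := by simp [Coh.ip, pt]
    rw [h1, one_smul]
    unfold Np
    apply Nz_perm
    apply List.Perm.map
    exact (List.Perm.swap j i M).append_left L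
  even := by
    intro a L
    have h1 : lsg ℂ pt.ip a L = 1 := by
      induction L with
      | nil => simp
      | cons i L ih =>
        rw [lsg_cons, ih]
        simp [Coh.ip, pt]
    rw [h1, one_mul]
  string := by
    intro L
    have h1 := rep_low_pt (Nz 3) L
    have h2 : Np ((pt.one, 0) :: L) = Nz 3 (0 :: L.map Prod.snd) := rfl
    rw [h2, Nz_string]
    unfold Np
    rw [h1]
    congr 1
    match L with
    | [] => simp [Coh.qform]
    | [x] => simp [Coh.qform]
    | [(a, m), (b, n)] =>
      cases m with
      | zero =>
        cases n with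
        | zero => simp [Coh.qform, pt]
        | succ n => simp [Coh.qform]
      | succ m => simp [Coh.qform]
    | x :: y :: z :: L => simp [Coh.qform]

lemma del_three (x y z : Unit × ℕ) (L : List (Unit × ℕ)) :
    pt.del (fun M => Np (x :: y :: z :: M)) L =
      - (ev ℂ (Unit × ℕ) ℂ (Coh.low (Finsupp.single x 1)) (fun j => Np (j :: y :: z :: L)) +
        ev ℂ (Unit × ℕ) ℂ (Coh.low (Finsupp.single y 1)) (fun j => Np (x :: j :: z :: L)) +
        ev ℂ (Unit × ℕ) ℂ (Coh.low (Finsupp.single z 1)) (fun j => Np (x :: y :: j :: L))) := by
  have h1 := Coh.del_cons (D := pt) (fun M => Np (x :: y :: M))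
    ((Np_sys.symm.cons x).cons y) z L
  have h2 := Coh.del_cons (D := pt) (fun M => Np (x :: M)) (Np_sys.symm.cons x) y (z :: L)
  have h3 := Coh.del_cons (D := pt) Np Np_sys.symm x (y :: z :: L)
  rw [h1, h2, h3, Coh.del_F Np_sys]
  simp only [Coh.qform]
  ring

lemma ev_low_pt (x : Unit × ℕ) (f : Unit × ℕ → ℂ) :
    ev ℂ (Unit × ℕ) ℂ (Coh.low (Finsupp.single x 1)) f =
      if x.2 = 0 then 0 else f (x.1, x.2 - 1) := by
  obtain ⟨a, m⟩ := x
  rw [Coh.low_single]
  by_cases hm : m = 0
  · rw [if_pos hm, if_pos hm]; simp
  · rw [if_neg hm, if_neg hm, ev_single, one_smul]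

/-- The defect of topological recursion. -/
noncomputable def Wd (m x y : ℕ) (L : List (Unit × ℕ)) : ℂ :=
  Np (((), m + 1) :: ((), x) :: ((), y) :: L) -
    sh pt.ip (LinearMap.mul ℂ ℂ) L (fun M => Np (((), 0) :: ((), x) :: ((), y) :: M))
      (fun M => Np (((), m) :: ((), 0) :: M))

lemma HW_Np : HW (Coh.wt (fun _ => 0)) (-6) Np := by
  intro L hL
  unfold Np Nz
  rw [if_neg]
  intro h
  apply hL
  have h2 : (L.map (Coh.wt (fun _ => 0))).sum = 2 * ((L.map Prod.snd).sum : ℤ) -
      2 * L.length := by
    clear h hL
    induction L with
    | nil => simp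
    | cons x L ih =>
      simp only [List.map_cons, List.sum_cons, ih, List.length_cons]
      unfold Coh.wt
      push_cast
      ring
  rw [h2]
  rw [List.length_map] at h
  have h3 : ((L.map Prod.snd).sum : ℤ) + 3 = L.length := by exact_mod_cast h
  linarith

lemma Wd_zero (n : ℕ) : ∀ m x y, m + x + y = n → ∀ L, Wd m x y L = 0 := by
  induction n using Nat.strong_induction_on with
  | _ n ih =>
    intro m x y hn
    have hs1 : SymF (K := ℂ) pt.ip
        (fun L => Np (((), m + 1) :: ((), x) :: ((), y) :: L)) :=
      ((Np_sys.symm.cons _).cons _).cons _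
    have hs2 : SymF (K := ℂ) pt.ip (fun L => sh pt.ip (LinearMap.mul ℂ ℂ) L
        (fun M => Np (((), 0) :: ((), x) :: ((), y) :: M))
        (fun M => Np (((), m) :: ((), 0) :: M))) :=
      SymF.sh _ (((Np_sys.symm.cons _).cons _).cons _) ((Np_sys.symm.cons _).cons _)
    have hs : SymF (K := ℂ) pt.ip (Wd m x y) := by
      have h1 := hs1.add (hs2.smul (-1))
      have h2 : Wd m x y = fun M => Np (((), m + 1) :: ((), x) :: ((), y) :: M) +
          (-1 : ℂ) • sh pt.ip (LinearMap.mul ℂ ℂ) M
            (fun M => Np (((), 0) :: ((), x) :: ((), y) :: M))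
            (fun M => Np (((), m) :: ((), 0) :: M)) := by
        funext M
        unfold Wd
        rw [smul_eq_mul]
        ring
      rw [h2]
      exact h1
    have hw1 := ((HW_Np.cons ((), m + 1)).cons ((), x)).cons ((), y)
    have hw2 := ((HW_Np.cons ((), 0)).cons ((), x)).cons ((), y)
    have hw3 := (HW_Np.cons ((), m)).cons ((), 0)
    have hw4 := HW.sh (par := pt.ip) (LinearMap.mul ℂ ℂ) hw2 hw3
    have hw : HW (Coh.wt (fun _ => 0)) (-2 - 2 * m - 2 * x - 2 * y) (Wd m x y) := by
      intro L hL
      unfold Wd
      have e1 := hw1 L (by
        intro h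
        apply hL
        rw [h]
        unfold Coh.wt
        push_cast
        ring)
      have e2 := hw4 L (by
        intro h
        apply hL
        rw [h]
        unfold Coh.wt
        push_cast
        ring)
      simp only at e1 e2
      rw [e1, e2, sub_zero]
    refine Coh.string_vanish ptDeg (Wd m x y) hs _ (by omega) hw ?_
    intro L
    have key : pt.del (Wd m x y) L = 0 := by
      have e0 : Wd m x y = fun M => Np (((), m + 1) :: ((), x) :: ((), y) :: M) +
          - sh pt.ip (LinearMap.mul ℂ ℂ) M
            (fun M => Np (((), 0) :: ((), x) :: ((), y) :: M))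
            (fun M => Np (((), m) :: ((), 0) :: M)) := by
        funext M
        unfold Wd
        ring
      rw [e0, Coh.del_add, Coh.del_neg, Coh.del_sh, del_three]
      have e1 : pt.del (fun M => Np (((), 0) :: ((), x) :: ((), y) :: M)) = fun M =>
          - ((if x = 0 then 0 else Np (((), 0) :: ((), x - 1) :: ((), y) :: M)) +
            (if y = 0 then 0 else Np (((), 0) :: ((), x) :: ((), y - 1) :: M))) := by
        funext M
        rw [del_three]
        simp only [ev_low_pt]
        simp
      have e2 : pt.del (fun M => Np (((), m) :: ((), 0) :: M)) = fun M =>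
          - ((if m = 0 then cst 1 M else 0) +
            (if m = 0 then 0 else Np (((), m - 1) :: ((), 0) :: M))) := by
        funext M
        have h1 := Coh.del_cons (D := pt) (fun M => Np (((), m) :: M))
          (Np_sys.symm.cons ((), m)) ((), 0) M
        have h2 := Coh.del_cons (D := pt) Np Np_sys.symm ((), m) (((), 0) :: M)
        rw [h1, h2, Coh.del_F Np_sys]
        simp only [ev_low_pt]
        cases m with
        | zero =>
          cases M with
          | nil => simp [Coh.qform, pt]
          | cons a M => simp [Coh.qform]
        | succ m => simp [Coh.qform]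
      rw [e1, e2]
      have e3 : sh pt.ip (LinearMap.mul ℂ ℂ) L (fun M =>
          - ((if x = 0 then 0 else Np (((), 0) :: ((), x - 1) :: ((), y) :: M)) +
            (if y = 0 then 0 else Np (((), 0) :: ((), x) :: ((), y - 1) :: M))))
            (fun M => Np (((), m) :: ((), 0) :: M)) =
          - ((if x = 0 then 0 else sh pt.ip (LinearMap.mul ℂ ℂ) L
              (fun M => Np (((), 0) :: ((), x - 1) :: ((), y) :: M))
              (fun M => Np (((), m) :: ((), 0) :: M))) +
            (if y = 0 then 0 else sh pt.ip (LinearMap.mul ℂ ℂ) L
              (fun M => Np (((), 0) :: ((), x) :: ((), y - 1) :: M))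
              (fun M => Np (((), m) :: ((), 0) :: M)))) := by
        rw [sh_neg_left, sh_add_left]
        congr 2
        · split
          · exact sh_zero_left _ _ _ _
          · rfl
        · split
          · exact sh_zero_left _ _ _ _
          · rfl
      have e4 : sh pt.ip (LinearMap.mul ℂ ℂ) L
          (fun M => Np (((), 0) :: ((), x) :: ((), y) :: M))
          (fun M => - ((if m = 0 then cst 1 M else 0) +
            (if m = 0 then 0 else Np (((), m - 1) :: ((), 0) :: M)))) =
          - ((if m = 0 then Np (((), 0) :: ((), x) :: ((), y) :: L) else 0) +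
            (if m = 0 then 0 else sh pt.ip (LinearMap.mul ℂ ℂ) L
              (fun M => Np (((), 0) :: ((), x) :: ((), y) :: M))
              (fun M => Np (((), m - 1) :: ((), 0) :: M)))) := by
        rw [sh_neg_right, sh_add_right]
        congr 2
        · split
          · rw [sh_cst_right]
            simp
          · exact sh_zero_right _ _ _ _
        · split
          · exact sh_zero_right _ _ _ _
          · rfl
      rw [e3, e4]
      simp only [ev_low_pt, Nat.succ_ne_zero, if_false, Nat.add_sub_cancel]
      have c1 : (if m = 0 then 0 else Wd (m - 1) x y L) = 0 := by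
        split
        · rfl
        · exact ih (m - 1 + x + y) (by omega) (m - 1) x y rfl L
      have c2 : (if x = 0 then 0 else Wd m (x - 1) y L) = 0 := by
        split
        · rfl
        · exact ih (m + (x - 1) + y) (by omega) m (x - 1) y rfl L
      have c3 : (if y = 0 then 0 else Wd m x (y - 1) L) = 0 := by
        split
        · rfl
        · exact ih (m + x + (y - 1)) (by omega) m x (y - 1) rfl L
      unfold Wd at c1 c2 c3
      by_cases hm : m = 0
      · subst hm
        simp only [if_true]
        by_cases hx : x = 0
        · subst hx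
          simp only [if_true]
          by_cases hy : y = 0
          · subst hy
            simp only [if_true]
            ring
          · simp only [if_neg hy] at c3 ⊢
            linear_combination -c3
        · simp only [if_neg hx] at c2 ⊢
          by_cases hy : y = 0
          · subst hy
            simp only [if_true]
            linear_combination -c2
          · simp only [if_neg hy] at c3 ⊢
            linear_combination -c2 - c3
      · obtain ⟨m', rfl⟩ : ∃ m', m = m' + 1 := ⟨m - 1, by omega⟩
        simp only [Nat.succ_ne_zero, if_false, Nat.add_sub_cancel] at c1 ⊢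
        by_cases hx : x = 0
        · subst hx
          simp only [if_true]
          by_cases hy : y = 0
          · subst hy
            simp only [if_true]
            linear_combination -c1
          · simp only [if_neg hy] at c3 ⊢
            linear_combination -c1 - c3
        · simp only [if_neg hx] at c2 ⊢
          by_cases hy : y = 0
          · subst hy
            simp only [if_true]
            linear_combination -c1 - c2
          · simp only [if_neg hy] at c3 ⊢
            linear_combination -c1 - c2 - c3
    rw [Coh.del_rep _ hs] at key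
    linear_combination -key

end Vale.Agent.P269.H597
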