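import Vale.Agent.P269.H597.Dimension

/-!
# Intersection numbers of cotangent classes
-/

set_option linter.unusedSectionVars false

namespace Vale.Agent.P269.H597

/-- Product of the factorials. -/
noncomputable def pf (l : List ℕ) : ℂ := (l.map fun m => (m.factorial : ℂ)).prod

/-- Sum of all lowerings of one entry. -/
def lowN : (List ℕ → ℂ) → List ℕ → ℂ
  | _, [] => 0
  | u, i :: l => (if i = 0 then 0 else u ((i - 1) :: l)) + lowN (fun k => u (i :: k)) l

/-- The numbers `(∑ m)! / ∏ m!` for `∑ m + c = n`. -/
noncomputable def Nz (c : ℕ) (l : List ℕ) : ℂ :=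
  if l.sum + c = l.length then (l.sum.factorial : ℂ) / pf l else 0

lemma pf_cons (i : ℕ) (l : List ℕ) : pf (i :: l) = i.factorial * pf l := by simp [pf]

lemma pf_ne (l : List ℕ) : pf l ≠ 0 := by
  induction l with
  | nil => simp [pf]
  | cons i l ih =>
    rw [pf_cons]
    exact mul_ne_zero (Nat.cast_ne_zero.mpr (Nat.factorial_ne_zero i)) ih

lemma lowN_congr {u v : List ℕ → ℂ} {l : List ℕ} (h : ∀ k, k.length = l.length → u k = v k) :
    lowN u l = lowN v l := by
  induction l generalizing u v with
  | nil => rfl
  | cons i l ih =>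
    simp only [lowN]
    congr 1
    · split
      · rfl
      · exact h _ (by simp)
    · exact ih fun k hk => h _ (by simp [hk])

lemma lowN_add (u v : List ℕ → ℂ) (l : List ℕ) :
    lowN (fun k => u k + v k) l = lowN u l + lowN v l := by
  induction l generalizing u v with
  | nil => simp [lowN]
  | cons i l ih =>
    simp only [lowN, ih]
    split <;> ring

lemma lowN_smul (c : ℂ) (u : List ℕ → ℂ) (l : List ℕ) :
    lowN (fun k => c * u k) l = c * lowN u l := by
  induction l generalizing u with
  | nil => simp [lowN]
  | cons i l ih =>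
    simp only [lowN, ih]
    split <;> ring

lemma lowN_frac (g : ℕ → ℂ) (l : List ℕ) :
    lowN (fun k => g k.sum / pf k) l = l.sum * g (l.sum - 1) / pf l := by
  induction l generalizing g with
  | nil => simp [lowN]
  | cons i l ih =>
    simp only [lowN, List.sum_cons, pf_cons]
    have h1 : (fun k : List ℕ => g (i + k.sum) / ((i.factorial : ℂ) * pf k)) =
        fun k => (fun s => g (i + s) / (i.factorial : ℂ)) k.sum / pf k := by
      funext k
      simp only
      rw [div_div]
    rw [h1, ih (fun s => g (i + s) / (i.factorial : ℂ))]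
    have hp := pf_ne l
    rcases Nat.eq_zero_or_pos l.sum with hs | hs
    · rw [hs]
      rcases Nat.eq_zero_or_pos i with hi | hi
      · subst hi; simp
      · obtain ⟨j, rfl⟩ : ∃ j, i = j + 1 := ⟨i - 1, by omega⟩
        rw [if_neg (by omega)]
        simp only [Nat.add_sub_cancel, Nat.cast_zero, add_zero, zero_mul, zero_div,
          Nat.factorial_succ]
        have hj : ((j : ℂ) + 1) ≠ 0 := by exact_mod_cast Nat.succ_ne_zero j
        have hf : ((j.factorial : ℕ) : ℂ) ≠ 0 := Nat.cast_ne_zero.mpr (Nat.factorial_ne_zero j)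
        push_cast
        field_simp
    · obtain ⟨s, hs'⟩ : ∃ s, l.sum = s + 1 := ⟨l.sum - 1, by omega⟩
      rw [hs']
      rcases Nat.eq_zero_or_pos i with hi | hi
      · subst hi; simp
      · obtain ⟨j, rfl⟩ : ∃ j, i = j + 1 := ⟨i - 1, by omega⟩
        rw [if_neg (by omega)]
        have e1 : j + 1 - 1 + (s + 1) = j + s + 1 := by omega
        have e2 : j + 1 + (s + 1 - 1) = j + s + 1 := by omega
        have e3 : j + 1 + (s + 1) - 1 = j + s + 1 := by omega
        have e4 : j + 1 - 1 = j := by omega
        rw [e1, e3, e4]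
        simp only [e2, Nat.factorial_succ]
        have hj : ((j : ℂ) + 1) ≠ 0 := by exact_mod_cast Nat.succ_ne_zero j
        have hf : ((j.factorial : ℕ) : ℂ) ≠ 0 := Nat.cast_ne_zero.mpr (Nat.factorial_ne_zero j)
        push_cast
        field_simp

lemma pf_one {l : List ℕ} (h : l.sum = 0) : pf l = 1 := by
  induction l with
  | nil => simp [pf]
  | cons i l ih =>
    rw [List.sum_cons] at h
    have hi : i = 0 := by omega
    have hl : l.sum = 0 := by omega
    rw [pf_cons, ih hl, hi]
    simp

/-- String equation. -/
lemma Nz_string (c : ℕ) (l : List ℕ) : Nz c (0 :: l) =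
    lowN (Nz c) l + (if l.sum = 0 ∧ l.length + 1 = c then 1 else 0) := by
  have h1 : lowN (Nz c) l = l.sum *
      (if l.sum - 1 + c = l.length then ((l.sum - 1).factorial : ℂ) else 0) / pf l := by
    rw [← lowN_frac (fun s => if s + c = l.length then (s.factorial : ℂ) else 0) l]
    refine lowN_congr fun k hk => ?_
    unfold Nz
    rw [hk]
    split <;> simp
  rw [h1]
  unfold Nz
  simp only [List.sum_cons, zero_add, List.length_cons, pf_cons]
  have hp := pf_ne l
  rcases Nat.eq_zero_or_pos l.sum with hs | hs
  · rw [hs, pf_one hs]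
    simp only [zero_add, Nat.factorial_zero, Nat.cast_one, mul_one, Nat.cast_zero,
      zero_mul, zero_div, true_and, div_one]
    by_cases hc : c = l.length + 1
    · rw [if_pos hc, if_pos hc.symm]
    · rw [if_neg hc, if_neg (fun h => hc h.symm)]
  · obtain ⟨s, hs'⟩ : ∃ s, l.sum = s + 1 := ⟨l.sum - 1, by omega⟩
    rw [hs']
    rw [if_neg (show ¬ (s + 1 = 0 ∧ l.length + 1 = c) by omega), add_zero]
    by_cases hc : s + 1 + c = l.length + 1
    · rw [if_pos hc, if_pos (by omega), Nat.add_sub_cancel, Nat.factorial_succ]
      push_cast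
      simp
    · rw [if_neg hc, if_neg (by omega)]
      simp

/-- Dilaton equation. -/
lemma Nz_dilaton (c : ℕ) (l : List ℕ) :
    Nz c (1 :: l) = ((l.length : ℂ) + 1 - c) * Nz c l := by
  unfold Nz
  simp only [List.sum_cons, List.length_cons, pf_cons]
  by_cases hc : l.sum + c = l.length
  · rw [if_pos hc, if_pos (by omega), ← hc, Nat.add_comm 1 l.sum, Nat.factorial_succ]
    push_cast
    simp
    ring
  · rw [if_neg hc, if_neg (by omega), mul_zero]

lemma Nz_perm (c : ℕ) {l l' : List ℕ} (h : l.Perm l') : Nz c l = Nz c l' := by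
  unfold Nz pf
  rw [h.sum_eq, h.length_eq, (h.map _).prod_eq]

/-! ### Reconstruction from the values at lists of ones -/

/-- Auxiliary function. -/
noncomputable def Eaux (b : ℕ → ℂ) : ℕ → Multiset ℕ → ℂ
  | 0, _ => b 0
  | n + 1, s => if 0 ∈ s then
      ((s.erase 0).map fun j => if j = 0 then 0 else
        Eaux b n ((j - 1) ::ₘ (s.erase 0).erase j)).sum
      else if s = Multiset.replicate (n + 1) 1 then b (n + 1) else 0

/-- The unique solution of the homogeneous string equation with values `b n` at `n` ones. -/
noncomputable def Ef (b : ℕ → ℂ) (s : Multiset ℕ) : ℂ := Eaux b (Multiset.card s) s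

lemma Ef_string (b : ℕ → ℂ) (s : Multiset ℕ) : Ef b (0 ::ₘ s) =
    (s.map fun j => if j = 0 then 0 else Ef b ((j - 1) ::ₘ s.erase j)).sum := by
  unfold Ef
  rw [Multiset.card_cons, Eaux, if_pos (Multiset.mem_cons_self 0 s), Multiset.erase_cons_head]
  congr 1
  refine Multiset.map_congr rfl fun j hj => ?_
  split
  · rfl
  · rw [Multiset.card_cons, Multiset.card_erase_add_one hj]

lemma Ef_base (b : ℕ → ℂ) (s : Multiset ℕ) (h : 0 ∉ s) : Ef b s =
    if s = Multiset.replicate (Multiset.card s) 1 then b (Multiset.card s) else 0 := by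
  unfold Ef
  rcases hn : Multiset.card s with _ | n
  · have : s = 0 := Multiset.card_eq_zero.mp hn
    rw [this]
    simp [Eaux]
  · unfold Eaux
    rw [if_neg h]

lemma Ef_dilaton (b : ℕ → ℂ) (x t : ℂ)
    (hb : ∀ n, b (n + 1) = (x + n) * b n + (if n = 0 then t else 0)) (n : ℕ) :
    ∀ s : Multiset ℕ, Multiset.card s = n →
      Ef b (1 ::ₘ s) = (x + n) * Ef b s + (if n = 0 then t else 0) := by
  induction n with
  | zero =>
    intro s hs
    have hs0 : s = 0 := Multiset.card_eq_zero.mp hs
    subst hs0
    rw [Ef_base b (1 ::ₘ 0) (by simp), Ef_base b 0 (by simp)]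
    have h1 : (1 ::ₘ (0 : Multiset ℕ)) = Multiset.replicate 1 1 := rfl
    simp only [Multiset.card_cons, Multiset.card_zero, zero_add]
    rw [if_pos h1, if_pos (by simp)]
    exact hb 0
  | succ n ih =>
    intro s hs
    rw [if_neg (Nat.succ_ne_zero n), add_zero]
    by_cases h0 : 0 ∈ s
    · obtain ⟨t', rfl⟩ := Multiset.exists_cons_of_mem h0
      rw [Multiset.card_cons] at hs
      have ht : Multiset.card t' = n := by omega
      rw [Multiset.cons_swap, Ef_string, Multiset.map_cons, Multiset.sum_cons,
        if_neg one_ne_zero, Nat.sub_self, Multiset.erase_cons_head]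
      have h2 : (t'.map fun j => if j = 0 then 0 else
          Ef b ((j - 1) ::ₘ (1 ::ₘ t').erase j)).sum = (x + n) * Ef b (0 ::ₘ t') := by
        rw [Ef_string, ← Multiset.sum_map_mul_left]
        congr 1
        refine Multiset.map_congr rfl fun j hj => ?_
        by_cases hj0 : j = 0
        · rw [if_pos hj0, if_pos hj0, mul_zero]
        · rw [if_neg hj0, if_neg hj0]
          have he : (1 ::ₘ t').erase j = 1 ::ₘ t'.erase j := by
            by_cases h1 : j = 1
            · subst h1
              rw [Multiset.erase_cons_head, Multiset.cons_erase hj]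
            · rw [Multiset.erase_cons_tail_of_mem hj]
          rw [he, Multiset.cons_swap, ih _ (by
            rw [Multiset.card_cons, Multiset.card_erase_add_one hj]; exact ht)]
          have hn : n ≠ 0 := by
            intro hn
            rw [hn] at ht
            rw [Multiset.card_eq_zero.mp ht] at hj
            simp at hj
          rw [if_neg hn, add_zero]
      rw [h2]
      push_cast
      ring
    · rw [Ef_base b s h0, Ef_base b (1 ::ₘ s) (by
        rw [Multiset.mem_cons]
        rintro (h | h)
        · omega
        · exact h0 h), Multiset.card_cons, hs, Multiset.replicate_succ]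
      by_cases hr : s = Multiset.replicate (n + 1) 1
      · rw [if_pos hr, if_pos (by rw [← hr]), hb (n + 1), if_neg (Nat.succ_ne_zero n), add_zero]
      · rw [if_neg hr, if_neg, mul_zero]
        intro h
        exact hr ((Multiset.cons_inj_right 1).mp h)

lemma Ef_wt (b : ℕ → ℂ) (n : ℕ) : ∀ s : Multiset ℕ, Multiset.card s = n → Ef b s ≠ 0 →
    s.sum = n := by
  induction n with
  | zero =>
    intro s hs _
    rw [Multiset.card_eq_zero.mp hs]
    simp
  | succ n ih =>
    intro s hs hne
    by_cases h0 : 0 ∈ s
    · obtain ⟨t', rfl⟩ := Multiset.exists_cons_of_mem h0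
      rw [Multiset.card_cons] at hs
      have ht : Multiset.card t' = n := by omega
      rw [Ef_string] at hne
      have h1 : ∃ y ∈ (t'.map fun j => if j = 0 then 0 else Ef b ((j - 1) ::ₘ t'.erase j)),
          y ≠ 0 := by
        by_contra hc
        push Not at hc
        exact hne (Multiset.sum_eq_zero hc)
      obtain ⟨y, hy, hy0⟩ := h1
      obtain ⟨j, hj, rfl⟩ := Multiset.mem_map.mp hy
      by_cases hj0 : j = 0
      · rw [if_pos hj0] at hy0
        exact absurd rfl hy0
      · rw [if_neg hj0] at hy0
        have h2 := ih _ (by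
            rw [Multiset.card_cons, Multiset.card_erase_add_one hj]; exact ht) hy0
        rw [Multiset.sum_cons] at h2
        have h3 : t'.sum = j + (t'.erase j).sum := by
          conv_lhs => rw [← Multiset.cons_erase hj]
          rw [Multiset.sum_cons]
        rw [Multiset.sum_cons, h3]
        omega
    · rw [Ef_base b s h0, hs] at hne
      by_cases hr : s = Multiset.replicate (n + 1) 1
      · rw [hr, Multiset.sum_replicate]; simp
      · rw [if_neg hr] at hne
        exact absurd rfl hne

lemma lowN_multiset (G : Multiset ℕ → ℂ) (l : List ℕ) : lowN (fun k => G (k : Multiset ℕ)) l =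
    ((l : Multiset ℕ).map fun j => if j = 0 then 0 else
      G ((j - 1) ::ₘ (l : Multiset ℕ).erase j)).sum := by
  induction l generalizing G with
  | nil => simp [lowN]
  | cons i l ih =>
    simp only [lowN]
    simp only [← Multiset.cons_coe]
    rw [Multiset.map_cons, Multiset.sum_cons, Multiset.erase_cons_head]
    congr 1
    rw [ih (fun s => G (i ::ₘ s))]
    congr 1
    refine Multiset.map_congr rfl fun j hj => ?_
    have he : (i ::ₘ (l : Multiset ℕ)).erase j = i ::ₘ (l : Multiset ℕ).erase j := by
      by_cases h1 : j = i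
      · subst h1
        rw [Multiset.erase_cons_head, Multiset.cons_erase hj]
      · rw [Multiset.erase_cons_tail_of_mem hj]
    rw [he, Multiset.cons_swap]

end Vale.Agent.P269.H597
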