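import Vale.Agent.P269.H597.MainA
import Vale.Agent.P269.H597.NumTRR

/-!
# The integral of a product of basis classes
-/

set_option linter.unusedSectionVars false

namespace Vale.Agent.P269.H597

open Vale.Agent.P269
open CI

variable (X : CompleteIntersection)

/-- Weight of a class in the ambient part (`⊤` for primitive classes). -/
def pw : Ix X → WithTop ℕ
  | Sum.inl j => ((j : ℕ) : WithTop ℕ)
  | Sum.inr _ => ⊤

/-- Total weight. -/
def pws (L : List (Ix X)) : WithTop ℕ := (L.map (pw X)).sum

/-- The ambient part of the integral. -/
noncomputable def amb (L : List (Ix X)) : ℂ := if pws X L = (X.dim : WithTop ℕ) then deg X else 0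

/-- Classes different from the unit. -/
def fil (L : List (Ix X)) : List (Ix X) := L.filter (fun a => a ≠ one X)

/-- The value of the form on a pair of primitive classes. -/
noncomputable def frm : List (Ix X) → ℂ
  | [Sum.inr a, Sum.inr b] => X.form a b
  | _ => 0

variable {X}

lemma pws_cons (a : Ix X) (L : List (Ix X)) : pws X (a :: L) = pw X a + pws X L := by
  simp [pws]

lemma pws_append (L M : List (Ix X)) : pws X (L ++ M) = pws X L + pws X M := by
  simp [pws]

lemma fil_append (L M : List (Ix X)) : fil X (L ++ M) = fil X L ++ fil X M := by
  simp [fil]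

lemma fil_one (L : List (Ix X)) : fil X (one X :: L) = fil X L := by
  simp [fil]

lemma fil_cons (a : Ix X) (ha : a ≠ one X) (L : List (Ix X)) : fil X (a :: L) = a :: fil X L := by
  simp [fil, ha]

lemma pw_one : pw X (one X) = 0 := by simp [pw, one]

lemma pws_fil (L : List (Ix X)) : pws X (fil X L) = pws X L := by
  induction L with
  | nil => rfl
  | cons a L ih =>
    by_cases ha : a = one X
    · subst ha
      rw [fil_one, ih, pws_cons, pw_one, zero_add]
    · rw [fil_cons a ha, pws_cons, pws_cons, ih]

lemma pws_eq_zero (L : List (Ix X)) : pws X L = 0 ↔ fil X L = [] := by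
  induction L with
  | nil => simp [pws, fil]
  | cons a L ih =>
    by_cases ha : a = one X
    · subst ha
      rw [fil_one, pws_cons, pw_one, zero_add, ih]
    · rw [fil_cons a ha, pws_cons]
      simp only [add_eq_zero, reduceCtorEq, iff_false, not_and]
      intro h
      exfalso
      apply ha
      rcases a with j | a
      · simp only [pw] at h
        have h2 : (j : ℕ) = 0 := by exact_mod_cast h
        unfold one
        congr 1
        exact Fin.ext h2
      · simp [pw] at h

lemma all_inl_iff (L : List (Ix X)) : (∀ a ∈ L, ∃ j, a = Sum.inl j) ∧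
    (L.map (hp X)).sum = X.dim ↔ pws X L = (X.dim : WithTop ℕ) := by
  have key : ∀ (L : List (Ix X)) (n : ℕ), (∀ a ∈ L, ∃ j, a = Sum.inl j) ∧
    (L.map (hp X)).sum = n ↔ pws X L = (n : WithTop ℕ) := by
    intro L
    induction L with
    | nil =>
      intro n
      simp only [List.not_mem_nil, false_imp_iff, implies_true, true_and, List.map_nil,
        List.sum_nil, pws]
      exact_mod_cast Iff.rfl
    | cons a L ih =>
      intro n
      rw [pws_cons]
      rcases a with j | a
      · simp only [pw, List.mem_cons, forall_eq_or_imp, Sum.inl.injEq, exists_eq', true_and,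
          List.map_cons, List.sum_cons, hp]
        constructor
        · rintro ⟨h1, h2⟩
          have := (ih ((L.map (hp X)).sum)).mp ⟨h1, rfl⟩
          rw [this, ← h2]
          push_cast
          rfl
        · intro h
          have hne : pws X L ≠ ⊤ := by
            intro h2
            rw [h2] at h
            simp at h
          obtain ⟨k, hk⟩ := WithTop.ne_top_iff_exists.mp hne
          have hk' : pws X L = (k : WithTop ℕ) := hk.symm
          have h3 := (ih k).mpr hk'
          rw [hk'] at h
          have h4 : (j : ℕ) + k = n := by exact_mod_cast h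
          exact ⟨h3.1, by rw [h3.2]; exact h4⟩
      · simp only [pw, top_add]
        constructor
        · rintro ⟨h1, h2⟩
          obtain ⟨j, hj⟩ := h1 (Sum.inr a) (by simp)
          simp at hj
        · intro h
          simp at h
  exact key L X.dim

lemma frm_mem {M : List (Ix X)} (j : Fin (X.dim + 1)) (h : Sum.inl j ∈ M) : frm X M = 0 := by
  unfold frm
  split
  · simp at h
  · rfl

lemma integral_eq (L : List (Ix X)) : integral X L = amb X L + frm X (fil X L) := by
  unfold integral
  have h0 : L.filter (fun a => a ≠ one X) = fil X L := rfl
  rw [h0]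
  unfold amb
  rw [← pws_fil L]
  generalize fil X L = M
  split
  · rename_i a b
    have h1 : ¬ (pws X [Sum.inr a, Sum.inr b] = (X.dim : WithTop ℕ)) := by
      simp [pws, pw]
    rw [if_neg h1, zero_add]
    rfl
  · rename_i h
    have h1 : frm X M = 0 := by
      unfold frm
      split
      · rename_i a b
        exact absurd rfl (h a b)
      · rfl
    rw [h1, add_zero]
    by_cases hc : pws X M = (X.dim : WithTop ℕ)
    · rw [if_pos hc, if_pos ((all_inl_iff M).mpr hc)]
    · rw [if_neg hc, if_neg (fun h2 => hc ((all_inl_iff M).mp h2))]

lemma integral_one (P S : List (Ix X)) :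
    integral X (P ++ one X :: S) = integral X (P ++ S) := by
  rw [integral_eq, integral_eq]
  unfold amb
  rw [pws_append, pws_append, pws_cons, pw_one, zero_add, fil_append, fil_append, fil_one]

lemma pws_swap (P S : List (Ix X)) (x y : Ix X) :
    pws X (P ++ x :: y :: S) = pws X (P ++ y :: x :: S) := by
  rw [pws_append, pws_append, pws_cons, pws_cons, pws_cons, pws_cons]
  congr 1
  rw [← add_assoc, ← add_assoc, add_comm (pw X x)]

lemma frm_long {M : List (Ix X)} (h : M.length ≠ 2) : frm X M = 0 := by
  unfold frm
  split
  · simp at h
  · rfl

lemma integral_swap (P S : List (Ix X)) (x y : Ix X) :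
    integral X (P ++ x :: y :: S) = sg ℂ (par X x) (par X y) *
      integral X (P ++ y :: x :: S) := by
  rw [integral_eq, integral_eq, mul_add]
  congr 1
  · unfold amb
    rw [pws_swap P S x y]
    by_cases hc : pws X (P ++ y :: x :: S) = (X.dim : WithTop ℕ)
    · rw [if_pos hc]
      rcases x with i | a
      · simp [par]
      · exfalso
        rw [pws_append, pws_cons, pws_cons] at hc
        simp [pw] at hc
    · rw [if_neg hc, mul_zero]
  · rw [fil_append, fil_append]
    by_cases hx : x = one X
    · subst hx
      by_cases hy : y = one X
      · subst hy; simp [par, one]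
      · rw [fil_one, fil_cons y hy, fil_cons y hy, fil_one]
        simp [par, one]
    · by_cases hy : y = one X
      · subst hy
        rw [fil_one, fil_cons x hx, fil_cons x hx, fil_one]
        simp [par, one]
      · rw [fil_cons x hx, fil_cons y hy, fil_cons y hy, fil_cons x hx]
        by_cases hl : fil X P = [] ∧ fil X S = []
        · rw [hl.1, hl.2]
          rcases x with i | a <;> rcases y with j | b
          · simp [frm]
          · simp [frm]
          · simp [frm]
          · simp only [List.nil_append, frm]
            rw [sg_par]
            exact X.form_symm a b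
        · have h1 : ∀ u v : Ix X, frm X (fil X P ++ u :: v :: fil X S) = 0 := by
            intro u v
            apply frm_long
            intro h
            apply hl
            simp only [List.length_append, List.length_cons] at h
            constructor
            · exact List.length_eq_zero_iff.mp (by omega)
            · exact List.length_eq_zero_iff.mp (by omega)
          rw [h1, h1, mul_zero]

/-- Multiplication by `h` can be done at any place. -/
lemma integral_hmul (P S : List (Ix X)) (a : Ix X) :
    ∑ b, hmul X a b * integral X (P ++ b :: S) = integral X (hcls X :: (P ++ a :: S)) := by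
  have hR : frm X (fil X (hcls X :: (P ++ a :: S))) = 0 := by
    have : hcls X ≠ one X := by simp [hcls, one]
    rw [fil_cons _ this]
    exact frm_mem (X := X) ⟨1, by have := X.two_le_dim; omega⟩ (by
      unfold hcls
      exact List.mem_cons_self)
  rw [integral_eq (hcls X :: (P ++ a :: S)), hR, add_zero]
  rcases a with i | a
  · by_cases hi : (i : ℕ) + 1 < X.dim + 1
    · rw [Finset.sum_eq_single (Sum.inl ⟨(i : ℕ) + 1, hi⟩)]
      · simp only [hmul, if_true, one_mul]
        rw [integral_eq]
        have h2 : frm X (fil X (P ++ Sum.inl ⟨(i : ℕ) + 1, hi⟩ :: S)) = 0 := by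
          apply frm_mem (X := X) ⟨(i : ℕ) + 1, hi⟩
          unfold fil
          rw [List.mem_filter]
          refine ⟨by simp, ?_⟩
          simp [one]
        rw [h2, add_zero]
        unfold amb
        have h3 : pws X (P ++ Sum.inl ⟨(i : ℕ) + 1, hi⟩ :: S) =
            pws X (hcls X :: (P ++ Sum.inl i :: S)) := by
          rw [pws_append, pws_cons, pws_cons, pws_append, pws_cons]
          simp only [pw, hcls]
          push_cast
          rw [← add_assoc, ← add_assoc, ← add_assoc, ← add_assoc]
          congr 1
          rw [add_comm (1 : WithTop ℕ) (pws X P), add_assoc, add_assoc, add_comm (1 : WithTop ℕ)]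
        rw [h3]
      · intro b _ hb
        rcases b with j | b
        · have : ¬ ((j : ℕ) = i + 1) := by
            intro h
            apply hb
            congr 1
            exact Fin.ext h
          simp only [hmul]
          rw [if_neg this, zero_mul]
        · simp [hmul]
      · simp
    · rw [Finset.sum_eq_zero]
      · unfold amb
        rw [if_neg]
        rw [pws_cons, pws_append, pws_cons]
        simp only [pw, hcls]
        intro h
        have h1 : (X.dim : WithTop ℕ) < (((1 : ℕ) : WithTop ℕ) + (pws X P + (((i : ℕ) : WithTop ℕ) + pws X S))) := by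
          calc (X.dim : WithTop ℕ) < ((1 + (i : ℕ) : ℕ) : WithTop ℕ) := by
                  exact_mod_cast (by omega : X.dim < 1 + (i : ℕ))
            _ ≤ _ := by
                  push_cast
                  gcongr
                  calc ((i : ℕ) : WithTop ℕ) ≤ ((i : ℕ) : WithTop ℕ) + pws X S := le_self_add
                    _ ≤ pws X P + (((i : ℕ) : WithTop ℕ) + pws X S) := le_add_self
        rw [h] at h1
        exact lt_irrefl _ h1
      · intro b _
        rcases b with j | b
        · simp only [hmul]
          rw [if_neg (by omega), zero_mul]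
        · simp [hmul]
  · rw [Finset.sum_eq_zero]
    · unfold amb
      rw [if_neg]
      rw [pws_cons, pws_append, pws_cons]
      simp [pw]
    · intro b _
      simp [hmul]

/-- The vector of a list with exactly one class different from the unit, which is primitive. -/
def fr1 (L : List (Ix X)) : Option X.Prim :=
  match fil X L with
  | [Sum.inr a] => some a
  | _ => none

lemma frm_inr_left (b : X.Prim) (S : List (Ix X)) : frm X (fil X (Sum.inr b :: S)) =
    match fr1 S with
    | some c => X.form b c
    | none => 0 := by
  rw [fil_cons _ (by simp [one])]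
  unfold fr1
  generalize fil X S = M
  match M with
  | [] => rfl
  | [Sum.inl j] => rfl
  | [Sum.inr c] => rfl
  | _ :: _ :: _ => simp [frm]

lemma frm_inr_right (b : X.Prim) (T : List (Ix X)) : frm X (fil X (T ++ [Sum.inr b])) =
    match fr1 T with
    | some c => X.form c b
    | none => 0 := by
  rw [fil_append, fil_cons _ (by simp [one])]
  unfold fr1
  generalize fil X T = M
  match M with
  | [] => rfl
  | [Sum.inl j] => rfl
  | [Sum.inr c] => rfl
  | [Sum.inl _, _] => simp [frm, fil]
  | [Sum.inr _, _] => simp [frm, fil]
  | _ :: _ :: _ :: _ => simp [frm, fil]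

lemma frm_append (T S : List (Ix X)) : frm X (fil X (T ++ S)) =
    (if pws X S = 0 then frm X (fil X T) else 0) + (if pws X T = 0 then frm X (fil X S) else 0) +
    (match fr1 T, fr1 S with
      | some a, some b => X.form a b
      | _, _ => 0) := by
  simp only [pws_eq_zero, fil_append]
  unfold fr1
  generalize fil X T = M
  generalize fil X S = N
  match M, N with
  | [], [] => simp [frm]
  | [], [Sum.inl j] => simp [frm]
  | [], [Sum.inr a] => simp [frm]
  | [], _ :: _ :: _ => simp [frm]
  | [Sum.inl i], [] => simp [frm]
  | [Sum.inl i], [Sum.inl j] => simp [frm]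
  | [Sum.inl i], [Sum.inr a] => simp [frm]
  | [Sum.inl i], _ :: _ :: _ => simp [frm]
  | [Sum.inr a], [] => simp [frm]
  | [Sum.inr a], [Sum.inl j] => simp [frm]
  | [Sum.inr a], [Sum.inr b] => simp [frm]
  | [Sum.inr a], _ :: _ :: _ => simp [frm]
  | _ :: _ :: _, [] => simp [frm]
  | x :: y :: M, z :: N =>
    have h1 : frm X (x :: y :: M ++ z :: N) = 0 := frm_long (by simp)
    rw [h1]
    simp

/-- The two parts of the glueing formula. -/
lemma glue_amb (f g : Fin (X.dim + 1) → ℂ) : ∑ i : Fin (X.dim + 1), ∑ j : Fin (X.dim + 1),
    pairingInv X (Sum.inl i) (Sum.inl j) * (f j * g i) =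
      ∑ i : Fin (X.dim + 1), (deg X)⁻¹ * (f (Fin.rev i) * g i) := by
  refine Finset.sum_congr rfl fun i _ => ?_
  rw [Finset.sum_eq_single (Fin.rev i)]
  · simp only [pairingInv]
    rw [if_pos]
    rw [Fin.val_rev]
    omega
  · intro j _ hj
    simp only [pairingInv]
    rw [if_neg, zero_mul]
    intro h
    apply hj
    apply Fin.ext
    rw [Fin.val_rev]
    omega
  · simp

lemma integral_inl_left (j : Fin (X.dim + 1)) (S : List (Ix X)) :
    integral X (Sum.inl j :: S) =
      (if ((j : ℕ) : WithTop ℕ) + pws X S = (X.dim : WithTop ℕ) then deg X else 0) +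
      (if (j : ℕ) = 0 then frm X (fil X S) else 0) := by
  rw [integral_eq]
  unfold amb
  rw [pws_cons]
  congr 1
  by_cases hj : (j : ℕ) = 0
  · rw [if_pos hj]
    have : (Sum.inl j : Ix X) = one X := by
      unfold one
      congr 1
      exact Fin.ext hj
    rw [this, fil_one]
  · rw [if_neg hj]
    apply frm_mem (X := X) j
    rw [fil_cons]
    · exact List.mem_cons_self
    · intro h
      apply hj
      unfold one at h
      have := Sum.inl.inj h
      rw [this]
      rfl

lemma integral_inl_right (i : Fin (X.dim + 1)) (T : List (Ix X)) :
    integral X (T ++ [Sum.inl i]) =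
      (if pws X T + ((i : ℕ) : WithTop ℕ) = (X.dim : WithTop ℕ) then deg X else 0) +
      (if (i : ℕ) = 0 then frm X (fil X T) else 0) := by
  have hp : pws X (T ++ [Sum.inl i]) = pws X T + ((i : ℕ) : WithTop ℕ) := by
    rw [pws_append]
    simp [pws, pw]
  rw [integral_eq]
  unfold amb
  rw [hp]
  have hf : frm X (fil X (T ++ [Sum.inl i])) = if (i : ℕ) = 0 then frm X (fil X T) else 0 := by
    by_cases hj : (i : ℕ) = 0
    · rw [if_pos hj]
      have : (Sum.inl i : Ix X) = one X := by
        unfold one
        congr 1
        exact Fin.ext hj
      rw [this, fil_append, fil_one]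
      simp [fil]
    · rw [if_neg hj]
      apply frm_mem (X := X) i
      rw [fil_append, fil_cons]
      · simp
      · intro h
        apply hj
        unfold one at h
        have := Sum.inl.inj h
        rw [this]
        rfl
  rw [hf]

lemma integral_inr_left (b : X.Prim) (S : List (Ix X)) :
    integral X (Sum.inr b :: S) = match fr1 S with
    | some c => X.form b c
    | none => 0 := by
  rw [integral_eq, frm_inr_left]
  unfold amb
  rw [if_neg, zero_add]
  rw [pws_cons]
  simp [pw]

lemma integral_inr_right (b : X.Prim) (T : List (Ix X)) :
    integral X (T ++ [Sum.inr b]) = match fr1 T with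
    | some c => X.form c b
    | none => 0 := by
  rw [integral_eq, frm_inr_right]
  unfold amb
  rw [if_neg, zero_add]
  rw [pws_append, pws_cons]
  simp [pw]

lemma glue_prim (S T : List (Ix X)) : ∑ a : X.Prim, ∑ b : X.Prim,
    (Matrix.of X.form)⁻¹ a b * (integral X (Sum.inr b :: S) * integral X (T ++ [Sum.inr a])) =
    (match fr1 T, fr1 S with
      | some a, some b => X.form a b
      | _, _ => 0) := by
  simp only [integral_inr_left, integral_inr_right]
  rcases fr1 T with _ | c' <;> rcases fr1 S with _ | c
  · simp
  · simp
  · simp
  · simp only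
    have h1 := Matrix.mul_nonsing_inv (Matrix.of X.form) (isUnit_iff_ne_zero.mpr X.form_nondeg)
    have h2 : (Matrix.of X.form) * (Matrix.of X.form)⁻¹ * (Matrix.of X.form) =
        Matrix.of X.form := by
      rw [h1, Matrix.one_mul]
    have h3 := congrFun (congrFun h2 c') c
    rw [Matrix.mul_apply] at h3
    simp only [Matrix.mul_apply, Finset.sum_mul] at h3
    rw [Finset.sum_comm] at h3
    rw [Matrix.of_apply] at h3
    rw [← h3]
    refine Finset.sum_congr rfl fun a _ => Finset.sum_congr rfl fun b _ => ?_
    simp only [Matrix.of_apply]
    ring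

lemma glue_main (S T : List (Ix X)) : ∑ i : Fin (X.dim + 1),
    (deg X)⁻¹ * (integral X (Sum.inl (Fin.rev i) :: S) * integral X (T ++ [Sum.inl i])) =
    amb X (T ++ S) + (if pws X S = 0 then frm X (fil X T) else 0) +
      (if pws X T = 0 then frm X (fil X S) else 0) := by
  have hd := deg_ne X
  have h3 := X.two_le_dim
  simp only [integral_inl_left, integral_inl_right]
  have hterm : ∀ i : Fin (X.dim + 1), (deg X)⁻¹ *
      (((if (((Fin.rev i : Fin (X.dim + 1)) : ℕ) : WithTop ℕ) + pws X S = (X.dim : WithTop ℕ)
          then deg X else 0) +
        (if ((Fin.rev i : Fin (X.dim + 1)) : ℕ) = 0 then frm X (fil X S) else 0)) *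
      ((if pws X T + ((i : ℕ) : WithTop ℕ) = (X.dim : WithTop ℕ) then deg X else 0) +
        (if (i : ℕ) = 0 then frm X (fil X T) else 0))) =
      (if pws X S = ((i : ℕ) : WithTop ℕ) then
        (if pws X T + ((i : ℕ) : WithTop ℕ) = (X.dim : WithTop ℕ) then deg X else 0) else 0) +
      (if i = 0 then (if pws X S = 0 then frm X (fil X T) else 0) else 0) +
      (if i = Fin.last X.dim then (if pws X T = 0 then frm X (fil X S) else 0) else 0) := by
    intro i
    have e1 : (((Fin.rev i : Fin (X.dim + 1)) : ℕ) : WithTop ℕ) + pws X S =
        (X.dim : WithTop ℕ) ↔ pws X S = ((i : ℕ) : WithTop ℕ) := by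
      have hi : ((Fin.rev i : Fin (X.dim + 1)) : ℕ) + i = X.dim := by
        rw [Fin.val_rev]; omega
      by_cases ht : pws X S = ⊤
      · rw [ht]; simp
      · obtain ⟨k, hk⟩ := WithTop.ne_top_iff_exists.mp ht
        have hk' : pws X S = (k : WithTop ℕ) := hk.symm
        rw [hk']
        constructor
        · intro h
          have h4 : ((Fin.rev i : Fin (X.dim + 1)) : ℕ) + k = X.dim := by exact_mod_cast h
          have : k = i := by omega
          rw [this]
        · intro h
          have h4 : k = i := by exact_mod_cast h
          rw [h4]
          exact_mod_cast hi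
    have e2 : ((Fin.rev i : Fin (X.dim + 1)) : ℕ) = 0 ↔ i = Fin.last X.dim := by
      rw [Fin.val_rev]
      constructor
      · intro h
        apply Fin.ext
        rw [Fin.val_last]
        omega
      · intro h
        rw [h, Fin.val_last]
        omega
    have e3 : (i : ℕ) = 0 ↔ i = 0 := by
      constructor
      · intro h; exact Fin.ext h
      · intro h; rw [h]; rfl
    simp only [e1, e2, e3]
    by_cases hi0 : i = 0
    · subst hi0
      have hl : ¬ ((0 : Fin (X.dim + 1)) = Fin.last X.dim) := by
        intro h
        have := congrArg Fin.val h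
        rw [Fin.val_last] at this
        simp at this
        omega
      rw [if_neg hl, if_neg hl, if_pos rfl, if_pos rfl, add_zero, add_zero]
      have h0 : (((0 : Fin (X.dim + 1)) : ℕ) : WithTop ℕ) = 0 := by simp
      rw [h0, add_zero]
      by_cases hS : pws X S = 0
      · simp only [if_pos hS]
        rw [← mul_assoc, inv_mul_cancel₀ hd, one_mul]
      · simp only [if_neg hS]
        ring
    · rw [if_neg hi0, if_neg hi0, add_zero, add_zero]
      by_cases hil : i = Fin.last X.dim
      · subst hil
        rw [if_pos rfl, if_pos rfl]
        have h0 : (((Fin.last X.dim : Fin (X.dim + 1)) : ℕ) : WithTop ℕ) =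
            (X.dim : WithTop ℕ) := by simp
        rw [h0]
        have h1 : pws X T + (X.dim : WithTop ℕ) = (X.dim : WithTop ℕ) ↔ pws X T = 0 := by
          by_cases ht : pws X T = ⊤
          · rw [ht]; simp
          · obtain ⟨k, hk⟩ := WithTop.ne_top_iff_exists.mp ht
            have hk' : pws X T = (k : WithTop ℕ) := hk.symm
            rw [hk']
            constructor
            · intro h
              have h4 : k + X.dim = X.dim := by exact_mod_cast h
              have : k = 0 := by omega
              rw [this]; rfl
            · intro h
              have h4 : k = 0 := by exact_mod_cast h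
              rw [h4]
              simp
        simp only [h1]
        by_cases hT : pws X T = 0
        · simp only [if_pos hT]
          by_cases hS : pws X S = (X.dim : WithTop ℕ)
          · simp only [if_pos hS]
            field_simp
          · simp only [if_neg hS]
            field_simp
        · simp only [if_neg hT]
          by_cases hS : pws X S = (X.dim : WithTop ℕ)
          · simp only [if_pos hS]
            ring
          · simp only [if_neg hS]
            ring
      · rw [if_neg hil, if_neg hil, add_zero, add_zero]
        by_cases hS : pws X S = ((i : ℕ) : WithTop ℕ)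
        · simp only [if_pos hS]
          rw [← mul_assoc, inv_mul_cancel₀ hd, one_mul]
        · simp only [if_neg hS]
          ring
  rw [Finset.sum_congr rfl fun i _ => hterm i, Finset.sum_add_distrib, Finset.sum_add_distrib,
    Finset.sum_ite_eq' Finset.univ (0 : Fin (X.dim + 1)), if_pos (Finset.mem_univ _),
    Finset.sum_ite_eq' Finset.univ (Fin.last X.dim), if_pos (Finset.mem_univ _)]
  congr 2
  unfold amb
  rw [pws_append]
  by_cases ht : pws X S = ⊤
  · rw [ht]
    simp
  · obtain ⟨k, hk⟩ := WithTop.ne_top_iff_exists.mp ht
    have hk' : pws X S = (k : WithTop ℕ) := hk.symm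
    rw [hk']
    by_cases hkd : k < X.dim + 1
    · rw [Finset.sum_eq_single ⟨k, hkd⟩]
      · simp
      · intro i _ hi
        rw [if_neg]
        intro h
        apply hi
        have h4 : k = i := by exact_mod_cast h
        exact Fin.ext h4.symm
      · simp
    · rw [Finset.sum_eq_zero, if_neg]
      · intro h
        have h1 : ((k : ℕ) : WithTop ℕ) ≤ pws X T + k := le_add_self
        rw [h] at h1
        have : k ≤ X.dim := by exact_mod_cast h1
        omega
      · intro i _
        rw [if_neg]
        intro h
        have h4 : k = i := by exact_mod_cast h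
        omega

/-- Glueing formula. -/
theorem glue (S T : List (Ix X)) : ∑ α, ∑ β, pairingInv X α β *
    (integral X (β :: S) * integral X (T ++ [α])) = integral X (T ++ S) := by
  rw [Fintype.sum_sum_type]
  simp only [Fintype.sum_sum_type]
  have h1 : ∀ (i : Fin (X.dim + 1)) (b : X.Prim),
      pairingInv X (Sum.inl i) (Sum.inr b) = 0 := fun i b => rfl
  have h2 : ∀ (i : Fin (X.dim + 1)) (b : X.Prim),
      pairingInv X (Sum.inr b) (Sum.inl i) = 0 := fun i b => rfl
  simp only [h1, h2, zero_mul, Finset.sum_const_zero, add_zero, zero_add]
  rw [glue_amb (fun j => integral X (Sum.inl j :: S)) (fun i => integral X (T ++ [Sum.inl i])),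
    glue_main]
  have h3 : ∀ a b : X.Prim, pairingInv X (Sum.inr a) (Sum.inr b) =
    (Matrix.of X.form)⁻¹ a b := fun a b => rfl
  simp only [h3]
  rw [glue_prim, integral_eq, frm_append]
  ring

/-- The integral of two classes. -/
lemma integral_pair (a b : Ix X) : integral X [a, b] = pairing X a b := by
  rcases a with i | a
  · rw [integral_inl_left]
    rcases b with j | b
    · have h1 : frm X (fil X [Sum.inl j]) = 0 := by
        apply frm_long
        unfold fil
        intro h
        have := List.length_filter_le (fun a => decide (a ≠ one X)) [(Sum.inl j : Ix X)]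
        simp only [List.length_cons, List.length_nil] at this
        omega
      rw [h1, ite_self, add_zero]
      simp only [pws, pw, List.map_cons, List.map_nil, List.sum_cons, List.sum_nil, add_zero,
        pairing]
      congr 1
      rw [← Nat.cast_add]
      simp only [Nat.cast_inj]
    · have h1 : frm X (fil X [Sum.inr b]) = 0 := by
        apply frm_long
        rw [fil_cons _ (by simp [one])]
        simp [fil]
      rw [h1, ite_self, add_zero]
      simp [pws, pw, pairing]
  · rw [integral_inr_left]
    rcases b with j | b
    · have : fr1 [(Sum.inl j : Ix X)] = none := by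
        unfold fr1
        by_cases hj : (Sum.inl j : Ix X) = one X
        · rw [hj, fil_one]; rfl
        · rw [fil_cons _ hj]
      rw [this]
      simp [pairing]
    · have : fr1 [(Sum.inr b : Ix X)] = some b := by
        unfold fr1
        rw [fil_cons _ (by simp [one])]
        rfl
      rw [this]
      rfl

/-- Sign of moving a parity past a list of classes. -/
def csg (a : Bool) (L : List (Ix X)) : ℂ := (L.map fun x => sg ℂ a (par X x)).prod

lemma csg_cons (a : Bool) (x : Ix X) (L : List (Ix X)) :
    csg a (x :: L) = sg ℂ a (par X x) * csg a L := by simp [csg]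

lemma csg_append (a : Bool) (L M : List (Ix X)) : csg a (L ++ M) = csg a L * csg a M := by
  simp [csg]

lemma csg_fil (a : Bool) (L : List (Ix X)) : csg a (fil X L) = csg a L := by
  induction L with
  | nil => rfl
  | cons x L ih =>
    by_cases hx : x = one X
    · subst hx
      rw [fil_one, ih, csg_cons]
      simp [par, one]
    · rw [fil_cons x hx, csg_cons, csg_cons, ih]

lemma pws_top_of_inr {L : List (Ix X)} {a : X.Prim} (h : Sum.inr a ∈ L) : pws X L = ⊤ := by
  induction L with
  | nil => simp at h
  | cons x L ih =>
    rw [pws_cons]
    rcases List.mem_cons.mp h with h | h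
    · rw [← h]; simp [pw]
    · rw [ih h]; simp

lemma csg_inl (a : Bool) {L : List (Ix X)} (h : ∀ x ∈ L, ∃ j, x = Sum.inl j) :
    csg a L = 1 := by
  induction L with
  | nil => rfl
  | cons x L ih =>
    obtain ⟨j, rfl⟩ := h x (by simp)
    rw [csg_cons, ih fun y hy => h y (by simp [hy])]
    simp [par]

/-- Either all classes are ambient and of total degree `dim`, or there are exactly two classes
different from the unit, both primitive. -/
lemma integral_cases (L : List (Ix X)) (h : integral X L ≠ 0) :
    ((∀ a ∈ L, ∃ j, a = Sum.inl j) ∧ (L.map (hp X)).sum = X.dim) ∨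
    (∃ a b, fil X L = [Sum.inr a, Sum.inr b] ∧ X.form a b ≠ 0) := by
  rw [integral_eq] at h
  by_cases hc : pws X L = (X.dim : WithTop ℕ)
  · exact Or.inl ((all_inl_iff L).mpr hc)
  · right
    unfold amb at h
    rw [if_neg hc, zero_add] at h
    unfold frm at h
    split at h
    · rename_i a b hab
      exact ⟨a, b, hab, h⟩
    · exact absurd rfl h

lemma integral_even (a : Bool) (L : List (Ix X)) : csg a L * integral X L = integral X L := by
  by_cases h : integral X L = 0
  · rw [h, mul_zero]
  · rcases integral_cases L h with h1 | ⟨x, y, h1, _⟩
    · rw [csg_inl a h1.1, one_mul]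
    · rw [← csg_fil, h1]
      have : csg a [(Sum.inr x : Ix X), Sum.inr y] = 1 := by
        unfold csg
        simp only [List.map_cons, List.map_nil, List.prod_cons, List.prod_nil, mul_one]
        have h2 : par X (Sum.inr x) = par X (Sum.inr y) := rfl
        rw [h2, sg_mul_self]
      rw [this, one_mul]

lemma hp_fil (L : List (Ix X)) : ((fil X L).map (hp X)).sum = (L.map (hp X)).sum := by
  induction L with
  | nil => rfl
  | cons x L ih =>
    by_cases hx : x = one X
    · subst hx
      rw [fil_one, ih]
      simp [hp, one]
    · rw [fil_cons x hx, List.map_cons, List.map_cons, List.sum_cons, List.sum_cons, ih]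

lemma hq_fil (L : List (Ix X)) : ((fil X L).map (hq X)).sum = (L.map (hq X)).sum := by
  induction L with
  | nil => rfl
  | cons x L ih =>
    by_cases hx : x = one X
    · subst hx
      rw [fil_one, ih]
      simp [hq, one]
    · rw [fil_cons x hx, List.map_cons, List.map_cons, List.sum_cons, List.sum_cons, ih]

lemma integral_hp (L : List (Ix X)) (h : integral X L ≠ 0) : (L.map (hp X)).sum = X.dim := by
  rcases integral_cases L h with h1 | ⟨x, y, h1, h2⟩
  · exact h1.2
  · rw [← hp_fil, h1]
    simp only [List.map_cons, List.map_nil, List.sum_cons, List.sum_nil, add_zero, hp]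
    exact X.form_hodge x y h2

lemma integral_hq (L : List (Ix X)) (h : integral X L ≠ 0) : (L.map (hq X)).sum = X.dim := by
  rcases integral_cases L h with h1 | ⟨x, y, h1, h2⟩
  · rw [← h1.2]
    congr 1
    apply List.map_congr_left
    intro a ha
    obtain ⟨j, rfl⟩ := h1.1 a ha
    rfl
  · rw [← hq_fil, h1]
    simp only [List.map_cons, List.map_nil, List.sum_cons, List.sum_nil, add_zero, hq]
    have h3 := X.form_hodge x y h2
    omega

/-- Moving a class past a list. -/
lemma integral_move (P M S : List (Ix X)) (c : Ix X) :
    integral X (P ++ c :: (M ++ S)) = csg (par X c) M * integral X (P ++ (M ++ c :: S)) := by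
  induction M generalizing P with
  | nil => simp [csg]
  | cons x M ih =>
    rw [List.cons_append, List.cons_append, integral_swap, csg_cons]
    have h1 := ih (P ++ [x])
    rw [List.append_assoc, List.append_assoc] at h1
    simp only [List.cons_append, List.nil_append] at h1
    rw [h1]
    ring

end Vale.Agent.P269.H597
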