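import Mathlib

/-!
# Super shuffle products of coefficient functions

A formal power series in super variables indexed by `I` (with parity `par : I → Bool`) is
represented by its Taylor coefficients, a function on lists.  `sh par B L C D` is the
coefficient at the list `L` of the product of `C` and `D` (values multiplied by the bilinear
map `B`): the sum over all splittings of `L` into two complementary sublists, with Koszul sign.
-/

namespace Vale.Agent.P269.H597

variable {K : Type*} [CommRing K]
variable {I : Type*} {ι : Type*}
variable {U V W X Y Z V' W' U' : Type*}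
variable [AddCommGroup U] [Module K U] [AddCommGroup V] [Module K V] [AddCommGroup W]
  [Module K W] [AddCommGroup X] [Module K X] [AddCommGroup Y] [Module K Y]
  [AddCommGroup Z] [Module K Z] [AddCommGroup V'] [Module K V'] [AddCommGroup W']
  [Module K W'] [AddCommGroup U'] [Module K U']

/-- The sign `(-1)^{ab}`. -/
def sg (K : Type*) [CommRing K] (a b : Bool) : K := if a && b then -1 else 1

lemma sg_mul_self (a b : Bool) : sg K a b * sg K a b = 1 := by
  cases a <;> cases b <;> simp [sg]

lemma sg_comm (a b : Bool) : sg K a b = sg K b a := by
  cases a <;> cases b <;> simp [sg]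

lemma sg_xor_right (a b c : Bool) : sg K a (xor b c) = sg K a b * sg K a c := by
  cases a <;> cases b <;> cases c <;> simp [sg]

lemma sg_xor_left (a b c : Bool) : sg K (xor a b) c = sg K a c * sg K b c := by
  cases a <;> cases b <;> cases c <;> simp [sg]

@[simp] lemma sg_false_left (a : Bool) : sg K false a = 1 := by simp [sg]

@[simp] lemma sg_false_right (a : Bool) : sg K a false = 1 := by simp [sg]

/-- The sign for moving an element of parity `a` through the list `L`. -/
def lsg (K : Type*) [CommRing K] (par : I → Bool) (a : Bool) (L : List I) : K :=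
  (L.map fun i => sg K a (par i)).prod

@[simp] lemma lsg_nil (par : I → Bool) (a : Bool) : lsg K par a [] = 1 := by simp [lsg]

@[simp] lemma lsg_cons (par : I → Bool) (a : Bool) (i : I) (L : List I) :
    lsg K par a (i :: L) = sg K a (par i) * lsg K par a L := by simp [lsg]

lemma lsg_xor (par : I → Bool) (a b : Bool) (L : List I) :
    lsg K par (xor a b) L = lsg K par a L * lsg K par b L := by
  induction L with
  | nil => simp
  | cons i L ih => simp only [lsg_cons, ih, sg_xor_left]; ring

@[simp] lemma lsg_false (par : I → Bool) (L : List I) : lsg K par false L = 1 := by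
  induction L with
  | nil => simp
  | cons i L ih => simp [ih]

lemma lsg_mul_self (par : I → Bool) (a : Bool) (L : List I) :
    lsg K par a L * lsg K par a L = 1 := by
  rw [← lsg_xor]; simp

/-- Coefficient at `L` of the product of two super power series. -/
def sh (par : I → Bool) (B : V →ₗ[K] W →ₗ[K] U) : List I → (List I → V) → (List I → W) → U
  | [], C, D => B (C []) (D [])
  | i :: L, C, D => sh par B L (fun M => C (i :: M)) D +
      sh par B L (fun M => lsg K par (par i) M • C M) (fun M => D (i :: M))

variable (par : I → Bool)

lemma sh_nil (B : V →ₗ[K] W →ₗ[K] U) (C : List I → V) (D : List I → W) :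
    sh par B [] C D = B (C []) (D []) := rfl

lemma sh_cons (B : V →ₗ[K] W →ₗ[K] U) (i : I) (L : List I) (C : List I → V) (D : List I → W) :
    sh par B (i :: L) C D = sh par B L (fun M => C (i :: M)) D +
      sh par B L (fun M => lsg K par (par i) M • C M) (fun M => D (i :: M)) := rfl

lemma sh_add_left (B : V →ₗ[K] W →ₗ[K] U) (L : List I) (C C' : List I → V) (D : List I → W) :
    sh par B L (fun M => C M + C' M) D = sh par B L C D + sh par B L C' D := by
  induction L generalizing C C' D with
  | nil => simp [sh_nil]
  | cons i L ih =>
    simp only [sh_cons, smul_add, ih]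
    abel

lemma sh_add_right (B : V →ₗ[K] W →ₗ[K] U) (L : List I) (C : List I → V)
    (D D' : List I → W) :
    sh par B L C (fun M => D M + D' M) = sh par B L C D + sh par B L C D' := by
  induction L generalizing C D D' with
  | nil => simp [sh_nil]
  | cons i L ih =>
    simp only [sh_cons, ih]
    abel

lemma sh_smul_left (B : V →ₗ[K] W →ₗ[K] U) (L : List I) (k : K) (C : List I → V)
    (D : List I → W) :
    sh par B L (fun M => k • C M) D = k • sh par B L C D := by
  induction L generalizing C D with
  | nil => simp [sh_nil]
  | cons i L ih =>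
    simp only [sh_cons, smul_add, ih]
    congr 1
    rw [← ih]
    congr 1
    funext M
    rw [smul_comm]

lemma sh_smul_right (B : V →ₗ[K] W →ₗ[K] U) (L : List I) (k : K) (C : List I → V)
    (D : List I → W) :
    sh par B L C (fun M => k • D M) = k • sh par B L C D := by
  induction L generalizing C D with
  | nil => simp [sh_nil]
  | cons i L ih =>
    simp only [sh_cons, smul_add, ih]

lemma sh_zero_left (B : V →ₗ[K] W →ₗ[K] U) (L : List I) (D : List I → W) :
    sh par B L (fun _ => 0) D = 0 := by
  have := sh_smul_left par B L 0 (fun _ => 0) D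
  simpa using this

lemma sh_zero_right (B : V →ₗ[K] W →ₗ[K] U) (L : List I) (C : List I → V) :
    sh par B L C (fun _ => 0) = 0 := by
  have := sh_smul_right par B L 0 C (fun _ => 0)
  simpa using this

lemma sh_neg_left (B : V →ₗ[K] W →ₗ[K] U) (L : List I) (C : List I → V)
    (D : List I → W) :
    sh par B L (fun M => - C M) D = - sh par B L C D := by
  have := sh_smul_left par B L (-1) C D
  simpa using this

lemma sh_neg_right (B : V →ₗ[K] W →ₗ[K] U) (L : List I) (C : List I → V)
    (D : List I → W) :
    sh par B L C (fun M => - D M) = - sh par B L C D := by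
  have := sh_smul_right par B L (-1) C D
  simpa using this

lemma sh_sum_left {σ : Type*} (s : Finset σ) (B : V →ₗ[K] W →ₗ[K] U) (L : List I)
    (C : σ → List I → V) (D : List I → W) :
    sh par B L (fun M => ∑ x ∈ s, C x M) D = ∑ x ∈ s, sh par B L (C x) D := by
  classical
  induction s using Finset.induction_on with
  | empty => simp [sh_zero_left]
  | insert a s ha ih => simp only [Finset.sum_insert ha, sh_add_left, ih]

lemma sh_sum_right {σ : Type*} (s : Finset σ) (B : V →ₗ[K] W →ₗ[K] U) (L : List I)
    (C : List I → V) (D : σ → List I → W) :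
    sh par B L C (fun M => ∑ x ∈ s, D x M) = ∑ x ∈ s, sh par B L C (D x) := by
  classical
  induction s using Finset.induction_on with
  | empty => simp [sh_zero_right]
  | insert a s ha ih => simp only [Finset.sum_insert ha, sh_add_right, ih]

lemma sh_comp_left (B : V →ₗ[K] W →ₗ[K] U) (f : V' →ₗ[K] V) (L : List I)
    (C : List I → V') (D : List I → W) :
    sh par B L (fun M => f (C M)) D = sh par (B.comp f) L C D := by
  induction L generalizing C D with
  | nil => simp [sh_nil]
  | cons i L ih =>
    simp only [sh_cons, ih]
    congr 1
    rw [← ih]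
    simp

lemma sh_comp_right (B : V →ₗ[K] W →ₗ[K] U) (g : W' →ₗ[K] W) (L : List I)
    (C : List I → V) (D : List I → W') :
    sh par B L C (fun M => g (D M)) = sh par (B.compl₂ g) L C D := by
  induction L generalizing C D with
  | nil => simp [sh_nil]
  | cons i L ih =>
    simp only [sh_cons, ih]

lemma sh_comp_out (B : V →ₗ[K] W →ₗ[K] U) (h : U →ₗ[K] U') (L : List I)
    (C : List I → V) (D : List I → W) :
    h (sh par B L C D) = sh par (B.compr₂ h) L C D := by
  induction L generalizing C D with
  | nil => simp [sh_nil]
  | cons i L ih =>
    simp only [sh_cons, map_add, ih]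

/-- Twisting both factors twists the product. -/
lemma sh_tw (B : V →ₗ[K] W →ₗ[K] U) (a : Bool) (L : List I)
    (C : List I → V) (D : List I → W) :
    sh par B L (fun M => lsg K par a M • C M) (fun M => lsg K par a M • D M) =
      lsg K par a L • sh par B L C D := by
  induction L generalizing C D with
  | nil => simp [sh_nil]
  | cons i L ih =>
    simp only [sh_cons, lsg_cons, mul_smul, smul_add]
    congr 1
    · rw [sh_smul_left, ih]
    · rw [sh_smul_right]
      rw [← ih]
      congr 2
      funext M
      rw [smul_comm]

/-- Associativity. -/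
lemma sh_assoc (B1 : X →ₗ[K] Y →ₗ[K] Z) (B2 : V →ₗ[K] W →ₗ[K] X) (B3 : V →ₗ[K] U →ₗ[K] Z)
    (B4 : W →ₗ[K] Y →ₗ[K] U) (hB : ∀ v w y, B1 (B2 v w) y = B3 v (B4 w y))
    (L : List I) (C : List I → V) (D : List I → W) (E : List I → Y) :
    sh par B1 L (fun M => sh par B2 M C D) E = sh par B3 L C (fun M => sh par B4 M D E) := by
  induction L generalizing C D E with
  | nil => simp [sh_nil, hB]
  | cons i L ih =>
    simp only [sh_cons, sh_add_left, sh_add_right, ih]
    rw [add_assoc]
    congr 1
    congr 1
    rw [← ih]
    congr 1
    funext M
    rw [sh_tw]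

/-- The constant series. -/
def cst (v : V) : List I → V
  | [] => v
  | _ :: _ => 0

@[simp] lemma cst_nil (v : V) : cst v ([] : List I) = v := rfl
@[simp] lemma cst_cons (v : V) (i : I) (M : List I) : cst v (i :: M) = 0 := rfl

lemma tw_cst (a : Bool) (v : V) (M : List I) : lsg K par a M • cst v M = cst v M := by
  cases M <;> simp

lemma sh_cst_left (B : V →ₗ[K] W →ₗ[K] U) (L : List I) (v : V) (D : List I → W) :
    sh par B L (cst v) D = B v (D L) := by
  induction L generalizing D with
  | nil => simp [sh_nil]
  | cons i L ih =>
    simp only [sh_cons, tw_cst, cst_cons, sh_zero_left, zero_add]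
    exact ih _

lemma sh_cst_right (B : V →ₗ[K] W →ₗ[K] U) (L : List I) (C : List I → V) (w : W) :
    sh par B L C (cst w) = B (C L) w := by
  induction L generalizing C with
  | nil => simp [sh_nil]
  | cons i L ih =>
    simp only [sh_cons, cst_cons, sh_zero_right, add_zero]
    exact ih _

end Vale.Agent.P269.H597
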