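import Vale.Agent.P269.H597.Existence

/-!
# Existence of a system of invariants
-/

set_option linter.unusedSectionVars false

namespace Vale.Agent.P269.H597

open Finset.HasAntidiagonal (antidiagonal)
open Vale.Agent.P269
open CI

variable (X : CompleteIntersection)

/-- The system of degree-zero invariants (zero in positive degree). -/
noncomputable def sol (g d : ℕ) (L : List (Ins X)) : ℂ :=
  if d = 0 then
    if g = 0 then fI X L
    else if g = 1 then fA X 0 (deg X * chernCoeff X X.dim / 24) 0 L +
      (- (deg X * chernCoeff X (X.dim - 1)) / 24) * fB X L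
    else constMap X g * fA X (2 * g - 2) 0 1 L
  else 0

variable {X}

lemma sol_pos {g d : ℕ} (hd : d ≠ 0) (L : List (Ins X)) : sol X g d L = 0 := by
  unfold sol
  rw [if_neg hd]

lemma sol_zero (L : List (Ins X)) : sol X 0 0 L = fI X L := by
  unfold sol
  rw [if_pos rfl, if_pos rfl]

lemma sol_one (L : List (Ins X)) : sol X 1 0 L =
    fA X 0 (deg X * chernCoeff X X.dim / 24) 0 L +
      (- (deg X * chernCoeff X (X.dim - 1)) / 24) * fB X L := by
  unfold sol
  rw [if_pos rfl, if_neg one_ne_zero, if_pos rfl]

lemma sol_two (g : ℕ) (hg : 2 ≤ g) (L : List (Ins X)) : sol X g 0 L =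
    constMap X g * fA X (2 * g - 2) 0 1 L := by
  unfold sol
  rw [if_pos rfl, if_neg (by omega), if_neg (by omega)]

lemma lowerSum_zero (T : Ix X → Ix X → ℂ) (L : List (Ins X)) :
    lowerSum X T (fun _ => 0) L = 0 := by
  have := lowerSum_smul T 0 (fun _ : List (Ins X) => (0 : ℂ)) L
  simpa using this

lemma shuffle_zero_left (L : List (Ins X)) (B : List (Ins X) → ℂ) :
    shuffle X L (fun _ => 0) B = 0 := by
  rw [shuffle_eq]
  exact sh_zero_left _ _ _ _

lemma shuffle_zero_right (L : List (Ins X)) (A : List (Ins X) → ℂ) :
    shuffle X L A (fun _ => 0) = 0 := by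
  rw [shuffle_eq]
  exact sh_zero_right _ _ _ _

lemma sum_shift (f : Ix X → ℕ) (L : List (Ins X)) :
    (L.map fun x => (x.2 : ℤ) + f x.1 - 1).sum =
      ((L.map Prod.snd).sum : ℤ) + (((L.map Prod.fst).map f).sum : ℤ) - L.length := by
  induction L with
  | nil => simp
  | cons x L ih =>
    simp only [List.map_cons, List.sum_cons, ih, List.length_cons]
    push_cast
    ring

lemma fI_grading (f : Ix X → ℕ) (hf : ∀ M, integral X M ≠ 0 → (M.map f).sum = X.dim)
    (L : List (Ins X)) (h : fI X L ≠ 0) :
    (L.map fun x => (x.2 : ℤ) + f x.1 - 1).sum = (X.dim : ℤ) - 3 := by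
  unfold fI at h
  have h1 := hf _ (right_ne_zero_of_mul h)
  have h2 := left_ne_zero_of_mul h
  unfold Nz at h2
  rw [sum_shift, h1]
  by_cases h3 : (L.map Prod.snd).sum + 3 = (L.map Prod.snd).length
  · rw [List.length_map] at h3
    have h4 : ((L.map Prod.snd).sum : ℤ) + 3 = L.length := by exact_mod_cast h3
    linarith
  · rw [if_neg h3] at h2
    exact absurd rfl h2

lemma fil_sum (f : Ix X → ℕ) (hf : f (one X) = 0) (L : List (Ix X)) :
    (L.map f).sum = ((fil X L).map f).sum := by
  induction L with
  | nil => rfl
  | cons x L ih =>
    by_cases hx : x = one X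
    · subst hx
      rw [fil_one, List.map_cons, List.sum_cons, hf, zero_add, ih]
    · rw [fil_cons x hx, List.map_cons, List.map_cons, List.sum_cons, List.sum_cons, ih]

lemma fA_grading (f : Ix X → ℕ) (hf : f (one X) = 0) (x t c0 : ℂ)
    (L : List (Ins X)) (h : fA X x t c0 L ≠ 0) :
    (L.map fun x => (x.2 : ℤ) + f x.1 - 1).sum = 0 := by
  unfold fA at h
  have h1 := right_ne_zero_of_mul h
  have h2 := left_ne_zero_of_mul h
  have h3 := Ef_wt (bs x t c0) L.length _ (by simp) h2
  unfold vA at h1
  by_cases h4 : fil X (L.map Prod.fst) = []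
  · rw [sum_shift, fil_sum f hf, h4]
    have h5 : ((L.map Prod.snd).sum : ℤ) = L.length := by
      have : (L.map Prod.snd).sum = L.length := by simpa using h3
      exact_mod_cast this
    rw [h5]
    simp
  · rw [if_neg h4] at h1
    exact absurd rfl h1

lemma fB_grading (f : Ix X → ℕ) (hf : f (one X) = 0) (hf1 : f (hcls X) = 1)
    (L : List (Ins X)) (h : fB X L ≠ 0) :
    (L.map fun x => (x.2 : ℤ) + f x.1 - 1).sum = 0 := by
  unfold fB at h
  have h1 := right_ne_zero_of_mul h
  have h2 := left_ne_zero_of_mul h
  unfold Nz at h2
  unfold vB at h1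
  by_cases h4 : fil X (L.map Prod.fst) = [hcls X]
  · rw [sum_shift, fil_sum f hf, h4]
    by_cases h3 : (L.map Prod.snd).sum + 1 = (L.map Prod.snd).length
    · rw [List.length_map] at h3
      have h5 : ((L.map Prod.snd).sum : ℤ) + 1 = L.length := by exact_mod_cast h3
      simp only [List.map_cons, List.map_nil, List.sum_cons, List.sum_nil, hf1]
      push_cast
      linarith
    · rw [if_neg h3] at h2
      exact absurd rfl h2
  · rw [if_neg h4] at h1
    exact absurd rfl h1

lemma sol_grading (f : Ix X → ℕ) (hf : f (one X) = 0) (hf1 : f (hcls X) = 1)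
    (hfi : ∀ M, integral X M ≠ 0 → (M.map f).sum = X.dim) (g d : ℕ)
    (L : List (Ins X)) (h : sol X g d L ≠ 0) :
    (L.map fun x => (x.2 : ℤ) + f x.1 - 1).sum =
      (1 - (g : ℤ)) * (X.dim - 3) + index X * d := by
  by_cases hd : d = 0
  · subst hd
    rcases Nat.lt_or_ge g 2 with hg | hg
    · interval_cases g
      · rw [sol_zero] at h
        rw [fI_grading f hfi L h]
        push_cast; ring
      · rw [sol_one] at h
        have h1 : (L.map fun x => (x.2 : ℤ) + f x.1 - 1).sum = 0 := by
          by_cases hA : fA X 0 (deg X * chernCoeff X X.dim / 24) 0 L = 0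
          · rw [hA, zero_add] at h
            exact fB_grading f hf hf1 L (right_ne_zero_of_mul h)
          · exact fA_grading f hf _ _ _ L hA
        rw [h1]
        push_cast; ring
    · rw [sol_two g hg] at h
      rw [fA_grading f hf _ _ _ L (right_ne_zero_of_mul h)]
      have h1 := left_ne_zero_of_mul h
      have h2 : X.dim = 3 := by
        by_contra h3
        apply h1
        unfold constMap
        rw [if_neg h3]
      rw [h2]
      push_cast; ring
  · exact absurd (sol_pos hd L) h

/-- The degree-zero invariants satisfy the axioms. -/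
theorem sol_isGW : IsGW X (sol X) where
  symm := by
    intro g d L M x y
    by_cases hd : d = 0
    · subst hd
      rcases Nat.lt_or_ge g 2 with hg | hg
      · interval_cases g
        · rw [sol_zero, sol_zero, fI_swap]
        · rw [sol_one, sol_one, fA_swap, fB_swap]
          ring
      · rw [sol_two g hg, sol_two g hg, fA_swap]
        ring
    · rw [sol_pos hd, sol_pos hd, mul_zero]
  grading_p := by
    intro g d L h
    refine sol_grading (hp X) ?_ ?_ integral_hp g d L h
    · simp [hp, one]
    · simp [hp, hcls]
  grading_q := by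
    intro g d L h
    refine sol_grading (hq X) ?_ ?_ integral_hq g d L h
    · simp [hq, one]
    · simp [hq, hcls]
  unstable0 := by
    intro L hL
    rw [sol_zero]
    unfold fI Nz
    rw [if_neg, zero_mul]
    rw [List.length_map]
    omega
  unstable1 := by
    rw [sol_one]
    have h1 : fA X 0 (deg X * chernCoeff X X.dim / 24) 0 [] = 0 := by
      unfold fA
      simp only [List.map_nil]
      have : Ef (bs 0 (deg X * chernCoeff X X.dim / 24) 0) (([] : List ℕ) : Multiset ℕ) = 0 := by
        unfold Ef
        simp [Eaux, bs]
      rw [this, zero_mul]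
    have h2 : fB X [] = 0 := by
      unfold fB Nz
      simp
    rw [h1, h2]
    ring
  string := by
    intro g d L
    by_cases hd : d = 0
    · subst hd
      rcases Nat.lt_or_ge g 2 with hg | hg
      · interval_cases g
        · rw [if_pos ⟨rfl, rfl⟩]
          have h1 : sol X 0 0 = fI X := funext fun M => sol_zero M
          rw [h1]
          exact fI_string L
        · rw [if_neg (by simp), add_zero]
          have h1 : sol X 1 0 = fun M => fA X 0 (deg X * chernCoeff X X.dim / 24) 0 M +
            (- (deg X * chernCoeff X (X.dim - 1)) / 24) * fB X M := funext fun M => sol_one M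
          rw [h1]
          simp only
          rw [lowerSum_add, lowerSum_smul, fA_string, fB_string]
      · rw [if_neg (by omega), add_zero]
        have h1 : sol X g 0 = fun M => constMap X g * fA X (2 * g - 2) 0 1 M :=
          funext fun M => sol_two g hg M
        rw [h1]
        simp only
        rw [lowerSum_smul, fA_string]
    · have h1 : sol X g d = fun _ => 0 := funext fun M => sol_pos hd M
      rw [h1, lowerSum_zero, if_neg (by tauto), add_zero]
  dilaton := by
    intro g d L
    by_cases hd : d = 0
    · subst hd
      rcases Nat.lt_or_ge g 2 with hg | hg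
      · interval_cases g
        · rw [if_neg (by simp), add_zero, sol_zero, sol_zero, fI_dilaton]
          push_cast; ring
        · rw [if_pos ⟨rfl, rfl⟩, sol_one, sol_one, fA_dilaton, fB_dilaton]
          push_cast; ring
      · rw [if_neg (by omega), add_zero, sol_two g hg, sol_two g hg, fA_dilaton]
        have : emptyTerm X 0 L = 0 := by
          cases L <;> simp [emptyTerm]
        rw [this]
        ring
    · rw [sol_pos hd, sol_pos hd, if_neg (by tauto)]
      ring
  divisor := by
    intro g d L
    by_cases hd : d = 0
    · subst hd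
      rcases Nat.lt_or_ge g 2 with hg | hg
      · interval_cases g
        · rw [if_pos ⟨rfl, rfl⟩, if_neg (by simp), add_zero]
          have h1 : sol X 0 0 = fI X := funext fun M => sol_zero M
          rw [h1, fI_divisor]
          push_cast; ring
        · rw [if_neg (by simp), if_pos ⟨rfl, rfl⟩]
          have h1 : sol X 1 0 = fun M => fA X 0 (deg X * chernCoeff X X.dim / 24) 0 M +
            (- (deg X * chernCoeff X (X.dim - 1)) / 24) * fB X M := funext fun M => sol_one M
          rw [h1]
          simp only
          rw [lowerSum_add, lowerSum_smul, fA_divisor, fB_divisor]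
          have h2 : emptyTerm X (- (deg X * chernCoeff X (X.dim - 1)) / 24) L =
              (- (deg X * chernCoeff X (X.dim - 1)) / 24) * emptyTerm X 1 L := by
            cases L <;> simp [emptyTerm]
          rw [h2]
          push_cast; ring
      · rw [if_neg (by omega), if_neg (by omega)]
        have h1 : sol X g 0 = fun M => constMap X g * fA X (2 * g - 2) 0 1 M :=
          funext fun M => sol_two g hg M
        rw [h1]
        simp only
        rw [lowerSum_smul, fA_divisor]
        push_cast; ring
    · have h1 : sol X g d = fun _ => 0 := funext fun M => sol_pos hd M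
      rw [h1, lowerSum_zero, if_neg (by tauto), if_neg (by tauto)]
      ring
  trr := by
    intro d a m x y L
    by_cases hd : d = 0
    · subst hd
      rw [sol_zero, fI_trr]
      refine Finset.sum_congr rfl fun α _ => Finset.sum_congr rfl fun β _ => ?_
      rw [Finset.HasAntidiagonal.antidiagonal_zero, Finset.sum_singleton]
      have h1 : sol X 0 0 = fI X := funext fun M => sol_zero M
      simp only [h1]
    · rw [sol_pos hd]
      symm
      refine Finset.sum_eq_zero fun α _ => Finset.sum_eq_zero fun β _ => ?_
      rw [Finset.sum_eq_zero, mul_zero]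
      intro e he
      rw [Finset.HasAntidiagonal.mem_antidiagonal] at he
      by_cases he1 : e.1 = 0
      · have he2 : e.2 ≠ 0 := by omega
        have h1 : (fun M => sol X 0 e.2 ((a, m) :: (α, 0) :: M)) = fun _ => 0 :=
          funext fun M => sol_pos he2 _
        rw [h1, shuffle_zero_right]
      · have h1 : (fun M => sol X 0 e.1 ((β, 0) :: x :: y :: M)) = fun _ => 0 :=
          funext fun M => sol_pos he1 _
        rw [h1, shuffle_zero_left]
  degreeZero := by
    intro L
    rw [sol_zero]
    unfold fI
    have h1 : ((L.map fun a => ((a, 0) : Ins X)).map Prod.fst) = L := by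
      rw [List.map_map]
      exact List.map_id L
    have h2 : ((L.map fun a => ((a, 0) : Ins X)).map Prod.snd).sum = 0 := by
      induction L with
      | nil => rfl
      | cons a L ih => simp only [List.map_cons, List.sum_cons]; rw [ih (by
          rw [List.map_map]
          exact List.map_id L)]
    rw [h1]
    unfold Nz
    rw [h2, pf_one h2]
    simp only [List.length_map, zero_add, Nat.factorial_zero, Nat.cast_one, div_one]
    by_cases h3 : L.length = 3
    · rw [if_pos h3.symm, if_pos h3, one_mul]
    · rw [if_neg (Ne.symm h3), if_neg h3, zero_mul]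
  constantMaps := by
    intro g hg
    rw [sol_two g hg]
    have : fA X (2 * g - 2) 0 1 [] = 1 := by
      unfold fA
      have h1 : Ef (bs (2 * g - 2) 0 1) (([] : List ℕ) : Multiset ℕ) = 1 := by
        unfold Ef
        simp [Eaux, bs]
      simp only [List.map_nil]
      rw [h1]
      simp [vA, fil]
    rw [this, mul_one]

end Vale.Agent.P269.H597
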