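import Vale.Agent.P269.H597.Genus0

/-!
# The vector `l_k f` and the vector field it defines
-/

set_option linter.unusedSectionVars false

namespace Vale.Agent.P269.H597

variable {K : Type*} [CommRing K] {ι : Type*} [Fintype ι] [DecidableEq ι]

lemma lsmul_eq_mul : (LinearMap.lsmul K K : K →ₗ[K] K →ₗ[K] K) = LinearMap.mul K K := by
  ext
  simp

namespace Coh

variable (D : Coh K ι) (F : List (ι × ℕ) → K)

/-- The components of the dilaton-shifted point of the cone, paired with the basis. -/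
noncomputable def Phi0 : ι × ℤ → List (ι × ℕ) → K
  | (a, Int.ofNat n), M => F ((a, n) :: M)
  | (a, Int.negSucc m), M => (-1) ^ m * ∑ b, D.eta a b * (tau (D.one, 1) M) (b, m)

/-- The effect of multiplication by `z`. -/
def PZ (Φ : ι × ℤ → List (ι × ℕ) → K) : ι × ℤ → List (ι × ℕ) → K :=
  fun x L => - Φ (x.1, x.2 + 1) L

/-- The effect of `l_0`. -/
def PL (Φ : ι × ℤ → List (ι × ℕ) → K) : ι × ℤ → List (ι × ℕ) → K :=
  fun x L => - (((x.2 : K) + D.half + D.mu x.1) * Φ x L + ∑ b, D.R x.1 b * Φ (b, x.2 - 1) L)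

/-- The effect of multiplication by `z` on the polynomial part. -/
noncomputable def cZ (c : List (ι × ℕ) → (ι × ℕ →₀ K)) (Φ : ι × ℤ → List (ι × ℕ) → K) :
    List (ι × ℕ) → (ι × ℕ →₀ K) :=
  fun L => zop (c L) - ∑ a, ∑ b, (D.etai a b * D.sn a * Φ (a, 0) L) • Finsupp.single (b, 0) 1

/-- The effect of `l_0` on the polynomial part. -/
noncomputable def cL (c : List (ι × ℕ) → (ι × ℕ →₀ K)) :
    List (ι × ℕ) → (ι × ℕ →₀ K) := fun L => D.A0 (c L)

/-- The vector is the derivative of the cone along its polynomial part. -/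
def Tan (c : List (ι × ℕ) → (ι × ℕ →₀ K)) (Φ : ι × ℤ → List (ι × ℕ) → K) : Prop :=
  ∀ (a : ι) (n : ℕ) (L : List (ι × ℕ)),
    Φ (a, (n : ℤ)) L = act D.ip c (fun M => F ((a, n) :: M)) L

/-- The polynomial part is `c`. -/
def Compat (c : List (ι × ℕ) → (ι × ℕ →₀ K)) (Φ : ι × ℤ → List (ι × ℕ) → K) : Prop :=
  ∀ (a : ι) (m : ℕ) (L : List (ι × ℕ)),
    Φ (a, Int.negSucc m) L = (-1) ^ m * ∑ b, D.eta a b * c L (b, m)

/-- Parity of the components. -/
def ParPhi (Φ : ι × ℤ → List (ι × ℕ) → K) : Prop :=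
  ∀ (b : Bool) (a : ι) (n : ℤ) (L : List (ι × ℕ)),
    lsg K D.ip b L * Φ (a, n) L = sg K b (D.par a) * Φ (a, n) L

/-- The vector field annihilates second derivatives. -/
def Null (c : List (ι × ℕ) → (ι × ℕ →₀ K)) : Prop :=
  ∀ (i j : ι × ℕ) (L : List (ι × ℕ)), act D.ip c (fun M => F (i :: j :: M)) L = 0

variable {D F}

lemma act_cZ {c : List (ι × ℕ) → (ι × ℕ →₀ K)} {Φ : ι × ℤ → List (ι × ℕ) → K}
    (hT : D.Tan F c Φ) (G : List (ι × ℕ) → K) (N : List (ι × ℕ) → (ι × ℕ) → K)
    (hG : ∀ i M, G ((i.1, i.2 + 1) :: M) = ∑ β, sh D.ip (LinearMap.mul K K) M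
      (fun M' => D.u F β (i :: M')) (fun M' => G ((β, 0) :: M')) + N M i)
    (L : List (ι × ℕ)) :
    act D.ip (D.cZ c Φ) G L = sh D.ip (ev K (ι × ℕ) K) L c N := by
  have h1 : D.cZ c Φ = fun M => zop (c M) + (- ∑ a, ∑ b,
      (D.etai a b * D.sn a * Φ (a, 0) M) • Finsupp.single (b, 0) 1) := by
    funext M; unfold cZ; rw [sub_eq_add_neg]
  rw [h1, act_cadd, act_cneg, act_csum]
  have h2 : act D.ip (fun M => zop (c M)) G L =
      sh D.ip (ev K (ι × ℕ) K) L c (fun M => (fun i => ∑ β, sh D.ip (LinearMap.mul K K) M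
      (fun M' => D.u F β (i :: M')) (fun M' => G ((β, 0) :: M'))) + N M) := by
    rw [act_cmap]
    congr 1
    funext M i
    rw [zop_single, ev_single, one_smul, hG]
    rfl
  rw [h2, sh_add_right]
  have h3 : sh D.ip (ev K (ι × ℕ) K) L c (fun M => (fun i => ∑ β, sh D.ip (LinearMap.mul K K) M
      (fun M' => D.u F β (i :: M')) (fun M' => G ((β, 0) :: M')))) =
      ∑ β, sh D.ip (LinearMap.mul K K) L (act D.ip c (D.u F β)) (fun M' => G ((β, 0) :: M')) := by
    have h4 : (fun M => (fun i => ∑ β, sh D.ip (LinearMap.mul K K) M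
      (fun M' => D.u F β (i :: M')) (fun M' => G ((β, 0) :: M')))) =
      fun M => ∑ β, (fun i => sh D.ip (LinearMap.mul K K) M
      (fun M' => D.u F β (i :: M')) (fun M' => G ((β, 0) :: M'))) := by
      funext M i
      rw [Finset.sum_apply]
    rw [h4, sh_sum_right]
    refine Finset.sum_congr rfl fun β _ => ?_
    exact sh_ev_assoc D.ip (LinearMap.mul K K) c (fun M' i => D.u F β (i :: M'))
      (fun M' => G ((β, 0) :: M')) L
  rw [h3]
  have h5 : ∀ β, act D.ip c (D.u F β) = fun M => ∑ α, (D.etai α β * D.sn α) * Φ (α, 0) M := by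
    intro β
    funext M
    have : D.u F β = fun M => ∑ α, (D.etai α β * D.sn α) * F ((α, 0) :: M) := by
      funext M; rfl
    rw [this, act_sum]
    refine Finset.sum_congr rfl fun α _ => ?_
    rw [act_mul_const]
    congr 1
    exact (hT α 0 M).symm
  have h6 : ∑ a, act D.ip (fun M => ∑ b, (D.etai a b * D.sn a * Φ (a, 0) M) •
      (Finsupp.single (b, 0) 1 : ι × ℕ →₀ K)) G L =
      ∑ β, sh D.ip (LinearMap.mul K K) L (act D.ip c (D.u F β)) (fun M' => G ((β, 0) :: M')) := by
    simp only [h5, act_csum, sh_sum_left]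
    rw [Finset.sum_comm]
    refine Finset.sum_congr rfl fun b _ => Finset.sum_congr rfl fun a _ => ?_
    have h7 : (fun M => (D.etai a b * D.sn a * Φ (a, 0) M) •
        (Finsupp.single (b, 0) 1 : ι × ℕ →₀ K)) =
        fun M => Finsupp.single (b, 0) (D.etai a b * D.sn a * Φ (a, 0) M) := by
      funext M; simp
    rw [h7, act_single]
    unfold mulK
    rw [lsmul_eq_mul]
  rw [h6]
  ring

lemma Tan.Z (hF : D.Genus0 F) {c : List (ι × ℕ) → (ι × ℕ →₀ K)}
    {Φ : ι × ℤ → List (ι × ℕ) → K} (hT : D.Tan F c Φ) : D.Tan F (D.cZ c Φ) (PZ Φ) := by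
  intro a n L
  rw [act_cZ hT (fun M => F ((a, n) :: M)) (fun M i => - F ((a, n + 1) :: i :: M))]
  · have := hT a (n + 1) L
    unfold PZ
    simp only
    push_cast at this
    rw [this]
    unfold act
    rw [← sh_neg_right]
    rfl
  · intro i M
    have := hF.int_trr i a n M
    linear_combination this

lemma Null.Z (hF : D.Genus0 F) {c : List (ι × ℕ) → (ι × ℕ →₀ K)}
    {Φ : ι × ℤ → List (ι × ℕ) → K} (hT : D.Tan F c Φ) : D.Null F (D.cZ c Φ) := by
  intro i j L
  rw [act_cZ hT (fun M => F (i :: j :: M)) (fun M i => 0)]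
  · exact sh_zero_right D.ip _ L c
  · intro k M
    rw [hF.trr' i j k M, add_zero]

lemma zop_apply_zero (v : ι × ℕ →₀ K) (b : ι) : zop v (b, 0) = 0 := by
  have := finsupp_lin_ext (f := (Finsupp.lapply (b, 0)) ∘ₗ (zop (K := K) (ι := ι)))
    (g := 0) (fun i => by simp) v
  simpa using this

lemma zop_apply_succ (v : ι × ℕ →₀ K) (b : ι) (m : ℕ) : zop v (b, m + 1) = v (b, m) := by
  have := finsupp_lin_ext (f := (Finsupp.lapply (b, m + 1)) ∘ₗ (zop (K := K) (ι := ι)))
    (g := Finsupp.lapply (b, m)) (fun i => by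
      obtain ⟨x, y⟩ := i
      simp only [LinearMap.comp_apply, zop_single, Finsupp.lapply_apply, Finsupp.single_apply,
        Prod.mk.injEq, Nat.add_right_cancel_iff]) v
  simpa using this

lemma Compat.Z {c : List (ι × ℕ) → (ι × ℕ →₀ K)}
    {Φ : ι × ℤ → List (ι × ℕ) → K} (hC : D.Compat c Φ) : D.Compat (D.cZ c Φ) (PZ Φ) := by
  intro a m L
  cases m with
  | zero =>
    unfold PZ cZ
    simp only [Int.negSucc_eq, Nat.cast_zero, zero_add, pow_zero, one_mul]
    have h1 : ∀ b, (zop (c L) - ∑ a, ∑ b, (D.etai a b * D.sn a * Φ (a, 0) L) •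
        (Finsupp.single (b, 0) 1 : ι × ℕ →₀ K)) (b, 0) =
        - ∑ a, D.etai a b * D.sn a * Φ (a, 0) L := by
      intro b
      rw [Finsupp.sub_apply, zop_apply_zero, Finsupp.finsetSum_apply, zero_sub]
      congr 1
      refine Finset.sum_congr rfl fun x _ => ?_
      rw [Finsupp.finsetSum_apply]
      simp [Finsupp.single_apply]
    simp only [h1]
    have h2 : ∑ b, D.eta a b * (- ∑ a, D.etai a b * D.sn a * Φ (a, 0) L) =
        - ∑ x, (∑ b, D.eta a b * (D.etai x b * D.sn x)) * Φ (x, 0) L := by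
      simp only [Finset.sum_mul, mul_neg, Finset.mul_sum, Finset.sum_neg_distrib]
      rw [Finset.sum_comm]
      congr 1
      refine Finset.sum_congr rfl fun x _ => Finset.sum_congr rfl fun y _ => ?_
      ring
    rw [h2]
    simp only [D.eta_etai]
    simp
  | succ m =>
    have h := hC a m L
    unfold PZ cZ
    have e1 : Int.negSucc (m + 1) + 1 = Int.negSucc m := by
      simp only [Int.negSucc_eq]; push_cast; ring
    simp only [e1]
    rw [h]
    have h1 : ∀ b, (zop (c L) - ∑ a, ∑ b, (D.etai a b * D.sn a * Φ (a, 0) L) •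
        (Finsupp.single (b, 0) 1 : ι × ℕ →₀ K)) (b, m + 1) = c L (b, m) := by
      intro b
      rw [Finsupp.sub_apply, zop_apply_succ, Finsupp.finsetSum_apply]
      rw [Finset.sum_eq_zero, sub_zero]
      intro x _
      rw [Finsupp.finsetSum_apply]
      simp [Finsupp.single_apply]
    simp only [h1]
    ring

lemma ParPhi.Z {Φ : ι × ℤ → List (ι × ℕ) → K} (hP : D.ParPhi Φ) : D.ParPhi (PZ Φ) := by
  intro b a n L
  have := hP b a (n + 1) L
  unfold PZ
  simp only
  linear_combination - this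

lemma PV_Z {c : List (ι × ℕ) → (ι × ℕ →₀ K)} {Φ : ι × ℤ → List (ι × ℕ) → K}
    (hc : PV D.ip false c) (hP : D.ParPhi Φ) : PV D.ip false (D.cZ c Φ) := by
  have h1 : D.cZ c Φ = fun M => zop (c M) + (- ∑ a, ∑ b,
      (D.etai a b * D.sn a * Φ (a, 0) M) • Finsupp.single (b, 0) 1) := by
    funext M; unfold cZ; rw [sub_eq_add_neg]
  rw [h1]
  refine PV.add D.ip (hc.map D.evenOp_zop) (PV.neg D.ip (PV.sum D.ip _ fun a _ =>
    PV.sum D.ip _ fun b _ => ?_))
  intro x M
  rw [map_smul, S_single]
  by_cases he : D.etai a b = 0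
  · simp [he]
  have hp := D.etai_par a b he
  rw [smul_smul]
  have h2 := hP x a 0 M
  have h3 : lsg K D.ip x M * (D.etai a b * D.sn a * Φ (a, 0) M) =
      sg K x (D.par a) * (D.etai a b * D.sn a * Φ (a, 0) M) := by
    linear_combination (D.etai a b * D.sn a) * h2
  rw [h3, mul_comm (sg K x (D.par a)), mul_smul]
  congr 1
  simp [ip, hp]

/-! ### The operator `l_0` -/

lemma ParPhi.L {Φ : ι × ℤ → List (ι × ℕ) → K} (hP : D.ParPhi Φ) : D.ParPhi (D.PL Φ) := by
  intro b a n L
  unfold PL
  simp only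
  rw [mul_neg, mul_neg, mul_add, mul_add, Finset.mul_sum, Finset.mul_sum]
  congr 1
  congr 1
  · have := hP b a n L
    linear_combination ((n : K) + D.half + D.mu a) * this
  · refine Finset.sum_congr rfl fun x _ => ?_
    by_cases hR : D.R a x = 0
    · simp [hR]
    · have hp := D.R_par a x hR
      have := hP b x (n - 1) L
      rw [hp]
      linear_combination (D.R a x) * this

lemma PV_L {c : List (ι × ℕ) → (ι × ℕ →₀ K)}
    (hc : PV D.ip false c) : PV D.ip false (D.cL c) := hc.map D.evenOp_A0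

lemma low_apply (v : ι × ℕ →₀ K) (b : ι) (m : ℕ) : low v (b, m) = v (b, m + 1) := by
  have := finsupp_lin_ext (f := (Finsupp.lapply (b, m)) ∘ₗ (low (K := K) (ι := ι)))
    (g := Finsupp.lapply (b, m + 1)) (fun i => by
      obtain ⟨x, y⟩ := i
      cases y with
      | zero => simp [Finsupp.single_apply]
      | succ y =>
        simp only [LinearMap.comp_apply, low_single_succ, Finsupp.lapply_apply,
          Finsupp.single_apply, Prod.mk.injEq, Nat.add_right_cancel_iff]) v
  simpa using this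

lemma A0_apply (v : ι × ℕ →₀ K) (b : ι) (m : ℕ) :
    D.A0 v (b, m) = ((m : K) + D.half + D.mu b) * v (b, m) + ∑ c, D.R c b * v (c, m + 1) := by
  have := finsupp_lin_ext (f := (Finsupp.lapply (b, m)) ∘ₗ D.A0)
    (g := ((m : K) + D.half + D.mu b) • Finsupp.lapply (b, m) +
      ∑ c, D.R c b • Finsupp.lapply (c, m + 1)) (fun i => by
      obtain ⟨x, y⟩ := i
      simp only [LinearMap.comp_apply, A0_single, map_add, map_sum, map_smul,
        Finsupp.lapply_apply, LinearMap.add_apply, LinearMap.smul_apply,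
        LinearMap.sum_apply, smul_eq_mul]
      congr 1
      · by_cases h : (x, y) = (b, m)
        · obtain ⟨h1, h2⟩ := Prod.mk.inj h
          subst h1; subst h2
          simp
        · simp [Finsupp.single_apply, h]
      · cases y with
        | zero => simp [low_apply, Finsupp.single_apply]
        | succ y =>
          simp only [low_single_succ, Finsupp.single_apply, Prod.mk.injEq]
          by_cases hy : y = m
          · subst hy
            simp [Finset.sum_ite_eq', Finset.sum_ite_eq]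
          · simp [hy]) v
  simpa using this

lemma Compat.L {c : List (ι × ℕ) → (ι × ℕ →₀ K)}
    {Φ : ι × ℤ → List (ι × ℕ) → K} (hC : D.Compat c Φ) : D.Compat (D.cL c) (D.PL Φ) := by
  intro a m L
  unfold PL cL
  simp only [A0_apply]
  have e1 : Int.negSucc m - 1 = Int.negSucc (m + 1) := by
    simp only [Int.negSucc_eq]; push_cast; ring
  rw [e1, hC a m L]
  have h2 : ∀ b, Φ (b, Int.negSucc (m + 1)) L = (-1) ^ (m + 1) * ∑ x, D.eta b x * c L (x, m + 1) :=
    fun b => hC b (m + 1) L
  simp only [h2]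
  have h3 : ∑ b, D.R a b * ((-1) ^ (m + 1) * ∑ x, D.eta b x * c L (x, m + 1)) =
      (-1) ^ (m + 1) * ∑ x, (∑ b, D.R a b * D.eta b x) * c L (x, m + 1) := by
    simp only [Finset.mul_sum, Finset.sum_mul]
    rw [Finset.sum_comm]
    refine Finset.sum_congr rfl fun x _ => Finset.sum_congr rfl fun y _ => ?_
    ring
  rw [h3]
  simp only [D.R_symm]
  have h4 : ∑ b, D.eta a b * (((m : K) + D.half + D.mu b) * c L (b, m) +
      ∑ x, D.R x b * c L (x, m + 1)) =
      ((m : K) + D.half - D.mu a) * ∑ b, D.eta a b * c L (b, m) +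
      ∑ x, (∑ b, D.eta a b * D.R x b) * c L (x, m + 1) := by
    simp only [mul_add, Finset.sum_add_distrib]
    congr 1
    · rw [Finset.mul_sum]
      refine Finset.sum_congr rfl fun b _ => ?_
      by_cases he : D.eta a b = 0
      · simp [he]
      · have := D.eta_mu a b he
        linear_combination (D.eta a b * c L (b, m)) * this
    · simp only [Finset.mul_sum, Finset.sum_mul]
      rw [Finset.sum_comm]
      refine Finset.sum_congr rfl fun x _ => Finset.sum_congr rfl fun y _ => ?_
      ring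
  rw [h4]
  have h5 := D.two_half
  rw [pow_succ]
  have h6 : ((Int.negSucc m : ℤ) : K) = - ((m : K) + 1) := by
    simp only [Int.negSucc_eq]; push_cast; ring
  rw [h6]
  linear_combination (-1) ^ m * (∑ b, D.eta a b * c L (b, m)) * (-1) * h5

/-- Action on the components of the base point. -/
lemma act_Phi0 {c : List (ι × ℕ) → (ι × ℕ →₀ K)} {Φ : ι × ℤ → List (ι × ℕ) → K}
    (hT : D.Tan F c Φ) (hC : D.Compat c Φ) (a : ι) (n : ℤ) (L : List (ι × ℕ)) :
    act D.ip c (D.Phi0 F (a, n)) L = Φ (a, n) L := by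
  cases n with
  | ofNat n => exact (hT a n L).symm
  | negSucc m =>
    rw [hC a m L]
    have h1 : D.Phi0 F (a, Int.negSucc m) = fun M => ∑ b, ((-1) ^ m * D.eta a b) *
        (tau (D.one, 1) M) (b, m) := by
      funext M
      simp only [Phi0]
      rw [Finset.mul_sum]
      refine Finset.sum_congr rfl fun b _ => ?_
      ring
    rw [h1, act_sum, Finset.mul_sum]
    refine Finset.sum_congr rfl fun b _ => ?_
    rw [act_mul_const, mul_assoc]
    congr 2
    have h2 := act_comp D.ip c (tau (D.one, 1)) (Finsupp.lapply (b, m) : (ι × ℕ →₀ K) →ₗ[K] K) L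
    have h3 := act_coord D.ip c (tau (D.one, 1)) (tau_cons (D.one, 1)) L
    rw [h3] at h2
    simpa using h2

lemma ip_one : D.ip (D.one, 1) = false := D.par_one

/-- The derivative of the `L_0`-constraint. -/
lemma tan_base (hF : D.Genus0 F) (a : ι) (n : ℕ) (M : List (ι × ℕ)) :
    act D.ip (fun M => D.A0 (tau (D.one, 1) M)) (fun M => F ((a, n) :: M)) M =
      D.PL (D.Phi0 F) (a, (n : ℤ)) M := by
  have h0 : ∀ L, act D.ip (fun M => D.A0 (tau (D.one, 1) M)) F L +
      qform (fun a b => ∑ c, D.R a c * D.eta c b) L = 0 := by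
    intro L
    rw [act_tau D.ip (D.one, 1) ip_one D.evenOp_A0 F hF.symm]
    exact hF.grading L
  have h1 := h0 ((a, n) :: M)
  rw [act_cons D.ip ((PV_tau D.ip (D.one, 1) ip_one).map D.evenOp_A0) F (a, n) M (fun j M => by
      rw [sg_comm]; exact hF.symm [] M j (a, n))] at h1
  have h2 : act D.ip (fun M => D.A0 (tau (D.one, 1) ((a, n) :: M))) F M =
      ev K (ι × ℕ) K (D.A0 (Finsupp.single (a, n) 1)) (fun j => F (j :: M)) := by
    have : (fun M => D.A0 (tau (K := K) (D.one, 1) ((a, n) :: M))) =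
        cst (D.A0 (Finsupp.single (a, n) 1)) := by
      funext M
      rw [tau_cons]
      cases M <;> simp
    rw [this]
    unfold act
    rw [sh_cst_left]
  rw [h2, A0_single, map_add, map_sum] at h1
  simp only [LinearMap.add_apply, LinearMap.sum_apply, ev_single, smul_eq_mul, map_smul,
    LinearMap.smul_apply] at h1
  unfold PL
  simp only
  have h3 : ∑ x, D.R a x * D.Phi0 F (x, (n : ℤ) - 1) M =
      ∑ x, D.R a x * ev K (ι × ℕ) K (low (Finsupp.single (x, n) 1)) (fun j => F (j :: M)) +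
      qform (fun a b => ∑ c, D.R a c * D.eta c b) ((a, n) :: M) := by
    cases n with
    | zero =>
      have e1 : ((0 : ℕ) : ℤ) - 1 = Int.negSucc 0 := rfl
      simp only [e1, Phi0, low_single_zero, map_zero, LinearMap.zero_apply, mul_zero,
        Finset.sum_const_zero, zero_add, pow_zero, one_mul]
      match M with
      | [] => simp [tau, qform]
      | [(y, 0)] =>
        simp only [tau, qform, Finsupp.single_apply, Prod.mk.injEq, and_true]
        refine Finset.sum_congr rfl fun x _ => ?_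
        simp
      | [(y, m + 1)] => simp [tau, qform]
      | _ :: _ :: _ => simp [tau, qform]
    | succ n =>
      have e1 : ((n + 1 : ℕ) : ℤ) - 1 = Int.ofNat n := by simp
      simp only [e1, Phi0, low_single_succ, ev_single, one_smul]
      have : qform (fun a b => ∑ c, D.R a c * D.eta c b) ((a, n + 1) :: M) = 0 := by
        unfold qform
        split
        · rename_i heq
          simp at heq
        · rfl
      rw [this, add_zero]
  rw [h3]
  have h4 : D.Phi0 F (a, (n : ℤ)) M = F ((a, n) :: M) := rfl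
  rw [h4]
  push_cast
  linear_combination h1

lemma Tan.L (hF : D.Genus0 F) {c : List (ι × ℕ) → (ι × ℕ →₀ K)}
    {Φ : ι × ℤ → List (ι × ℕ) → K} (hT : D.Tan F c Φ) (hC : D.Compat c Φ) (hN : D.Null F c)
    (hc : PV D.ip false c) : D.Tan F (D.cL c) (D.PL Φ) := by
  intro a n L
  have h1 : act D.ip c (fun M => act D.ip (fun M => D.A0 (tau (D.one, 1) M))
      (fun M => F ((a, n) :: M)) M) L = act D.ip c (D.PL (D.Phi0 F) (a, (n : ℤ))) L := by
    congr 1
    funext M
    exact tan_base hF a n M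
  have h2 : act D.ip c (D.PL (D.Phi0 F) (a, (n : ℤ))) L = D.PL Φ (a, (n : ℤ)) L := by
    unfold PL
    simp only
    rw [act_neg, act_add, act_mul_const, act_sum, act_Phi0 hT hC]
    congr 2
    refine Finset.sum_congr rfl fun b _ => ?_
    rw [act_mul_const, act_Phi0 hT hC]
  rw [← h2, ← h1]
  symm
  have h3 : (fun M => act D.ip (fun M => D.A0 (tau (K := K) (D.one, 1) M))
      (fun M => F ((a, n) :: M)) M) = fun M => sh D.ip (ev K (ι × ℕ) K) M
      (fun M => D.A0 (tau (D.one, 1) M)) (fun M i => F ((a, n) :: i :: M)) := rfl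
  rw [h3, act_sh D.ip _ hc]
  have h4 : act D.ip c (fun M i => F ((a, n) :: i :: M)) = fun _ => 0 := by
    funext M i
    rw [act_apply]
    exact hN (a, n) i M
  rw [h4, sh_zero_right, add_zero]
  have h5 : act D.ip c (fun M => D.A0 (tau (D.one, 1) M)) = D.cL c := by
    funext M
    rw [act_comp, act_coord D.ip c (tau (D.one, 1)) (tau_cons (D.one, 1)) M]
    rfl
  rw [h5]
  rfl

/-! ### The iteration -/

/-- The polynomial part of `l_k f`. -/
noncomputable def cs (D : Coh K ι) (F : List (ι × ℕ) → K) : ℕ →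
    (List (ι × ℕ) → (ι × ℕ →₀ K)) × (ι × ℤ → List (ι × ℕ) → K)
  | 0 => (D.cL (tau (D.one, 1)), D.PL (D.Phi0 F))
  | k + 1 => (D.cL (D.cZ (cs D F k).1 (cs D F k).2), D.PL (PZ (cs D F k).2))

lemma ParPhi_base (hF : D.Genus0 F) : D.ParPhi (D.Phi0 F) := by
  intro b a n L
  cases n with
  | ofNat n => exact hF.even1 b (a, n) L
  | negSucc m =>
    simp only [Phi0]
    rw [Finset.mul_sum, Finset.mul_sum, Finset.mul_sum]
    refine Finset.sum_congr rfl fun x _ => ?_
    by_cases he : D.eta a x = 0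
    · simp [he]
    have hp := D.eta_par a x he
    have h := PV_tau (K := K) D.ip (D.one, 1) ip_one b L
    have h2 := DFunLike.congr_fun h (x, m)
    have h3 : ∀ v : ι × ℕ →₀ K, (S D.ip b false v) (x, m) = sg K b (D.par x) * v (x, m) := by
      intro v
      have := finsupp_lin_ext (f := (Finsupp.lapply (x, m)) ∘ₗ (S (K := K) D.ip b false))
        (g := sg K b (D.par x) • Finsupp.lapply (x, m)) (fun i => by
          simp only [LinearMap.comp_apply, S_single, Finsupp.lapply_apply,
            LinearMap.smul_apply, Finsupp.single_apply]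
          by_cases hi : i = (x, m)
          · subst hi
            simp [ip]
          · simp [hi]) v
      simpa using this
    rw [h3] at h2
    simp only [Finsupp.smul_apply, smul_eq_mul] at h2
    rw [hp]
    linear_combination ((-1) ^ m * D.eta a x) * h2

lemma cs_good (hF : D.Genus0 F) (k : ℕ) :
    D.Tan F (cs D F k).1 (cs D F k).2 ∧ D.Compat (cs D F k).1 (cs D F k).2 ∧
      PV D.ip false (cs D F k).1 ∧ D.ParPhi (cs D F k).2 := by
  induction k with
  | zero =>
    refine ⟨fun a n L => (tan_base hF a n L).symm, ?_, PV_L (PV_tau D.ip _ ip_one),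
      (ParPhi_base hF).L⟩
    refine Compat.L ?_
    intro a m L
    rfl
  | succ k ih =>
    obtain ⟨h1, h2, h3, h4⟩ := ih
    exact ⟨(Tan.Z hF h1).L hF h2.Z (Null.Z hF h1) (PV_Z h3 h4), h2.Z.L, PV_L (PV_Z h3 h4),
      h4.Z.L⟩

end Coh

end Vale.Agent.P269.H597
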