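import Vale.Agent.P269.H597.Commutator

/-!
# Symmetry and weights of the Virasoro coefficients
-/

set_option linter.unusedSectionVars false

namespace Vale.Agent.P269.H597

section SymF

variable {K : Type*} [CommRing K] {I : Type*} {par : I → Bool}
variable {U V W : Type*} [AddCommGroup U] [Module K U] [AddCommGroup V] [Module K V]
  [AddCommGroup W] [Module K W]

lemma SymF.add {C C' : List I → W} (h : SymF (K := K) par C) (h' : SymF (K := K) par C') :
    SymF (K := K) par (fun M => C M + C' M) := by
  intro L M i j
  simp only [h L M i j, h' L M i j, smul_add]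

lemma SymF.smul {C : List I → W} (h : SymF (K := K) par C) (x : K) :
    SymF (K := K) par (fun M => x • C M) := by
  intro L M i j
  simp only [h L M i j]
  rw [smul_comm]

lemma SymF.sum {σ : Type*} (s : Finset σ) {C : σ → List I → W}
    (h : ∀ x ∈ s, SymF (K := K) par (C x)) : SymF (K := K) par (fun M => ∑ x ∈ s, C x M) := by
  intro L M i j
  simp only [Finset.smul_sum]
  exact Finset.sum_congr rfl fun x hx => h x hx L M i j

lemma lsg_append (a : Bool) (L M : List I) :
    lsg K par a (L ++ M) = lsg K par a L * lsg K par a M := by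
  simp [lsg]

lemma lsg_swap (a : Bool) (L M : List I) (i j : I) :
    lsg K par a (L ++ i :: j :: M) = lsg K par a (L ++ j :: i :: M) := by
  simp only [lsg_append, lsg_cons]
  ring

lemma SymF.tw {C : List I → W} (h : SymF (K := K) par C) (a : Bool) :
    SymF (K := K) par (fun M => lsg K par a M • C M) := by
  intro L M i j
  simp only [h L M i j, lsg_swap a L M i j]
  rw [smul_comm]

/-- Products of symmetric series are symmetric. -/
lemma SymF.sh (B : V →ₗ[K] W →ₗ[K] U) {C : List I → V} {D : List I → W}
    (hC : SymF (K := K) par C) (hD : SymF (K := K) par D) :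
    SymF (K := K) par (fun M => Vale.Agent.P269.H597.sh par B M C D) := by
  intro L
  induction L generalizing C D with
  | nil =>
    intro M i j
    simp only [List.nil_append, sh_cons, lsg_cons, mul_smul, smul_add]
    have h1 : (fun M => C (i :: j :: M)) = fun M => sg K (par i) (par j) • C (j :: i :: M) := by
      funext M; exact hC [] M i j
    have h2 : (fun M => D (i :: j :: M)) = fun M => sg K (par i) (par j) • D (j :: i :: M) := by
      funext M; exact hD [] M i j
    rw [h1, h2, sh_smul_left, sh_smul_left, sh_smul_left, sh_smul_right]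
    have h3 : (fun M => lsg K par (par j) M • lsg K par (par i) M • C M) =
        fun M => lsg K par (par i) M • lsg K par (par j) M • C M := by
      funext M; rw [smul_comm]
    rw [h3, ← mul_smul (sg K (par i) (par j)) (sg K (par j) (par i)), sg_comm (par j) (par i),
      sg_mul_self, one_smul]
    abel
  | cons x L ih =>
    intro M i j
    simp only [List.cons_append, sh_cons, smul_add]
    have h1 := ih (hC.cons x) hD M i j
    have h2 := ih (hC.tw (par x)) (hD.cons x) M i j
    simp only at h1 h2
    rw [h1, h2]

lemma SymF.ev {C : List I → W} (hC : SymF (K := K) par C) :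
    SymF (K := K) par (fun M (i : I) => C (i :: M)) := by
  intro L M i j
  funext x
  exact hC (x :: L) M i j

lemma SymF_tau (o : I) (A : (I →₀ K) →ₗ[K] (I →₀ K)) :
    SymF (K := K) par (fun M => A (tau o M)) := by
  have h : ∀ (L M : List I) (i j : I), tau (K := K) o (L ++ i :: j :: M) = 0 := by
    intro L M i j
    match L with
    | [] => rfl
    | [x] => rfl
    | _ :: _ :: _ => rfl
  intro L M i j
  simp only [h, map_zero, smul_zero]

lemma SymF_cst (w : W) : SymF (K := K) par (cst w) := by
  intro L M i j
  cases L with
  | nil => simp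
  | cons x L => simp

end SymF

variable {K : Type*} [CommRing K] {ι : Type*} [Fintype ι] [DecidableEq ι]

namespace Coh

variable {D : Coh K ι} {F : List (ι × ℕ) → K}

lemma SymF_qform (N : ι → ι → K) (hN : ∀ a b, N a b = sg K (D.par a) (D.par b) * N b a) :
    SymF (K := K) D.ip (qform N) := by
  intro L M i j
  match L with
  | [] =>
    match M with
    | [] =>
      obtain ⟨a, m⟩ := i
      obtain ⟨b, n⟩ := j
      cases m with
      | zero =>
        cases n with
        | zero => exact hN a b
        | succ n => simp [qform]
      | succ m =>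
        cases n with
        | zero => simp [qform]
        | succ n => simp [qform]
    | x :: M => simp [qform]
  | x :: L =>
    have h : ∀ (y z : ι × ℕ), qform N (x :: L ++ y :: z :: M) = 0 := by
      intro y z
      cases L with
      | nil => simp [qform]
      | cons t L =>
        cases L with
        | nil => simp [qform]
        | cons s L => simp [qform]
    rw [h, h, smul_zero]

lemma SymF_act (A : (ι × ℕ →₀ K) →ₗ[K] (ι × ℕ →₀ K)) {C : List (ι × ℕ) → K}
    (hC : SymF (K := K) D.ip C) :
    SymF (K := K) D.ip (fun M => act D.ip (fun M => A (tau (D.one, 1) M)) C M) :=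
  SymF.sh _ (SymF_tau _ A) hC.ev

lemma SymF_virk (hF : SymF (K := K) D.ip F) (hb : K) (k : ℕ) :
    SymF (K := K) D.ip (D.virk F hb k) := by
  unfold virk
  refine SymF.add (SymF.add (SymF.add (SymF_act _ hF) ?_) (SymF_qform _ fun a b =>
    Reta_super (k + 1) a b)) ?_
  · refine SymF.smul (SymF.add ?_ (SymF.smul ?_ hb)) D.half
    · refine SymF.sum _ fun m _ => SymF.sum _ fun i _ => SymF.sum _ fun a _ => SymF.sum _ fun b _ =>
        SymF.sum _ fun c _ => SymF.smul (SymF.sh _ (hF.cons _) (hF.cons _)) _
    · refine SymF.sum _ fun m _ => SymF.sum _ fun i _ => SymF.sum _ fun a _ => SymF.sum _ fun b _ =>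
        SymF.sum _ fun c _ => SymF.smul ((hF.cons (c, k - 1 - m - i)).cons (b, m)) _
  · by_cases hk : k = 0
    · simp only [hk, if_true]
      exact SymF.smul (SymF_cst 1) _
    · simp only [hk, if_false]
      intro L M i j
      simp

end Coh

/-! ### Weights -/

section Weights

variable {I : Type*}

/-- `C` is homogeneous of weight `w`. -/
def HW {W : Type*} [Zero W] (wt : I → ℤ) (w : ℤ) (C : List I → W) : Prop :=
  ∀ L, (L.map wt).sum ≠ w → C L = 0

variable {wt : I → ℤ}

lemma HW.cons {W : Type*} [Zero W] {w : ℤ} {C : List I → W} (h : HW wt w C) (i : I) :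
    HW wt (w - wt i) (fun M => C (i :: M)) := by
  intro L hL
  apply h
  intro h2
  apply hL
  simp only [List.map_cons, List.sum_cons] at h2
  omega

lemma HW.sh {V W U : Type*} [AddCommGroup U] [Module K U] [AddCommGroup V] [Module K V]
    [AddCommGroup W] [Module K W] {par : I → Bool} (B : V →ₗ[K] W →ₗ[K] U) {w w' : ℤ}
    {C : List I → V} {D : List I → W} (hC : HW wt w C) (hD : HW wt w' D) :
    HW wt (w + w') (fun M => Vale.Agent.P269.H597.sh par B M C D) := by
  intro L
  induction L generalizing w w' C D with
  | nil =>
    intro h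
    simp only [List.map_nil, List.sum_nil] at h
    simp only [sh_nil]
    by_cases h1 : w = 0
    · rw [hD [] (by simp only [List.map_nil, List.sum_nil]; omega), map_zero]
    · rw [hC [] (by simp only [List.map_nil, List.sum_nil]; omega), map_zero,
        LinearMap.zero_apply]
  | cons i L ih =>
    intro h
    simp only [List.map_cons, List.sum_cons] at h
    simp only [sh_cons]
    have h1 := ih (hC.cons i) hD (by omega)
    have hC' : HW wt w (fun M => lsg K par (par i) M • C M) := by
      intro M hM
      simp only [hC M hM, smul_zero]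
    have h2 := ih hC' (hD.cons i) (by omega)
    simp only at h1 h2
    rw [h1, h2, add_zero]

lemma HW.ev {w δ : ℤ} {C : List I → K} (hC : HW wt w C) (v : I →₀ K) (x : ℤ)
    (hv : ∀ j, v j ≠ 0 → wt j = x + δ) (L : List I)
    (hL : x + (L.map wt).sum ≠ w - δ) : ev K I K v (fun j => C (j :: L)) = 0 := by
  rw [ev_apply, Finsupp.sum]
  refine Finset.sum_eq_zero fun j hj => ?_
  have hj' : v j ≠ 0 := Finsupp.mem_support_iff.mp hj
  rw [hC (j :: L), smul_zero]
  simp only [List.map_cons, List.sum_cons]
  have := hv j hj'
  omega

lemma HW.rep {w δ : ℤ} {C : List I → K} (hC : HW wt w C) (A : I → (I →₀ K))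
    (hA : ∀ i j, A i j ≠ 0 → wt j = wt i + δ) :
    HW wt (w - δ) (Vale.Agent.P269.H597.rep A C) := by
  intro L
  induction L generalizing w C with
  | nil => intro _; rfl
  | cons i L ih =>
    intro h
    simp only [List.map_cons, List.sum_cons] at h
    simp only [Vale.Agent.P269.H597.rep]
    rw [hC.ev (A i) (wt i) (hA i) L h, zero_add]
    exact ih (hC.cons i) (by omega)

end Weights

end Vale.Agent.P269.H597
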