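import Vale.Agent.P269.H597.Solution

/-!
# Uniqueness of the system of invariants
-/

set_option linter.unusedSectionVars false

namespace Vale.Agent.P269.H597

open Finset.HasAntidiagonal (antidiagonal)
open Vale.Agent.P269
open CI

variable {X : CompleteIntersection} {F F' : ℕ → ℕ → List (Ins X) → ℂ}

/-- Positive degree: everything vanishes. -/
lemma pos_vanish (hr : 3 ≤ X.dim) (hX : index X + X.dim ≤ 2) (hF : IsGW X F) (g d : ℕ)
    (hd : d ≠ 0)
    (L : List (Ins X)) : F g d L = 0 := by
  refine Coh.string_vanish (degData X) (F g d) ((stringG hF).symm g d) _ ?_ (weights hF g d) ?_ L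
  · unfold Coh.vd
    have h3 : (3 : ℤ) ≤ X.dim := by exact_mod_cast hr
    have hd1 : (1 : ℤ) ≤ d := by exact_mod_cast Nat.one_le_iff_ne_zero.mpr hd
    have h1 : index X * (d : ℤ) ≤ index X := by nlinarith
    rcases Nat.eq_zero_or_pos g with hg | hg
    · subst hg
      push_cast
      nlinarith
    · have hg1 : (1 : ℤ) ≤ g := by exact_mod_cast hg
      have h2 : (1 - (g : ℤ)) * ((X.dim : ℤ) - 3) ≤ 0 := by
        have : 0 ≤ ((g : ℤ) - 1) * ((X.dim : ℤ) - 3) := mul_nonneg (by linarith) (by linarith)
        linarith
      linarith
  · intro L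
    have h := (stringG hF).string g d L
    rw [if_neg (by tauto), add_zero] at h
    exact h

/-- Total number of cotangent classes. -/
def esum (L : List (Ins X)) : ℕ := (L.map Prod.snd).sum

lemma esum_cons (x : Ins X) (L : List (Ins X)) : esum (x :: L) = x.2 + esum L := by
  simp [esum]

lemma shuffle_congr (L : List (Ins X)) : ∀ (A A' B B' : List (Ins X) → ℂ),
    (∀ M, esum M ≤ esum L → A M = A' M) → (∀ M, esum M ≤ esum L → B M = B' M) →
    shuffle X L A B = shuffle X L A' B' := by
  induction L with
  | nil =>
    intro A A' B B' hA hB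
    unfold shuffle
    rw [hA [] (le_refl _), hB [] (le_refl _)]
  | cons x L ih =>
    intro A A' B B' hA hB
    unfold shuffle
    rw [esum_cons] at hA hB
    congr 1
    · refine ih _ _ _ _ (fun M hM => hA _ ?_) (fun M hM => hB M ?_)
      · rw [esum_cons]; omega
      · omega
    · refine ih _ _ _ _ (fun M hM => ?_) (fun M hM => hB _ ?_)
      · rw [hA M (by omega)]
      · rw [esum_cons]; omega

lemma symm_zero {G : List (Ins X) → ℂ} (hG : SymF (K := ℂ) (coh X).ip G) (x : Ins X)
    (A B : List (Ins X)) (h : G (x :: (A ++ B)) = 0) : G (A ++ x :: B) = 0 := by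
  induction A generalizing G with
  | nil => exact h
  | cons y A ih =>
    have h1 := hG [] (A ++ B) x y
    simp only [List.nil_append] at h1
    have h2 : G (y :: x :: (A ++ B)) = 0 := by
      have h3 := hG [] (A ++ B) y x
      simp only [List.nil_append] at h3
      rw [h3]
      have h4 : G (x :: y :: (A ++ B)) = 0 := h
      rw [h4, smul_zero]
    exact ih (G := fun M => G (y :: M)) (hG.cons y) h2

lemma symF (hF : IsGW X F) (g d : ℕ) : SymF (K := ℂ) (coh X).ip (F g d) :=
  (stringG hF).symm g d

lemma symF_sub (hF : IsGW X F) (hF' : IsGW X F') (g d : ℕ) :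
    SymF (K := ℂ) (coh X).ip (fun L => F g d L - F' g d L) := by
  intro L M x y
  simp only [symF hF g d L M x y, symF hF' g d L M x y, smul_sub]

/-- Genus zero and degree zero. -/
lemma unique_zero (hF : IsGW X F) (hF' : IsGW X F') (n : ℕ) :
    ∀ L, esum L = n → F 0 0 L = F' 0 0 L := by
  induction n using Nat.strong_induction_on with
  | _ n ih =>
    intro L hL
    by_cases h3 : L.length < 3
    · rw [hF.unstable0 L h3, hF'.unstable0 L h3]
    · by_cases h0 : ∃ x ∈ L, x.2 ≠ 0
      · obtain ⟨x, hx, hx0⟩ := h0
        obtain ⟨A, B, rfl⟩ := List.append_of_mem hx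
        have h1 := symm_zero (symF_sub hF hF' 0 0) x A B
        suffices h : F 0 0 (x :: (A ++ B)) = F' 0 0 (x :: (A ++ B)) by
          have h2 := h1 (by rw [h, sub_self])
          exact sub_eq_zero.mp h2
        have hlen : 2 ≤ (A ++ B).length := by
          simp only [List.length_append, List.length_cons] at h3 ⊢
          omega
        have hes : esum (x :: (A ++ B)) = n := by
          rw [← hL]
          unfold esum
          simp only [List.map_cons, List.map_append, List.sum_cons, List.sum_append]
          omega
        match hAB : A ++ B, hlen with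
        | y :: z :: M, _ =>
          rw [hAB] at hes
          obtain ⟨a, m⟩ := x
          obtain ⟨m', rfl⟩ : ∃ m', m = m' + 1 := ⟨m - 1, by simp only at hx0; omega⟩
          rw [hF.trr, hF'.trr]
          rw [esum_cons, esum_cons, esum_cons] at hes
          refine Finset.sum_congr rfl fun α _ => Finset.sum_congr rfl fun β _ => ?_
          congr 1
          rw [Finset.HasAntidiagonal.antidiagonal_zero, Finset.sum_singleton,
            Finset.sum_singleton]
          refine shuffle_congr M _ _ _ _ (fun N hN => ?_) (fun N hN => ?_)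
          · refine ih _ ?_ _ rfl
            rw [esum_cons, esum_cons, esum_cons]
            simp only at hes ⊢
            omega
          · refine ih _ ?_ _ rfl
            rw [esum_cons, esum_cons]
            simp only at hes ⊢
            omega
      · push Not at h0
        have h1 : L = (L.map Prod.fst).map fun a => (a, 0) := by
          rw [List.map_map]
          conv_lhs => rw [← List.map_id L]
          refine List.map_congr_left fun x hx => ?_
          have := h0 x hx
          obtain ⟨a, m⟩ := x
          simp only at this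
          subst this
          rfl
        rw [h1, hF.degreeZero, hF'.degreeZero]

lemma wt_nonneg (x : Ins X) (hx : x ≠ (one X, 0)) : 0 ≤ Coh.wt (dgr X) x := by
  obtain ⟨a, m⟩ := x
  have h3 := X.two_le_dim
  rcases a with i | a
  · unfold Coh.wt
    rw [dgr_inl]
    simp only
    by_cases hi : (i : ℕ) = 0
    · have : m ≠ 0 := by
        intro hm
        apply hx
        subst hm
        unfold one
        congr 2
        exact Fin.ext hi
      omega
    · omega
  · unfold Coh.wt
    rw [dgr_inr]
    simp only
    omega

lemma wt_eq_zero (hr : 3 ≤ X.dim) (x : Ins X) (hx : Coh.wt (dgr X) x = 0) :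
    x = (one X, 1) ∨ x = (hcls X, 0) := by
  obtain ⟨a, m⟩ := x
  have h3 := hr
  rcases a with i | a
  · unfold Coh.wt at hx
    rw [dgr_inl] at hx
    simp only at hx
    by_cases hi : (i : ℕ) = 0
    · left
      have hm : m = 1 := by omega
      subst hm
      unfold one
      congr 2
      exact Fin.ext hi
    · right
      have hm : m = 0 := by omega
      subst hm
      unfold hcls
      congr 2
      apply Fin.ext
      simp only
      omega
  · exfalso
    unfold Coh.wt at hx
    rw [dgr_inr] at hx
    simp only at hx
    omega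

lemma lowerSum_zero_of (T : Ix X → Ix X → ℂ) (G : List (Ins X) → ℂ) (L : List (Ins X))
    (h : ∀ M, M.length = L.length → G M = 0) : lowerSum X T G L = 0 := by
  induction L generalizing G with
  | nil => exact lowerSum_nil T G
  | cons x L ih =>
    rw [lowerSum_cons, ih (fun M => G (x :: M)) fun M hM => h _ (by simp [hM]), add_zero]
    split
    · rfl
    · refine Finset.sum_eq_zero fun b _ => ?_
      rw [h _ (by simp), mul_zero]

/-- Degree zero, positive genus. -/
lemma unique_pos (hr : 3 ≤ X.dim) (hF : IsGW X F) (hF' : IsGW X F') (g : ℕ) (hg : g ≠ 0)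
    (n : ℕ) : ∀ L, L.length = n → F g 0 L = F' g 0 L := by
  have h3 := hr
  have hS : ∀ L, F g 0 L - F' g 0 L = (fun L => F g 0 L - F' g 0 L) L := fun L => rfl
  have hsym := symF_sub hF hF' g 0
  have hlow : ∀ T L, lowerSum X T (fun M => F g 0 M - F' g 0 M) L =
      lowerSum X T (F g 0) L - lowerSum X T (F' g 0) L := by
    intro T L
    have h1 := lowerSum_add T (F g 0) (fun M => (-1) * F' g 0 M) L
    rw [lowerSum_smul] at h1
    have h2 : (fun M => F g 0 M + (-1) * F' g 0 M) = fun M => F g 0 M - F' g 0 M := by
      funext M; ring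
    rw [h2] at h1
    rw [h1]; ring
  have hstr : ∀ L, F g 0 ((one X, 0) :: L) - F' g 0 ((one X, 0) :: L) =
      lowerSum X (fun a b => if a = b then 1 else 0) (fun M => F g 0 M - F' g 0 M) L := by
    intro L
    rw [hlow, hF.string, hF'.string]
    ring
  have hdil : ∀ L, F g 0 ((one X, 1) :: L) - F' g 0 ((one X, 1) :: L) =
      (2 * g - 2 + L.length) * (F g 0 L - F' g 0 L) := by
    intro L
    rw [hF.dilaton, hF'.dilaton]
    ring
  have hdiv : ∀ L, F g 0 ((hcls X, 0) :: L) - F' g 0 ((hcls X, 0) :: L) =
      lowerSum X (hmul X) (fun M => F g 0 M - F' g 0 M) L := by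
    intro L
    rw [hlow, hF.divisor, hF'.divisor]
    push_cast
    ring
  have hnil : F g 0 [] = F' g 0 [] := by
    by_cases h1 : g = 1
    · subst h1
      rw [hF.unstable1, hF'.unstable1]
    · rw [hF.constantMaps g (by omega), hF'.constantMaps g (by omega)]
  suffices h : ∀ n, ∀ L : List (Ins X), L.length = n → F g 0 L - F' g 0 L = 0 by
    intro L hL
    exact sub_eq_zero.mp (h n L hL)
  intro n
  induction n with
  | zero =>
    intro L hL
    rw [List.length_eq_zero_iff.mp hL, hnil, sub_self]
  | succ n ih =>
    intro L hL
    by_cases hw : (L.map (Coh.wt (dgr X))).sum = Coh.vd X.dim (index X) g 0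
    · have hw0 : (L.map (Coh.wt (dgr X))).sum ≤ 0 := by
        rw [hw]
        unfold Coh.vd
        have hg1 : (1 : ℤ) ≤ g := by exact_mod_cast Nat.one_le_iff_ne_zero.mpr hg
        have hd3 : (3 : ℤ) ≤ X.dim := by exact_mod_cast h3
        have : 0 ≤ ((g : ℤ) - 1) * ((X.dim : ℤ) - 3) := mul_nonneg (by linarith) (by linarith)
        push_cast
        linarith
      by_cases hone : (one X, 0) ∈ L
      · obtain ⟨A, B, rfl⟩ := List.append_of_mem hone
        refine symm_zero hsym _ A B ?_
        rw [hstr]
        refine lowerSum_zero_of _ _ _ fun M hM => ih M ?_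
        rw [hM]
        simp only [List.length_append, List.length_cons] at hL ⊢
        omega
      · -- all weights vanish
        match L, hL with
        | x :: L, hL =>
          have hx : Coh.wt (dgr X) x = 0 := by
            have h1 : 0 ≤ Coh.wt (dgr X) x := wt_nonneg x fun h => hone (by rw [h]; simp)
            have h2 : 0 ≤ (L.map (Coh.wt (dgr X))).sum := by
              apply List.sum_nonneg
              intro y hy
              obtain ⟨z, hz, rfl⟩ := List.mem_map.mp hy
              exact wt_nonneg z fun h => hone (by rw [← h]; simp [hz])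
            simp only [List.map_cons, List.sum_cons] at hw0
            omega
          have hLn : L.length = n := by simpa using hL
          rcases wt_eq_zero hr x hx with rfl | rfl
          · rw [hdil, ih L hLn, mul_zero]
          · rw [hdiv]
            exact lowerSum_zero_of _ _ _ fun M hM => ih M (by rw [hM, hLn])
    · rw [weights hF g 0 L hw, weights hF' g 0 L hw, sub_zero]

/-- If `K_X = O(k)` with `k ≥ dim - 2`, the axioms have at most one solution. -/
theorem unique (hr : 3 ≤ X.dim) (hX : index X + X.dim ≤ 2) (hF : IsGW X F)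
    (hF' : IsGW X F') : F = F' := by
  funext g d L
  by_cases hd : d = 0
  · subst hd
    by_cases hg : g = 0
    · subst hg
      exact unique_zero hF hF' _ L rfl
    · exact unique_pos hr hF hF' g hg _ L rfl
  · rw [pos_vanish hr hX hF g d hd, pos_vanish hr hX hF' g d hd]

theorem existsUnique (hr : 3 ≤ X.dim) (hX : index X + X.dim ≤ 2) : ∃! F, IsGW X F :=
  ⟨sol X, sol_isGW, fun _ hF => unique hr hX hF sol_isGW⟩

end Vale.Agent.P269.H597
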