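import Vale.Agent.P269.H597.Shuffle

/-!
# Even vector fields acting on super power series

A formal vector field is a function `c : List I → (I →₀ K)`; it acts on a series `C` by
`act c C = ∑ i, c^i * ∂_i C`, where `(∂_i C)(M) = C (i :: M)`.
-/

namespace Vale.Agent.P269.H597

variable {K : Type*} [CommRing K]
variable {I : Type*}
variable {U V W X Y Z : Type*}
variable [AddCommGroup U] [Module K U] [AddCommGroup V] [Module K V] [AddCommGroup W]
  [Module K W] [AddCommGroup X] [Module K X] [AddCommGroup Y] [Module K Y]
  [AddCommGroup Z] [Module K Z]

/-- Evaluation pairing `(v, f) ↦ ∑ v_i f_i`. -/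
noncomputable def ev (K : Type*) [CommRing K] (I : Type*) (W : Type*) [AddCommGroup W]
    [Module K W] : (I →₀ K) →ₗ[K] (I → W) →ₗ[K] W :=
  LinearMap.mk₂ K (fun v f => v.sum fun i c => c • f i)
    (fun v v' f => by
      classical
      exact Finsupp.sum_add_index' (fun i => by simp) (fun i a b => by simp [add_smul]))
    (fun c v f => by
      rw [Finsupp.sum_smul_index' (fun i => by simp)]
      rw [Finsupp.smul_sum]
      simp [mul_smul])
    (fun v f g => by
      simp [Finsupp.sum, smul_add, Finset.sum_add_distrib])
    (fun c v f => by
      simp only [Finsupp.sum, Pi.smul_apply, Finset.smul_sum]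
      refine Finset.sum_congr rfl fun i _ => ?_
      rw [smul_comm])

lemma ev_apply (v : I →₀ K) (f : I → W) : ev K I W v f = v.sum fun i c => c • f i := rfl

@[simp] lemma ev_single (i : I) (k : K) (f : I → W) :
    ev K I W (Finsupp.single i k) f = k • f i := by
  rw [ev_apply]; simp

lemma ev_basis (v : I →₀ K) : ev K I (I →₀ K) v (fun i => Finsupp.single i 1) = v := by
  rw [ev_apply]
  simp

lemma ev_comp (v : I →₀ K) (f : I → V) (g : V →ₗ[K] W) :
    g (ev K I V v f) = ev K I W v (fun i => g (f i)) := by
  rw [ev_apply, ev_apply, map_finsuppSum]
  simp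

/-- Induction-friendly extensionality for linear functions of `v`. -/
lemma finsupp_lin_ext {f g : (I →₀ K) →ₗ[K] U} (h : ∀ i, f (Finsupp.single i 1) =
    g (Finsupp.single i 1)) (v : I →₀ K) : f v = g v := by
  have : f = g := by
    apply Finsupp.lhom_ext
    intro i k
    have : (Finsupp.single i k : I →₀ K) = k • Finsupp.single i 1 := by simp
    rw [this, map_smul, map_smul, h]
  rw [this]

variable (par : I → Bool)

/-- The action of a vector field on a series. -/
noncomputable def act (c : List I → (I →₀ K)) (C : List I → W) (L : List I) : W :=
  sh par (ev K I W) L c (fun M i => C (i :: M))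

lemma act_add (c : List I → (I →₀ K)) (C C' : List I → W) (L : List I) :
    act par c (fun M => C M + C' M) L = act par c C L + act par c C' L := by
  unfold act
  rw [← sh_add_right]
  rfl

lemma act_neg (c : List I → (I →₀ K)) (C : List I → W) (L : List I) :
    act par c (fun M => - C M) L = - act par c C L := by
  unfold act
  rw [← sh_neg_right]
  rfl

lemma act_smul (c : List I → (I →₀ K)) (k : K) (C : List I → W) (L : List I) :
    act par c (fun M => k • C M) L = k • act par c C L := by
  unfold act
  rw [← sh_smul_right]
  rfl

lemma act_mul_const (c : List I → (I →₀ K)) (k : K) (C : List I → K) (L : List I) :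
    act par c (fun M => k * C M) L = k * act par c C L := act_smul par c k C L

lemma act_zero (c : List I → (I →₀ K)) (L : List I) :
    act par c (fun _ => (0 : W)) L = 0 := by
  unfold act
  exact sh_zero_right _ _ _ _

lemma act_sum {σ : Type*} (s : Finset σ) (c : List I → (I →₀ K)) (C : σ → List I → W)
    (L : List I) :
    act par c (fun M => ∑ x ∈ s, C x M) L = ∑ x ∈ s, act par c (C x) L := by
  unfold act
  rw [← sh_sum_right]
  congr 1
  funext M
  funext i
  exact (Finset.sum_apply i s fun x (j : I) => C x (j :: M)).symm

lemma act_comp (c : List I → (I →₀ K)) (C : List I → V) (g : V →ₗ[K] W) (L : List I) :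
    act par c (fun M => g (C M)) L = g (act par c C L) := by
  unfold act
  rw [sh_comp_out]
  have h1 : (fun (M : List I) (i : I) => g (C (i :: M))) =
      fun M => (g.compLeft I) (fun i => C (i :: M)) := by
    funext M i; rfl
  rw [h1, sh_comp_right]
  congr 1
  apply LinearMap.ext; intro v
  apply LinearMap.ext; intro f
  simp only [LinearMap.compl₂_apply, LinearMap.compr₂_apply]
  rw [ev_comp]
  rfl

lemma act_cadd (c c' : List I → (I →₀ K)) (C : List I → W) (L : List I) :
    act par (fun M => c M + c' M) C L = act par c C L + act par c' C L :=
  sh_add_left _ _ _ _ _ _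

lemma act_cneg (c : List I → (I →₀ K)) (C : List I → W) (L : List I) :
    act par (fun M => - c M) C L = - act par c C L :=
  sh_neg_left _ _ _ _ _

lemma act_csmul (c : List I → (I →₀ K)) (k : K) (C : List I → W) (L : List I) :
    act par (fun M => k • c M) C L = k • act par c C L :=
  sh_smul_left _ _ _ _ _ _

lemma act_csum {σ : Type*} (s : Finset σ) (c : σ → List I → (I →₀ K)) (C : List I → W)
    (L : List I) :
    act par (fun M => ∑ x ∈ s, c x M) C L = ∑ x ∈ s, act par (c x) C L :=
  sh_sum_left _ _ _ _ _ _

/-- Multiplication of scalar series. -/
noncomputable def mulK (C : List I → K) (D : List I → W) (L : List I) : W :=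
  sh par (LinearMap.lsmul K W) L C D

/-- The action of a vector field with one component. -/
lemma act_single (i : I) (c : List I → K) (C : List I → W) (L : List I) :
    act par (fun M => Finsupp.single i (c M)) C L = mulK par c (fun M => C (i :: M)) L := by
  unfold act mulK
  have h1 : (fun M => Finsupp.single i (c M)) = fun M => (Finsupp.lsingle i : K →ₗ[K] _) (c M) := by
    funext M; rfl
  have h2 : (fun M : List I => C (i :: M)) =
      fun M => (LinearMap.proj i : (I → W) →ₗ[K] W) (fun j => C (j :: M)) := by
    funext M; rfl
  rw [h1, sh_comp_left, h2, sh_comp_right]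
  congr 1
  apply LinearMap.ext; intro k
  apply LinearMap.ext; intro f
  simp only [LinearMap.compl₂_apply, LinearMap.comp_apply, Finsupp.lsingle_apply, ev_single,
    LinearMap.lsmul_apply, LinearMap.proj_apply]

/-- The diagonal sign operator on `I →₀ K`. -/
noncomputable def S (par : I → Bool) (a b : Bool) : (I →₀ K) →ₗ[K] (I →₀ K) :=
  Finsupp.lsum K fun i => (Finsupp.lsingle i).comp
    ((sg K a (xor (par i) b)) • (LinearMap.id : K →ₗ[K] K))

lemma S_single (a b : Bool) (i : I) (k : K) :
    S par a b (Finsupp.single i k) = Finsupp.single i (sg K a (xor (par i) b) * k) := by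
  unfold S
  rw [Finsupp.lsum_single]
  rfl

/-- The diagonal sign operator on functions. -/
def T (K : Type*) [CommRing K] (W : Type*) [AddCommGroup W] [Module K W] (par : I → Bool)
    (a b : Bool) : (I → W) →ₗ[K] (I → W) where
  toFun f i := sg K a (xor (par i) b) • f i
  map_add' f g := by funext i; simp
  map_smul' k f := by funext i; exact smul_comm _ k (f i)

lemma T_apply (a b : Bool) (f : I → W) (i : I) :
    T K W par a b f i = sg K a (xor (par i) b) • f i := rfl

lemma ev_S_T (a b : Bool) (v : I →₀ K) (f : I → W) :
    ev K I W (S par a b v) (T K W par a b f) = ev K I W v f := by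
  have := finsupp_lin_ext (f := (ev K I W).flip (T K W par a b f) ∘ₗ (S par a b))
    (g := (ev K I W).flip f) (fun i => by
      simp only [LinearMap.comp_apply, LinearMap.flip_apply, S_single, ev_single, T_apply,
        mul_one, ← mul_smul, sg_mul_self]) v
  simpa using this

/-- A vector-valued series of parity `b`: the component `i` of `c M` vanishes unless the parity
of `M` is `par i + b` (in a form valid over every ring). -/
def PV (b : Bool) (c : List I → (I →₀ K)) : Prop :=
  ∀ (a : Bool) (M : List I), lsg K par a M • c M = S par a b (c M)

lemma sh_ev_tw {b : Bool} {c : List I → (I →₀ K)} (hc : PV par b c) (a : Bool)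
    (L : List I) (D : List I → I → W) :
    sh par (ev K I W) L (fun M => lsg K par a M • c M)
      (fun M i => sg K a (xor (par i) b) • D M i) = sh par (ev K I W) L c D := by
  have h1 : (fun M => lsg K par a M • c M) = fun M => S par a b (c M) := by
    funext M; exact hc a M
  have h2 : (fun M i => sg K a (xor (par i) b) • D M i) = fun M => T K W par a b (D M) := by
    funext M i; rfl
  rw [h1, h2, sh_comp_left, sh_comp_right]
  congr 1
  apply LinearMap.ext; intro v
  apply LinearMap.ext; intro f
  simp only [LinearMap.compl₂_apply, LinearMap.comp_apply]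
  exact ev_S_T par a b v f

lemma S_comp (a b b' : Bool) (v : I →₀ K) :
    sg K a b' • S par a b v = S par a (xor b b') v := by
  have := finsupp_lin_ext (f := sg K a b' • S par a b) (g := S par a (xor b b')) (fun i => by
      simp only [LinearMap.smul_apply, S_single, Finsupp.smul_single, smul_eq_mul, mul_one]
      congr 1
      rw [← Bool.xor_assoc, sg_xor_right (K := K) a _ b', mul_comm]) v
  simpa using this

lemma PV.cons {b : Bool} {c : List I → (I →₀ K)} (hc : PV par b c) (j : I) :
    PV par (xor b (par j)) (fun M => c (j :: M)) := by
  intro a M
  have := hc a (j :: M)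
  rw [lsg_cons, mul_smul] at this
  have h2 : sg K a (par j) • (sg K a (par j) • (lsg K par a M • c (j :: M))) =
      sg K a (par j) • S par a b (c (j :: M)) := by rw [this]
  rw [← mul_smul, sg_mul_self, one_smul] at h2
  rw [h2, S_comp]

lemma PV.tw {b : Bool} {c : List I → (I →₀ K)} (hc : PV par b c) (a' : Bool) :
    PV par b (fun M => lsg K par a' M • c M) := by
  intro a M
  rw [smul_comm, hc a M, map_smul]

lemma PV.add {b : Bool} {c c' : List I → (I →₀ K)} (hc : PV par b c) (hc' : PV par b c') :
    PV par b (fun M => c M + c' M) := by
  intro a M
  rw [smul_add, hc a M, hc' a M, map_add]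

lemma PV.neg {b : Bool} {c : List I → (I →₀ K)} (hc : PV par b c) :
    PV par b (fun M => - c M) := by
  intro a M
  rw [smul_neg, hc a M, map_neg]

lemma PV.smul {b : Bool} {c : List I → (I →₀ K)} (hc : PV par b c) (k : K) :
    PV par b (fun M => k • c M) := by
  intro a M
  rw [smul_comm, hc a M, map_smul]

lemma PV.sum {b : Bool} {σ : Type*} (s : Finset σ) {c : σ → List I → (I →₀ K)}
    (hc : ∀ x ∈ s, PV par b (c x)) : PV par b (fun M => ∑ x ∈ s, c x M) := by
  intro a M
  rw [Finset.smul_sum, map_sum]
  exact Finset.sum_congr rfl fun x hx => hc x hx a M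

/-- A vector field is even and each component `i` of `c M` has the right parity: the
product rule for `∂_i`. -/
lemma act_cons {c : List I → (I →₀ K)} (hc : PV par false c) (C : List I → W) (i : I)
    (L : List I)
    (hC : ∀ (j : I) (M : List I), C (j :: i :: M) = sg K (par i) (par j) • C (i :: j :: M)) :
    act par c C (i :: L) = act par (fun M => c (i :: M)) C L +
      act par c (fun M => C (i :: M)) L := by
  unfold act
  rw [sh_cons]
  congr 1
  have h := sh_ev_tw (W := W) par hc (par i) L (fun M j => C (i :: j :: M))
  rw [← h]
  congr 1
  funext M j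
  rw [hC]
  simp

/-- Commuting a series past an even vector field. -/
lemma sh_comm_ev (B : V →ₗ[K] W →ₗ[K] U) {b : Bool} {c : List I → (I →₀ K)}
    (hc : PV par b c) (L : List I) (C : List I → V) (D : List I → I → W) :
    sh par (ev K I U) L c (fun M i => sh par B M
      (fun M' => lsg K par (xor (par i) b) M' • C M') (fun M' => D M' i)) =
    sh par B L C (fun M => sh par (ev K I W) M c D) := by
  induction L generalizing b c C D with
  | nil =>
    simp only [sh_nil, lsg_nil, one_smul]
    rw [ev_comp]
  | cons j L ih =>
    rw [sh_cons, sh_cons]
    -- first summand of the left side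
    have e1 : sh par (ev K I U) L (fun M => c (j :: M)) (fun M i => sh par B M
        (fun M' => lsg K par (xor (par i) b) M' • C M') (fun M' => D M' i)) =
        sh par B L (fun M => lsg K par (par j) M • C M)
          (fun M => sh par (ev K I W) M (fun M => c (j :: M)) D) := by
      rw [← ih (hc.cons par j)]
      congr 1
      funext M i
      congr 1
      funext M'
      rw [← mul_smul]
      congr 1
      rw [← lsg_xor]
      congr 1
      cases par i <;> cases b <;> cases par j <;> rfl
    -- second summand, split
    have e2 : sh par (ev K I U) L (fun M => lsg K par (par j) M • c M)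
        (fun M i => sh par B (j :: M) (fun M' => lsg K par (xor (par i) b) M' • C M')
          (fun M' => D M' i)) =
        sh par B L (fun M => C (j :: M)) (fun M => sh par (ev K I W) M c D) +
        sh par B L (fun M => lsg K par (par j) M • C M)
          (fun M => sh par (ev K I W) M (fun M => lsg K par (par j) M • c M)
            (fun M i => D (j :: M) i)) := by
      have h3 : (fun (M : List I) (i : I) => sh par B (j :: M)
          (fun M' => lsg K par (xor (par i) b) M' • C M') (fun M' => D M' i)) =
          fun M => (fun i => sg K (par j) (xor (par i) b) • sh par B M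
            (fun M' => lsg K par (xor (par i) b) M' • C (j :: M')) (fun M' => D M' i)) +
            (fun i => sh par B M (fun M' => lsg K par (xor (par i) b) M' •
              (lsg K par (par j) M' • C M')) (fun M' => D (j :: M') i)) := by
        funext M i
        simp only [Pi.add_apply]
        rw [sh_cons]
        congr 1
        · rw [← sh_smul_left]
          congr 1
          funext M'
          rw [lsg_cons, mul_smul, sg_comm]
        · congr 1
          funext M'
          rw [smul_comm]
      rw [h3, sh_add_right]
      congr 1
      · rw [sh_ev_tw par hc]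
        exact ih hc _ _
      · exact ih (hc.tw par (par j)) _ _
    have e3 : sh par B L (fun M => lsg K par (par j) M • C M)
        (fun M => sh par (ev K I W) (j :: M) c D) =
        sh par B L (fun M => lsg K par (par j) M • C M)
          (fun M => sh par (ev K I W) M (fun M => c (j :: M)) D) +
        sh par B L (fun M => lsg K par (par j) M • C M)
          (fun M => sh par (ev K I W) M (fun M => lsg K par (par j) M • c M)
            (fun M i => D (j :: M) i)) := by
      rw [← sh_add_right]
      congr 1
    rw [e1, e2, e3]
    abel

/-- Associativity for the action of a vector field on the first factor. -/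
lemma sh_ev_assoc (B : V →ₗ[K] W →ₗ[K] U) (c : List I → (I →₀ K))
    (C : List I → I → V) (D : List I → W) (L : List I) :
    sh par (ev K I U) L c (fun M i => sh par B M (fun M' => C M' i) D) =
      sh par B L (fun M => sh par (ev K I V) M c C) D := by
  let B4 : (I → V) →ₗ[K] W →ₗ[K] (I → U) :=
    LinearMap.mk₂ K (fun f w i => B (f i) w) (fun f f' w => by funext i; simp)
      (fun k f w => by funext i; simp) (fun f w w' => by funext i; simp)
      (fun k f w => by funext i; simp)
  have h2 : (fun (M : List I) (i : I) => sh par B M (fun M' => C M' i) D) =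
      fun M => sh par B4 M C D := by
    funext M i
    have h3 := sh_comp_out par B4 (LinearMap.proj i : (I → U) →ₗ[K] U) M C D
    simp only [LinearMap.proj_apply] at h3
    rw [h3]
    have h4 : (fun M' : List I => C M' i) =
        fun M' => (LinearMap.proj i : (I → V) →ₗ[K] V) (C M') := by
      funext M'; rfl
    rw [h4, sh_comp_left]
    congr 1
  rw [h2]
  symm
  apply sh_assoc
  intro v f w
  exact ev_comp (K := K) v f (B.flip w)

/-- Leibniz rule for even vector fields. -/
lemma act_sh (B : V →ₗ[K] W →ₗ[K] U) {c : List I → (I →₀ K)} (hc : PV par false c)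
    (C : List I → V) (D : List I → W) (L : List I) :
    act par c (fun M => sh par B M C D) L =
      sh par B L (act par c C) D + sh par B L C (act par c D) := by
  have h1 : act par c (fun M => sh par B M C D) L =
      sh par (ev K I U) L c (fun M => (fun i => sh par B M (fun M' => C (i :: M')) D) +
        (fun i => sh par B M (fun M' => lsg K par (par i) M' • C M')
          (fun M' => D (i :: M')))) := by
    unfold act
    congr 1
  rw [h1, sh_add_right]
  congr 1
  · exact sh_ev_assoc par B c (fun M i => C (i :: M)) D L
  · have := sh_comm_ev par B hc L C (fun M i => D (i :: M))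
    simp only [Bool.xor_false] at this
    exact this

/-- The tautological vector field shifted: acting on coordinates. -/
lemma act_coord (c : List I → (I →₀ K)) (τ : List I → (I →₀ K))
    (hτ : ∀ i M, τ (i :: M) = cst (Finsupp.single i 1) M) (L : List I) :
    act par c τ L = c L := by
  unfold act
  have h : (fun (M : List I) (i : I) => τ (i :: M)) =
      cst (fun i => (Finsupp.single i 1 : I →₀ K)) := by
    funext M i
    rw [hτ]
    cases M <;> rfl
  rw [h, sh_cst_right, ev_basis]

/-- Componentwise action on function-valued series. -/
lemma act_apply {σ : Type*} (c : List I → (I →₀ K)) (C : List I → σ → W) (x : σ)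
    (L : List I) : act par c C L x = act par c (fun M => C M x) L := by
  have h := act_comp par c C (LinearMap.proj x : (σ → W) →ₗ[K] W) L
  simp only [LinearMap.proj_apply] at h
  exact h.symm

lemma act_cmap (c : List I → (I →₀ K)) (f : (I →₀ K) →ₗ[K] (I →₀ K)) (C : List I → W)
    (L : List I) : act par (fun M => f (c M)) C L =
      sh par (ev K I W) L c (fun M i => ev K I W (f (Finsupp.single i 1))
        (fun j => C (j :: M))) := by
  unfold act
  rw [sh_comp_left]
  let g : (I → W) →ₗ[K] (I → W) :=
    { toFun := fun h i => ev K I W (f (Finsupp.single i 1)) h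
      map_add' := fun h h' => by funext i; simp
      map_smul' := fun k h => by funext i; simp }
  have h1 : (fun (M : List I) (i : I) => ev K I W (f (Finsupp.single i 1))
      (fun j => C (j :: M))) = fun M => g (fun j => C (j :: M)) := by
    funext M i; rfl
  rw [h1, sh_comp_right]
  congr 1
  apply LinearMap.ext; intro v
  apply LinearMap.ext; intro h
  simp only [LinearMap.compl₂_apply, LinearMap.comp_apply]
  have := finsupp_lin_ext (f := (ev K I W).flip h ∘ₗ f) (g := (ev K I W).flip (g h))
    (fun i => by simp [g]) v
  simpa using this

/-- Signed symmetry of a series under exchange of neighbours. -/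
def SymF (C : List I → W) : Prop :=
  ∀ (L M : List I) (i j : I), C (L ++ i :: j :: M) = sg K (par i) (par j) • C (L ++ j :: i :: M)

variable {par} in
lemma SymF.cons {C : List I → W} (hC : SymF (K := K) par C) (k : I) :
    SymF (K := K) par (fun M => C (k :: M)) := fun L M i j => hC (k :: L) M i j

/-- Replace one entry after the other by its image under `A`. -/
noncomputable def rep (A : I → (I →₀ K)) : (List I → W) → List I → W
  | _, [] => 0
  | C, i :: L => ev K I W (A i) (fun j => C (j :: L)) + rep A (fun M => C (i :: M)) L

/-- The dilaton-shifted coordinate vector. -/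
noncomputable def tau (o : I) : List I → (I →₀ K)
  | [] => - Finsupp.single o 1
  | [i] => Finsupp.single i 1
  | _ :: _ :: _ => 0

lemma tau_cons (o i : I) (M : List I) :
    tau (K := K) o (i :: M) = cst (Finsupp.single i 1) M := by
  cases M <;> rfl

lemma PV_tau (o : I) (ho : par o = false) : PV par false (tau (K := K) o) := by
  intro a M
  match M with
  | [] =>
    simp only [lsg_nil, one_smul, tau, map_neg, S_single, ho]
    simp
  | [i] => simp [tau, S_single]
  | _ :: _ :: _ => simp [tau]

/-- An operator on `I →₀ K` preserving parities. -/
def EvenOp (A : (I →₀ K) →ₗ[K] (I →₀ K)) : Prop :=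
  ∀ (a b : Bool) (v : I →₀ K), S par a b (A v) = A (S par a b v)

variable {par} in
lemma PV.map {b : Bool} {c : List I → (I →₀ K)} (hc : PV par b c)
    {A : (I →₀ K) →ₗ[K] (I →₀ K)} (hA : EvenOp par A) : PV par b (fun M => A (c M)) := by
  intro a M
  rw [hA, ← hc a M, map_smul]

/-- The action of `A τ` on a symmetric series is given by replacement of entries. -/
lemma act_tau (o : I) (ho : par o = false) {A : (I →₀ K) →ₗ[K] (I →₀ K)}
    (hA : EvenOp par A) (C : List I → W) (hC : SymF (K := K) par C) (L : List I) :
    act par (fun M => A (tau o M)) C L = rep (fun i => A (Finsupp.single i 1)) C L -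
      ev K I W (A (Finsupp.single o 1)) (fun j => C (j :: L)) := by
  induction L generalizing C with
  | nil =>
    unfold act
    simp [sh_nil, tau, rep]
  | cons i L ih =>
    rw [act_cons par ((PV_tau par o ho).map hA) C i L (fun j M => by
      rw [sg_comm]; exact hC [] M j i)]
    rw [ih (fun M => C (i :: M)) (hC.cons i)]
    have h1 : act par (fun M => A (tau o (i :: M))) C L =
        ev K I W (A (Finsupp.single i 1)) (fun j => C (j :: L)) := by
      have : (fun M => A (tau (K := K) o (i :: M))) = cst (A (Finsupp.single i 1)) := by
        funext M
        rw [tau_cons]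
        cases M <;> simp
      rw [this]
      unfold act
      rw [sh_cst_left]
    rw [h1]
    -- compare the last terms
    have h2 : ev K I W (A (Finsupp.single o 1)) (fun j => C (j :: i :: L)) =
        ev K I W (A (Finsupp.single o 1)) (fun j => C (i :: j :: L)) := by
      have e1 : (fun j => C (j :: i :: L)) =
          T K W par (par i) false (fun j => C (i :: j :: L)) := by
        funext j
        rw [T_apply]
        simp only [Bool.xor_false]
        rw [sg_comm]
        exact hC [] L j i
      have e2 : S par (par i) false (A (Finsupp.single o 1)) = A (Finsupp.single o 1) := by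
        rw [hA, S_single, ho]; simp
      rw [e1]
      nth_rewrite 1 [← e2]
      rw [ev_S_T]
    rw [h2]
    simp only [rep]
    abel

end Vale.Agent.P269.H597
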